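import Vale.Agent.P253W.T.Basic
import Vale.Agent.P253W.V.Geo
import Vale.Agent.P253W.V.Alg
import Vale.Agent.P253Z.B1a
import Vale.Agent.P253Z.B1b

/-!
# P253W, block T, row DSC: holomorphic discs
-/

open scoped Manifold ContDiff Bundle ENNReal Topology ComplexConjugate ComplexOrder Matrix
open Bundle IsManifold MeasureTheory Set Metric Filter Vale.Agent.P253.Mfd Vale.Agent.P253Z
open Vale.Agent.P272.K (Cm jacM Chart)

noncomputable section

namespace Vale.Agent.P253W.T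

namespace Dsc

theorem seq {M : Type} [MetricSpace M] (f : ℕ → ℂ → M) (g : ℂ → M) (l : Filter ℕ) (U : Set ℂ)
    (P : ℕ → Prop) (hl : l.NeBot) (h0 : l ≤ atTop) (hU : IsOpen U) (hP : ∀ᶠ k in l, P k)
    (h : TendstoLocallyUniformlyOn f g l U) : ∃ s : ℕ → ℕ, StrictMono s ∧ (∀ k, P (s k)) ∧
      TendstoLocallyUniformlyOn (fun k => f (s k)) g atTop U := by
  rw [tendstoLocallyUniformlyOn_iff_forall_isCompact hU] at h
  have p : ∀ j : ℕ, (0 : ℝ) < 1 / (j + 1) := fun _ => Nat.one_div_pos_of_nat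
  obtain ⟨s, hs, h1⟩ := extraction_forall_of_frequently (P := fun j k => P k ∧
      ∀ τ ∈ closedBall (0 : ℂ) j \ thickening (1 / (j + 1)) Uᶜ, dist (g τ) (f k τ) < 1 / (j + 1))
    fun j => (hP.and (Metric.tendstoUniformlyOn_iff.1 (h _
      (fun τ hτ => by_contra fun c => hτ.2 (self_subset_thickening (p j) _ c))
      ((isCompact_closedBall _ _).diff isOpen_thickening)) _ (p j))).frequently.filter_mono h0
  refine ⟨s, hs, fun k => (h1 k).1, (tendstoLocallyUniformlyOn_iff_forall_isCompact hU).2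
    fun K hK hc => Metric.tendstoUniformlyOn_iff.2 fun ε hε => ?_⟩
  obtain ⟨δ, hδ, h2⟩ := hc.exists_thickening_subset_open hU hK
  obtain ⟨R, hR⟩ := hc.isBounded.subset_closedBall 0
  have t := tendsto_one_div_add_atTop_nhds_zero_nat (𝕜 := ℝ)
  filter_upwards [t.eventually_lt_const hε, t.eventually_lt_const hδ,
    (tendsto_natCast_atTop_atTop (R := ℝ)).eventually_ge_atTop R] with j j1 j2 j3 τ hτ
  refine ((h1 j).2 τ ⟨closedBall_subset_closedBall j3 (hR hτ), fun c => ?_⟩).trans j1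
  obtain ⟨z, hz, h3⟩ := mem_thickening_iff.1 c
  exact hz (h2 (mem_thickening_iff.2 ⟨τ, hτ, by rw [dist_comm]; exact h3.trans j2⟩))

variable {n : ℕ} {M : Type} [MetricSpace M] [ChartedSpace (Cm n) M] {e : Chart n M} {f : ℂ → M}
  {τ : ℂ} {U : Set ℂ}

theorem qf_smul (A : Mx n) (c : ℂ) (v : Cm n) : qf A (c • v) = ‖c‖ ^ 2 * qf A v := by
  rw [qf, qf, star_smul, Matrix.mulVec_smul, smul_dotProduct, dotProduct_smul, smul_smul,
    smul_eq_mul, Complex.star_def, Complex.mul_conj, Complex.re_ofReal_mul,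
    Complex.normSq_eq_norm_sq]

theorem qf_pb' (J A : Mx n) (v : Cm n) : qf (pb J A) v = qf A (J *ᵥ v) := by
  have h : J.map (starRingEnd ℂ) *ᵥ star v = star (J *ᵥ v) := by
    funext i
    simp [Matrix.mulVec, dotProduct]
  unfold qf pb
  rw [← Matrix.mulVec_mulVec, ← Matrix.mulVec_mulVec, h, Matrix.dotProduct_mulVec,
    Matrix.vecMul_transpose]

theorem symm (he : Hc e) {F : ℂ → Cm n} (hF : DifferentiableOn ℂ F U) (h : MapsTo F U e.target) :
    HolOn n (fun τ => e.symm (F τ)) U :=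
  ((contMDiffOn_symm_of_mem_maximalAtlas he).mdifferentiableOn one_ne_zero).comp
    hF.mdifferentiableOn h

theorem diff (hf : MDifferentiableAt 𝓘(ℂ, ℂ) 𝓘(ℂ, Cm n) f τ) (he : Hc e) (h : f τ ∈ e.source) :
    DifferentiableAt ℂ (fun s => e (f s)) τ :=
  mdifferentiableAt_iff_differentiableAt.1
    ((((contMDiffOn_of_mem_maximalAtlas he).mdifferentiableOn one_ne_zero).mdifferentiableAt
      (e.open_source.mem_nhds h)).comp τ hf)

variable [IsManifold 𝓘(ℂ, Cm n) 1 M] [IsManifold 𝓘(ℝ, Cm n) ∞ M]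
  [RiemannianBundle (fun x : M => TangentSpace 𝓘(ℝ, Cm n) x)]
  [IsContMDiffRiemannianBundle 𝓘(ℝ, Cm n) ∞ (Cm n) (fun x : M => TangentSpace 𝓘(ℝ, Cm n) x)]

omit [IsManifold 𝓘(ℂ, Cm n) 1 M] [IsManifold 𝓘(ℝ, Cm n) ∞ M]
  [IsContMDiffRiemannianBundle 𝓘(ℝ, Cm n) ∞ (Cm n) (fun x : M => TangentSpace 𝓘(ℝ, Cm n) x)] in
theorem dens_eq (hK : IsKahler (Cm n) M) (a : B1a n M) (b : B1b n M)
    (hf : MDifferentiableAt 𝓘(ℂ, ℂ) 𝓘(ℂ, Cm n) f τ) (he : Hc e) (h : f τ ∈ e.source) :
    dens n f τ = qf (hm e (e (f τ))) (deriv (fun s => e (f s)) τ) := by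
  have h' := mem_chart_source (Cm n) (f τ)
  have h1 := (a.hol e _ he (a.chart (f τ)) _ (e.map_source h)
    (by rwa [e.left_inv h])).differentiableAt.hasFDerivAt.comp_hasDerivAt τ
      (diff hf he h).hasDerivAt
  have h2 : (fun s => pc n (f τ) (f s)) =ᶠ[𝓝 τ]
      (fun y => pc n (f τ) (e.symm y)) ∘ fun s => e (f s) := by
    filter_upwards [hf.continuousAt.eventually (e.open_source.mem_nhds h)] with s hs
    rw [Function.comp, e.left_inv hs]
  rw [b.wch e _ he (a.chart _) _ h h', qf_pb', a.jac_eq e _ he (a.chart _) _ h h',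
    LinearMap.toMatrix'_mulVec, V.GeoA.qf_hm hK (a.chart _) (mem_chart_target _ _), dens,
    (h1.congr_of_eventuallyEq h2).deriv]
  rfl

theorem met_cont (he : Hc e) {z : Cm n} (hz : z ∈ e.target) (v : Cm n) :
    ContinuousAt (fun p : Cm n × Cm n => chartMetric e p.1 p.2 p.2) (z, v) :=
  ((((contDiffOn_chartG (mem_maximalAtlas_real he)).continuousOn.continuousAt
    (e.open_target.mem_nhds hz)).comp_of_eq continuousAt_fst rfl).clm_apply
      continuousAt_snd).clm_apply continuousAt_snd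

variable (hK : IsKahler (Cm n) M) (a : B1a n M) (b : B1b n M)

include hK a b

omit [IsManifold 𝓘(ℂ, Cm n) 1 M] [IsManifold 𝓘(ℝ, Cm n) ∞ M]
  [IsContMDiffRiemannianBundle 𝓘(ℝ, Cm n) ∞ (Cm n) (fun x : M => TangentSpace 𝓘(ℝ, Cm n) x)] in
theorem dens_ch (hf : MDifferentiableAt 𝓘(ℂ, ℂ) 𝓘(ℂ, Cm n) f τ) (he : Hc e)
    (h : f τ ∈ e.source) : dens n f τ =
      chartMetric e (e (f τ)) (deriv (fun s => e (f s)) τ) (deriv (fun s => e (f s)) τ) :=
  (dens_eq hK a b hf he h).trans (V.GeoA.qf_hm hK he (e.map_source h) _)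

theorem cont (hU : IsOpen U) (hf : HolOn n f U) : ContinuousOn (dens n f) U := fun τ hτ => by
  have h' := mem_chart_source (Cm n) (f τ)
  have hV := hf.continuousOn.isOpen_inter_preimage hU (pc n (f τ)).open_source
  have h1 : DifferentiableOn ℂ (fun s => pc n (f τ) (f s)) (U ∩ f ⁻¹' (pc n (f τ)).source) :=
    fun s hs => (diff (hf.mdifferentiableAt (hU.mem_nhds hs.1)) (a.chart _)
      hs.2).differentiableWithinAt
  have hn := hV.mem_nhds (x := τ) ⟨hτ, h'⟩
  refine (((met_cont (a.chart _) (mem_chart_target _ (f τ)) _).comp_of_eq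
    ((h1.continuousOn.continuousAt hn).prodMk ((h1.deriv hV).continuousOn.continuousAt hn))
      rfl).congr ?_).continuousWithinAt
  filter_upwards [hn] with s hs
  exact (dens_ch hK a b (hf.mdifferentiableAt (hU.mem_nhds hs.1)) (a.chart _) hs.2).symm

theorem lim {f : ℕ → ℂ → M} {g : ℂ → M} {l : Filter ℕ} [l.NeBot] (hU : IsOpen U)
    (hf : ∀ᶠ k in l, HolOn n (f k) U) (h : TendstoLocallyUniformlyOn f g l U) (hτ : τ ∈ U) :
    MDifferentiableAt 𝓘(ℂ, ℂ) 𝓘(ℂ, Cm n) g τ ∧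
      Tendsto (fun k => dens n (f k) τ) l (𝓝 (dens n g τ)) := by
  have cg := h.continuousOn (hf.mono fun _ h => h.continuousOn).frequently
  have t1 : ∀ s ∈ U, Tendsto (fun y : ℕ × ℂ => g y.2) (l ×ˢ 𝓝 s) (𝓝 (g s)) := fun s hs =>
    (cg.continuousAt (hU.mem_nhds hs)).tendsto.comp tendsto_snd
  have t2 : ∀ s ∈ U, Tendsto (fun y : ℕ × ℂ => f y.1 y.2) (l ×ˢ 𝓝 s) (𝓝 (g s)) := fun s hs =>
    (t1 s hs).congr_uniformity (hU.nhdsWithin_eq hs ▸
      tendstoLocallyUniformlyOn_iff_forall_tendsto.1 h s hs)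
  have h' := mem_chart_source (Cm n) (g τ)
  have he := a.chart (g τ)
  generalize chartAt (Cm n) (g τ) = e at h' he
  obtain ⟨p, hp, q, hq, h1⟩ := eventually_prod_iff.1
    ((t2 τ hτ).eventually (e.open_source.mem_nhds h'))
  obtain ⟨V, v1, hV, v2⟩ := _root_.mem_nhds_iff.1 (hq.and ((hU.eventually_mem hτ).and
    ((cg.continuousAt (hU.mem_nhds hτ)).eventually (e.open_source.mem_nhds h'))))
  have h2 : TendstoLocallyUniformlyOn (fun k s => e (f k s)) (fun s => e (g s)) l V :=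
    tendstoLocallyUniformlyOn_iff_forall_tendsto.2 fun s hs => by
      have c := (e.continuousAt (v1 hs).2.2).tendsto
      rw [hV.nhdsWithin_eq hs]
      exact ((c.comp (t1 s (v1 hs).2.1)).prodMk_nhds (c.comp (t2 s (v1 hs).2.1))).mono_right
        (nhds_le_uniformity _)
  have h3 : ∀ᶠ k in l, DifferentiableOn ℂ (fun s => e (f k s)) V := by
    filter_upwards [hp, hf] with k k1 k2 s hs
    exact (diff (k2.mdifferentiableAt (hU.mem_nhds (v1 hs).2.1)) he
      (h1 k1 (v1 hs).1)).differentiableWithinAt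
  have h4 : MDifferentiableAt 𝓘(ℂ, ℂ) 𝓘(ℂ, Cm n) g τ :=
    ((symm he (h2.differentiableOn h3 hV) fun s hs => e.map_source (v1 hs).2.2).mdifferentiableAt
      (hV.mem_nhds v2)).congr_of_eventuallyEq (by
        filter_upwards [hV.mem_nhds v2] with s hs using (e.left_inv (v1 hs).2.2).symm)
  refine ⟨h4, ?_⟩
  rw [dens_ch hK a b h4 he h']
  refine ((met_cont he (e.map_source h') _).tendsto.comp ((h2.tendsto_at v2).prodMk_nhds
    ((h2.deriv h3 hV).tendsto_at v2))).congr' ?_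
  filter_upwards [hp, hf] with k k1 k2
  exact (dens_ch hK a b (k2.mdifferentiableAt (hU.mem_nhds hτ)) he (h1 k1 (v1 v2).1)).symm

theorem len [IsRiemannianManifold 𝓘(ℝ, Cm n) M] (p q : ℂ) (hU : IsOpen U) (hf : HolOn n f U)
    (hs : segment ℝ p q ⊆ U) :
    dist (f p) (f q) ≤ ∫ t in (0 : ℝ)..1, √(dens n f (p + t * (q - p))) * ‖q - p‖ := by
  have m : MapsTo (fun t : ℝ => p + t * (q - p)) (Icc 0 1) U := fun t ht =>
    hs (by rw [segment_eq_image']; exact ⟨t, ht, by simp⟩)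
  have c : Continuous fun t : ℝ => p + t * (q - p) := by fun_prop
  have h := (V.geo_row n M hK).1 (fun t => f (p + t * (q - p)))
    (fun t => √(dens n f (p + t * (q - p))) * ‖q - p‖) 0 1 zero_le_one
    (hf.continuousOn.comp c.continuousOn m)
    (((cont hK a b hU hf).comp c.continuousOn m).sqrt.mul continuousOn_const) fun s h0 => ?_
  · simpa using h
  have h1 := hf.mdifferentiableAt (hU.mem_nhds (m (Ico_subset_Icc_self h0)))
  have h2 := mem_chart_source (Cm n) (f (p + s * (q - p)))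
  have h3 : HasDerivAt (fun t : ℝ => p + t * (q - p)) (q - p) s := by
    simpa using ((hasDerivAt_id s).ofReal_comp.mul_const (q - p)).const_add p
  have h4 := (diff h1 (a.chart _) h2).hasDerivAt.scomp s h3
  refine ⟨_, a.chart _, h2, _, h4.hasDerivWithinAt, le_of_eq ?_⟩
  rw [qf_smul, ← dens_eq hK a b h1 (a.chart _) h2, Real.sqrt_mul (sq_nonneg _),
    Real.sqrt_sq (norm_nonneg _), mul_comm]

end Dsc

variable {n : ℕ} {M : Type} [MetricSpace M] [ChartedSpace (Cm n) M]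
  [IsManifold 𝓘(ℂ, Cm n) 1 M] [IsManifold 𝓘(ℝ, Cm n) ∞ M]
  [RiemannianBundle (fun x : M => TangentSpace 𝓘(ℝ, Cm n) x)]
  [IsContMDiffRiemannianBundle 𝓘(ℝ, Cm n) ∞ (Cm n) (fun x : M => TangentSpace 𝓘(ℝ, Cm n) x)]
  [IsRiemannianManifold 𝓘(ℝ, Cm n) M] [CompleteSpace M] [ConnectedSpace M] [NoncompactSpace M]
  [MeasurableSpace M] [BorelSpace M] {μ : Measure M}

set_option linter.unusedSectionVars false in
theorem dsc (c : Ctx n μ) : DSC n M :=
  have a : B1a n M := b1a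
  have b : B1b n M := b1b c.kahler a
  { hol := fun g _ _ hg hf => mdifferentiableOn_iff_differentiableOn.1
      (((a.sec_zero g).1 hg).comp_mdifferentiableOn hf)
    symm := fun _ _ _ he hF h => Dsc.symm he hF h
    chart := fun _ _ hf _ he h => ⟨Dsc.diff hf he h, Dsc.dens_ch c.kahler a b hf he h⟩
    nonneg := fun _ _ => real_inner_self_nonneg
    cont := fun _ _ hU hf => Dsc.cont c.kahler a b hU hf
    len := fun _ _ p q hU hf hs => Dsc.len c.kahler a b p q hU hf hs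
    lim := fun _ _ _ _ _ hU hf h =>
      ⟨fun _ hτ => (Dsc.lim c.kahler a b hU hf h hτ).1.mdifferentiableWithinAt,
        fun _ hτ => (Dsc.lim c.kahler a b hU hf h hτ).2⟩
    seq := Dsc.seq }

end Vale.Agent.P253W.T
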