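import Vale.Agent.P253W.T.Basic
import Vale.Agent.P253W.V.Alg
import Vale.Agent.P253W.V.Uli

/-!
# P253W, block T, row DJ: differentials and Jacobians
-/

open scoped Manifold ContDiff Bundle Topology ComplexConjugate ComplexOrder Matrix
open Bundle IsManifold Set Metric Filter Vale.Agent.P253Z
open Vale.Agent.P272.K (Cm dz jacM Chart)

noncomputable section

namespace Vale.Agent.P253W.T

namespace DjA

variable {n : ℕ}

theorem det_le {H : Mx n} (hH : H.PosSemidef) : H.det.re ≤ H.trace.re ^ n := by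
  rw [hH.isHermitian.det_eq_prod_eigenvalues, hH.isHermitian.trace_eq_sum_eigenvalues]
  have h2 := Finset.prod_le_prod (s := Finset.univ) (fun i _ => hH.eigenvalues_nonneg i)
    fun i hi => Finset.single_le_sum (fun i _ => hH.eigenvalues_nonneg i) hi
  simpa [← Complex.ofReal_prod] using h2

theorem hadamard {H : Mx n} (hH : H.PosDef) (ξ : Fin n → Cm n) :
    ‖(Matrix.of ξ).det‖ ^ 2 * (H.det.re)⁻¹ ≤ (∑ i, hq H (ξ i)) ^ n := by
  have h1 := det_le (hH.inv.posSemidef.conjTranspose_mul_mul_same (Matrix.of ξ)ᵀ)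
  have h2 : ((Matrix.of ξ)ᵀᴴ * H⁻¹ * (Matrix.of ξ)ᵀ).trace.re = ∑ i, hq H (ξ i) := by
    rw [Matrix.trace, Complex.re_sum, Matrix.mul_assoc]
    rfl
  have h3 := (Complex.pos_iff.1 hH.det_pos).2
  have h4 : H⁻¹.det = ((H.det.re)⁻¹ : ℝ) := by
    rw [Matrix.det_nonsing_inv, Ring.inverse_eq_inv', ← Complex.re_add_im H.det, ← h3]
    simp
  rw [h2, Matrix.det_mul, Matrix.det_mul, Matrix.det_conjTranspose, Matrix.det_transpose, h4,
    mul_right_comm, Complex.star_def, Complex.conj_mul', ← Complex.ofReal_pow, ← Complex.ofReal_mul,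
    Complex.ofReal_re] at h1
  exact h1

variable {M : Type} [MetricSpace M] [ChartedSpace (Cm n) M] {e e' : Chart n M}

theorem mp_an {z : Fin n → M → ℂ} (hz : ∀ i, IsSec n 0 (z i)) (he : Hc e) {w : Cm n}
    (hw : w ∈ e.target) : AnalyticAt ℂ (fun y => mp z (e.symm y)) w :=
  analyticAt_pi_iff.2 fun i => sec0.1 (hz i) e he w hw

theorem mat_eq {z : Fin n → M → ℂ} (hz : ∀ i, IsSec n 0 (z i)) (he : Hc e) {w : Cm n}
    (hw : w ∈ e.target) : (Matrix.of fun i => dv (z i) e w) =
      LinearMap.toMatrix' (fderiv ℂ (fun y => mp z (e.symm y)) w : Cm n →ₗ[ℂ] Cm n) := by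
  ext i j
  exact B1aP.dz_comp (mp_an hz he hw).differentiableAt i j

omit [ChartedSpace (Cm n) M] in
theorem one {z : Fin n → M → ℂ} (h : ∀ y ∈ e.source, e y = mp z y) {w : Cm n}
    (hw : w ∈ e.target) (i : Fin n) : dv (z i) e w = Pi.single i 1 := by
  funext j
  have h1 : (fun y => z i (e.symm y)) =ᶠ[𝓝 w] fun y => id y i := by
    filter_upwards [e.open_target.mem_nhds hw] with y hy
    exact congrFun ((h _ (e.map_target hy)).symm.trans (e.right_inv hy)) i
  rw [dv, Vale.Agent.P272.K.C2.dz_congr j h1, B1aP.dz_comp differentiableAt_id, fderiv_id]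
  simp [Pi.single_apply, eq_comm]

variable [IsManifold 𝓘(ℂ, Cm n) 1 M]

theorem dv_ch {f : M → ℂ} (hf : IsSec n 0 f) (he : Hc e) (he' : Hc e') {x : M}
    (hx : x ∈ e.source) (hx' : x ∈ e'.source) :
    dv f e (e x) = dv f e' (e' x) ᵥ* jacM e e' x := by
  have h1 := (B1aP.hol' he he' hx hx').differentiableAt
  have h2 := (sec0.1 hf e' he' _ (e'.map_source hx')).differentiableAt
  have h3 : DifferentiableAt ℂ (fun y => f (e'.symm y)) (e' (e.symm (e x))) := by
    rwa [e.left_inv hx]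
  have h4 : (fun y => f (e.symm y)) =ᶠ[𝓝 (e x)]
      (fun y => f (e'.symm y)) ∘ fun y => e' (e.symm y) := by
    filter_upwards [B1aP.ev_both (e.map_source hx)
      (by rwa [e.left_inv hx] : e.symm (e x) ∈ e'.source)] with y hy
    simp only [Function.comp_apply, e'.left_inv hy.2]
  have h5 := HasFDerivAt.comp (f := fun y => e' (e.symm y)) (e x) h3.hasFDerivAt h1.hasFDerivAt
  funext j
  rw [dv, Vale.Agent.P272.K.C2.dz_congr j h4, Vale.Agent.P272.K.dz_of_holo h5.differentiableAt,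
    h5.fderiv, e.left_inv hx, B1aP.jac_eq he he' hx hx', ContinuousLinearMap.comp_apply]
  conv_lhs => rw [pi_eq_sum_univ' (fderiv ℂ (fun y => e' (e.symm y)) (e x) (Pi.single j 1))]
  simp only [map_sum, map_smul, smul_eq_mul, Matrix.vecMul, dotProduct, dv,
    Vale.Agent.P272.K.dz_of_holo h2, LinearMap.toMatrix'_apply, ContinuousLinearMap.coe_coe]
  exact Finset.sum_congr rfl fun p _ => mul_comm _ _

theorem dv_eq {f : M → ℂ} (hf : IsSec n 0 f) (he : Hc e) {w : Cm n} (hw : w ∈ e.target) :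
    dv f e w = dx n f (e.symm w) ᵥ* jacM e (pc n (e.symm w)) (e.symm w) := by
  have h := dv_ch hf he (B1aP.chart (e.symm w)) (e.map_target hw) (mem_chart_source _ _)
  rwa [e.right_inv hw] at h

theorem co_eq {z : Fin n → M → ℂ} (hz : ∀ i, IsSec n 0 (z i)) (he : Hc e) {w : Cm n}
    (hw : w ∈ e.target) : co 1 (jac z) e w = (Matrix.of fun i => dv (z i) e w).det := by
  have h : (Matrix.of fun i => dv (z i) e w) = (Matrix.of fun i => dx n (z i) (e.symm w)) *
      jacM e (pc n (e.symm w)) (e.symm w) := by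
    ext i j
    rw [Matrix.of_apply, dv_eq (hz i) he hw]
    rfl
  rw [h, Matrix.det_mul, co, zpow_one, mul_comm]
  rfl

theorem ne_iff {z : Fin n → M → ℂ} (hz : ∀ i, IsSec n 0 (z i)) (he : Hc e) {w : Cm n}
    (hw : w ∈ e.target) : jac z (e.symm w) ≠ 0 ↔ (Matrix.of fun i => dv (z i) e w).det ≠ 0 := by
  rw [← co_eq hz he hw, co, zpow_one, mul_ne_zero_iff_left
    (B1aP.jac_ne he (B1aP.chart _) (e.map_target hw) (mem_chart_source _ _))]

end DjA

open DjA

variable {n : ℕ} {M : Type} [MetricSpace M] [ChartedSpace (Cm n) M] [IsManifold 𝓘(ℂ, Cm n) 1 M]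
  [RiemannianBundle (fun x : M => TangentSpace 𝓘(ℝ, Cm n) x)]

/-- **DJ** -/
theorem dj (a : B1a n M) (b : B1b n M) : DJ n M where
  sec z hz e he w hw := by
    refine (B1aP.analyticAt_det (mp_an hz he hw)).congr ?_
    filter_upwards [e.open_target.mem_nhds hw] with y hy
    rw [co_eq hz he hy, mat_eq hz he hy]
  co z hz e he w hw := co_eq hz he hw
  fd z hz e he w hw := by
    rw [ne_iff hz he hw, mat_eq hz he hw, LinearMap.det_toMatrix', ← isUnit_iff_ne_zero,
      ← LinearMap.isUnit_iff_isUnit_det, Module.End.isUnit_iff]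
    rfl
  chart z hz x hx := by
    obtain ⟨e, he, hxe, h⟩ := V.UliA.chart_of hz hx
    refine ⟨e, he, hxe, fun y hy => ⟨h y hy, ?_⟩⟩
    have h1 : (Matrix.of fun i => dv (z i) e (e y)) = 1 := by
      ext i j
      rw [Matrix.of_apply, DjA.one h (e.map_source hy), Matrix.one_apply, Pi.single_apply]
      simp [eq_comm]
    rw [← e.left_inv hy, ne_iff hz he (e.map_source hy), h1, Matrix.det_one]
    exact one_ne_zero
  one z e _ h w hw i := DjA.one h hw i
  gr f hf e he w hw := by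
    have h1 := b.wch e _ he (a.chart (e.symm w)) _ (e.map_target hw) (mem_chart_source _ _)
    rw [e.right_inv hw] at h1
    rw [h1, dv_eq hf he hw, V.Alg.hq_pb
      (a.jac_ne e _ he (a.chart _) _ (e.map_target hw) (mem_chart_source _ _))]
    rfl
  gr_nonneg f x := (Complex.nonneg_iff.1 ((b.wpos _ (a.chart x) _
    (mem_chart_target _ x)).inv.posSemidef.dotProduct_mulVec_nonneg _)).1
  had z x := by
    rw [nrm, zpow_neg, zpow_one]
    exact hadamard (b.wpos _ (a.chart x) _ (mem_chart_target _ x)) _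

end Vale.Agent.P253W.T
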