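import Vale.Agent.P253W.T.Basic
import Vale.Agent.P253Z.T2.Conn
import Vale.Agent.P253Z.T2.Asm

/-!
# P253W, row T.AFFZ: tame coordinates are proper over the complement of a hypersurface
-/

open scoped Manifold ContDiff Bundle ENNReal Topology ComplexConjugate ComplexOrder
open Bundle IsManifold MeasureTheory Set Metric Filter Vale.Agent.P253.Mfd Vale.Agent.P253Z
open Vale.Agent.P272.K (Cm dz dzb cHess jacM Chart)
open Vale.Agent.P253Z.T2 (Pz Phi)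

noncomputable section

namespace Vale.Agent.P253W.T

variable {n : ℕ} {M : Type} [MetricSpace M] [ChartedSpace (Cm n) M]

namespace Affz

theorem conn (Q : Pz n) : IsPreconnected {ζ : Cm n | MvPolynomial.eval ζ Q ≠ 0} := by
  refine isPreconnected_of_forall_pair fun ζ hζ ξ hξ => ?_
  obtain ⟨p, hp⟩ : ∃ p : Polynomial ℂ, ∀ t, p.eval t = MvPolynomial.eval (ζ + t • (ξ - ζ)) Q := by
    clear hζ hξ
    induction Q using MvPolynomial.induction_on with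
    | C a => exact ⟨.C a, by simp⟩
    | add p q hp hq =>
      obtain ⟨p', hp⟩ := hp
      obtain ⟨q', hq⟩ := hq
      exact ⟨p' + q', by simp [hp, hq]⟩
    | mul_X p i hp =>
      obtain ⟨p', hp⟩ := hp
      exact ⟨p' * (.C (ζ i) + .X * .C (ξ i - ζ i)), by simp [hp]⟩
  have h0 : p.eval 0 ≠ 0 := by simpa [hp] using hζ
  have h1 : p.eval 1 ≠ 0 := by simpa [hp] using hξ
  have h2 := (Polynomial.finite_setOfPred_isRoot (p := p) fun h => h0 (by simp [h])).countable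
    |>.isConnected_compl_of_one_lt_rank (by rw [Complex.rank_real_complex]; norm_num)
  exact ⟨_, forall_mem_image.2 fun t ht => by simpa [hp] using ht, ⟨0, h0, by simp⟩,
    ⟨1, h1, by simp⟩, h2.isPreconnected.image (fun t : ℂ => ζ + t • (ξ - ζ)) (by fun_prop)⟩

omit [MetricSpace M] [ChartedSpace (Cm n) M] in
theorem up {z : Fin n → M → ℂ} {K : Set (Cm n)} (hK : IsCompact K) {P : Pz n}
    (hP : ∀ ζ ∈ K, MvPolynomial.eval ζ P ≠ 0) {f : M → ℂ} {N : ℕ} {C : ℝ}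
    (h : ∀ x, mp z x ∈ K → ‖pv z P x‖ * ‖f x‖ ≤ C * (1 + ‖mp z x‖) ^ N) :
    ∃ B, 0 ≤ B ∧ ∀ x, mp z x ∈ K → ‖f x‖ ≤ B := by
  obtain ⟨B, hB⟩ := hK.exists_bound_of_continuousOn
    (f := fun ζ => C * (1 + ‖ζ‖) ^ N / ‖MvPolynomial.eval ζ P‖)
    (ContinuousOn.div (by fun_prop) (MvPolynomial.continuous_eval P).norm.continuousOn
      fun ζ hζ => norm_ne_zero_iff.2 (hP ζ hζ))
  refine ⟨max B 0, le_max_right _ _, fun x hx => le_max_of_le_left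
    (le_trans ?_ ((le_abs_self _).trans (hB _ hx)))⟩
  rw [le_div_iff₀' (norm_pos_iff.2 (hP _ hx))]
  exact h x hx

omit [MetricSpace M] [ChartedSpace (Cm n) M] in
theorem lo {z : Fin n → M → ℂ} {K : Set (Cm n)} (hK : IsCompact K) {P : Pz n}
    (hP : ∀ ζ ∈ K, MvPolynomial.eval ζ P ≠ 0) {f : M → ℂ} {N : ℕ} {C : ℝ}
    (h : ∀ x, ‖pv z P x‖ ≤ C * (1 + ‖mp z x‖) ^ N * ‖f x‖) :
    ∃ B, 0 ≤ B ∧ ∀ x, mp z x ∈ K → f x ≠ 0 ∧ ‖(f x)⁻¹‖ ≤ B := by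
  have h1 : ∀ x, mp z x ∈ K → f x ≠ 0 := fun x hx h0 =>
    hP _ hx (norm_le_zero_iff.1 ((h x).trans_eq (by simp [h0])))
  obtain ⟨B, h0, hB⟩ := up hK hP (f := fun x => (f x)⁻¹) (N := N) (C := C) fun x hx => by
    rw [norm_inv, mul_inv_le_iff₀ (norm_pos_iff.2 (h1 x hx))]
    exact h x
  exact ⟨B, h0, fun x hx => ⟨h1 x hx, hB x hx⟩⟩

variable [RiemannianBundle (fun x : M => TangentSpace 𝓘(ℝ, Cm n) x)]

theorem img (d : DJ n M) {z : Fin n → M → ℂ} (hz : ∀ i, IsSec n 0 (z i)) {x : M}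
    (hx : jac z x ≠ 0) : range (mp z) ∈ 𝓝 (mp z x) := by
  obtain ⟨e, -, h1, h2⟩ := d.chart z hz x hx
  rw [← (h2 x h1).1]
  filter_upwards [e.open_target.mem_nhds (e.map_source h1)] with ζ hζ
  exact ⟨_, (h2 _ (e.map_target hζ)).1.symm.trans (e.right_inv hζ)⟩

theorem onto (a : B1a n M) (d : DJ n M) {z : Fin n → M → ℂ} (hz : ∀ i, IsSec n 0 (z i)) {Q : Pz n}
    (h0 : ∃ x, pv z Q x ≠ 0) (hj : ∀ x, pv z Q x ≠ 0 → jac z x ≠ 0)
    (hK : ∀ K : Set (Cm n), IsCompact K → (∀ ζ ∈ K, MvPolynomial.eval ζ Q ≠ 0) →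
      IsCompact (mp z ⁻¹' K)) (ζ : Cm n) (hζ : MvPolynomial.eval ζ Q ≠ 0) : ∃ x, mp z x = ζ := by
  obtain ⟨x₀, h0⟩ := h0
  refine (T2.Cn.sub_of_conn (G := {ζ | MvPolynomial.eval ζ Q ≠ 0} ∩ range (mp z)) (conn Q)
    Subset.rfl ?_ (fun q hq h => ⟨hq, ?_⟩) h0 ⟨h0, x₀, rfl⟩ hζ).2
  · rintro _ ⟨h1, x, rfl⟩
    filter_upwards [img d hz (hj x h1)] with q h2 h3 using ⟨h3, h2⟩
  · obtain ⟨K, h1, h2, h3⟩ := local_compact_nhds
      ((MvPolynomial.continuous_eval Q).continuousAt.eventually_ne hq)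
    have h4 := ((hK K h3 h2).image (mp_cont a hz)).isClosed
    refine image_subset_range _ _ (h4.closure_subset ?_)
    rw [image_preimage_eq_inter_range]
    exact mem_closure_iff_frequently.2 ((Eventually.and_frequently h1
      (mem_closure_iff_frequently.1 h)).mono fun _ h => ⟨h.1, h.2.2⟩)

end Affz

open Affz

variable [RiemannianBundle (fun x : M => TangentSpace 𝓘(ℝ, Cm n) x)]
  [MeasurableSpace M] {μ : Measure M} {o : M} {G : Gauge n o} {Ω : M → ℂ}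

/-- **Row AFFZ.** -/
theorem affz (a : B1a n M) (d : DJ n M) (hO : G.Triv Ω) (h1 : PRO n μ) (h2 : G.INH μ Ω)
    (h3 : G.RBD) (h4 : G.JAC Ω) (h5 : CIRC n M) : G.AFFZ Ω := by
  intro z ⟨hz, hJ⟩
  have zs : ∀ i, IsSec n 0 (z i) := fun i => (hz i).sec
  obtain ⟨m, s₀, s, Q₁, -, m0, ms, ⟨x₀, e0, e1⟩, hp⟩ := h1
  have hΩ : ∀ x, Ω x ^ m ≠ 0 := fun x => pow_ne_zero _ (hO.ne x)
  obtain ⟨D, w, hw, e2⟩ := T2.hom (T := fun _ => G.alg.toSubmodule) (m := 0)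
    ⟨G.alg.one_mem, fun _ _ _ h _ h' => G.alg.mul_mem h h'⟩ (h2 m s₀ m0).1
    (fun i => (h2 m (s i) (ms i)).1) Q₁
  have e3 : ∀ x, Phi (fun x => s₀ x * Ω x ^ m) (fun i x => s i x * Ω x ^ m) x = Phi s₀ s x :=
    fun x => funext fun i => mul_div_mul_right _ _ (hΩ x)
  simp only [e3] at e2
  obtain ⟨x₁, hx₁⟩ := Function.ne_iff.1 hJ
  obtain ⟨⟨P₀, N₀, C₀, p0, b0⟩, h6⟩ := h3 z _ hz (h2 m s₀ m0).1
  obtain ⟨P₁, N₁, C₁, p1, b1⟩ := h6 (Function.ne_iff.2 ⟨x₀, mul_ne_zero e0 (hΩ _)⟩)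
  obtain ⟨P₂, N₂, C₂, p2, b2⟩ := (h3 z w hz hw).2 (Function.ne_iff.2 ⟨x₀, by
    rw [e2 _ (mul_ne_zero e0 (hΩ _))]
    exact mul_ne_zero (pow_ne_zero _ (mul_ne_zero e0 (hΩ _))) e1⟩)
  obtain ⟨P₃, N₃, C₃, p3, b3⟩ := (h3 z _ hz (h4 z hz)).2
    (Function.ne_iff.2 ⟨x₁, div_ne_zero hx₁ (hO.ne _)⟩)
  choose P N C p b using fun i => (h3 z _ hz (h2 m (s i) (ms i)).1).1
  set R := P₀ * P₁ * P₂ * ∏ i, P i with hR
  have hQ : R * P₃ ≠ 0 := mul_ne_zero (mul_ne_zero (mul_ne_zero (mul_ne_zero p0 p1) p2)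
    (Finset.prod_ne_zero_iff.2 fun i _ => p i)) p3
  have ne : ∃ x, pv z (R * P₃) x ≠ 0 := by
    obtain ⟨ρ, hρ, h⟩ := Metric.mem_nhds_iff.1 (img d zs hx₁)
    obtain ⟨ζ, h7, h8⟩ := T2.exists_ne hQ _ hρ
    obtain ⟨x, rfl⟩ := h h7
    exact ⟨x, h8⟩
  have et : ∀ x, pv z (R * P₃) x ≠ 0 → jac z x ≠ 0 := fun x hx h0 => by
    have h7 : pv z P₃ x = 0 := norm_le_zero_iff.1 ((b3 x).trans_eq (by simp [h0]))
    exact hx (by rw [pv, map_mul]; exact mul_eq_zero_of_right _ h7)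
  have pr : ∀ K : Set (Cm n), IsCompact K → (∀ ζ ∈ K, MvPolynomial.eval ζ (R * P₃) ≠ 0) →
      IsCompact (mp z ⁻¹' K) := fun K hK h => by
    simp only [hR, map_mul, map_prod, mul_ne_zero_iff, Finset.prod_ne_zero_iff] at h
    obtain ⟨B₀, -, c0⟩ := up hK (fun ζ hζ => (h ζ hζ).1.1.1.1) fun x _ => b0 x
    obtain ⟨B₁, -, c1⟩ := lo hK (fun ζ hζ => (h ζ hζ).1.1.1.2) b1
    obtain ⟨B₂, n2, c2⟩ := lo hK (fun ζ hζ => (h ζ hζ).1.1.2) b2
    choose B nB c using fun i =>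
      up hK (fun ζ hζ => (h ζ hζ).1.2 i (Finset.mem_univ i)) fun x _ => b i x
    refine (hp ((univ.pi fun i => closedBall 0 (B i * B₁)) ∩
      {ζ | 1 ≤ B₂ * (B₀ ^ D * ‖MvPolynomial.eval ζ Q₁‖)})
      ((isCompact_univ_pi fun i => isCompact_closedBall _ _).inter_right (isClosed_le
        continuous_const (continuous_const.mul (continuous_const.mul
          (MvPolynomial.continuous_eval Q₁).norm))))
      fun ζ hζ h0 => absurd hζ.2 (by simp [h0])).of_isClosed_subset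
      (hK.isClosed.preimage (mp_cont a zs)) fun x hx =>
        ⟨left_ne_zero_of_mul (c1 x hx).1, fun i _ => ?_, ?_⟩
    · rw [mem_closedBall_zero_iff, ← e3, Phi, div_eq_mul_inv, norm_mul]
      exact mul_le_mul (c i x hx) (c1 x hx).2 (norm_nonneg _) (nB i)
    · calc (1 : ℝ) = ‖(w x)⁻¹‖ * ‖w x‖ := by
            rw [← norm_mul, inv_mul_cancel₀ (c2 x hx).1, norm_one]
        _ ≤ _ := mul_le_mul (c2 x hx).2 (by
            rw [e2 x (c1 x hx).1, norm_mul, norm_pow]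
            exact mul_le_mul_of_nonneg_right
              (pow_le_pow_left₀ (norm_nonneg _) (c0 x hx) _) (norm_nonneg _)) (norm_nonneg _) n2
  refine ⟨R * P₃, ne, et, ?_, onto a d zs ne et pr, pr, fun f hf => ?_⟩
  · obtain ⟨A, K, hA, h⟩ := T2.Cn.pg_eval R
    refine ⟨K + N₃, A * C₃, fun x => ?_⟩
    rw [pv, map_mul, norm_mul]
    refine (mul_le_mul (h _) (b3 x) (norm_nonneg _) (by positivity)).trans_eq ?_
    ring
  · obtain ⟨P', N', C', p', b'⟩ := (h3 z f hz hf).1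
    exact h5 z _ P' f N' C' zs et pr p' hf.sec b'

end Vale.Agent.P253W.T
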