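import Vale.Agent.P253W.T.Basic
import Vale.Agent.P272.K.C2.Wirt

/-!
# P253W, block T, rows APX and FLW: the weights given by the flow, and the flow
-/

open scoped Manifold ContDiff Bundle Topology ComplexConjugate ComplexOrder
open Bundle Set Metric Filter Vale.Agent.P253Z
open Vale.Agent.P272.K (Cm cHess Chart)

noncomputable section

namespace Vale.Agent.P253W.T

variable {n : ℕ} {M : Type} [MetricSpace M] [ChartedSpace (Cm n) M]

namespace Apx

theorem slice {I : Set ℝ} {φ : ℝ → M → ℝ} (h : SmT n I φ) {t : ℝ} (ht : t ∈ I) : Sm n (φ t) :=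
  fun e he _ hz => ((h e he).comp (contDiff_const.prodMk contDiff_id).contDiffOn
    (s := e.target) fun _ hy => ⟨ht, hy⟩).contDiffAt (e.open_target.mem_nhds hz)

theorem arith {k R A w d L p N : ℝ} (hR : 2 ≤ R) (hA : 1 ≤ A) (hw : 1 ≤ w) (hk : 0 ≤ k)
    (hN : 0 ≤ N) (hd0 : 0 ≤ d) (hd : d ≤ R * w)
    (h : R ^ 2 / A * L ≤ p + N * (R ^ 2 / A) + 6 * (1 / (4 * w)) * (1 + d) ^ 2 +
      (k * R ^ 2 + k ^ 2 * R ^ 2 * w)) :
    L + -1 / (R ^ 2 / A) * p ≤ (N + 4 + k + k ^ 2) * (A * w) := by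
  have hS : 0 < R ^ 2 / A := by positivity
  have h1 : 1 + d ≤ 3 / 2 * (R * w) := by nlinarith
  have h2 : 6 * (1 / (4 * w)) * (1 + d) ^ 2 ≤ 4 * R ^ 2 * w := by
    calc 6 * (1 / (4 * w)) * (1 + d) ^ 2 ≤ 6 * (1 / (4 * w)) * (3 / 2 * (R * w)) ^ 2 := by gcongr
      _ = 27 / 8 * (R ^ 2 * w) := by field_simp; ring
      _ ≤ _ := by nlinarith [mul_pos (show 0 < R ^ 2 by positivity) (show 0 < w by linarith)]
  have h3 : k * R ^ 2 ≤ k * R ^ 2 * w := le_mul_of_one_le_right (by positivity) hw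
  have h4 : N * (R ^ 2 / A) ≤ N * (R ^ 2 * w) := mul_le_mul_of_nonneg_left
    ((div_le_self (by positivity) hA).trans (le_mul_of_one_le_right (by positivity) hw)) hN
  refine le_of_mul_le_mul_left ?_ hS
  have e1 : R ^ 2 / A * (L + -1 / (R ^ 2 / A) * p) = R ^ 2 / A * L - p := by
    field_simp
    ring
  have e2 : R ^ 2 / A * ((N + 4 + k + k ^ 2) * (A * w)) = (N + 4 + k + k ^ 2) * (R ^ 2 * w) := by
    field_simp
  rw [e1, e2]
  nlinarith

theorem arith2 {k R A w d L : ℝ} (hR : 2 ≤ R) (hA : 1 ≤ A) (hw : 1 ≤ w) (hk : 0 ≤ k) (hd : 0 ≤ d)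
    (h : L ≤ k * (A * max 1 (d / R))) :
    R ^ 2 / A * L ≤ 1 / (4 * w) * (1 + d) ^ 2 + (k * R ^ 2 + k ^ 2 * R ^ 2 * w) := by
  have h1 : max 1 (d / R) ≤ 1 + d / R :=
    max_le (le_add_of_nonneg_right (by positivity)) (by linarith)
  have h2 : k * R * d ≤ 1 / (4 * w) * d ^ 2 + k ^ 2 * R ^ 2 * w := by
    have : 1 / (4 * w) * d ^ 2 + k ^ 2 * R ^ 2 * w - k * R * d =
        1 / (4 * w) * (d - 2 * k * R * w) ^ 2 := by
      field_simp
      ring
    have h3 : 0 ≤ 1 / (4 * w) * (d - 2 * k * R * w) ^ 2 := by positivity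
    linarith
  have h4 : 1 / (4 * w) * d ^ 2 ≤ 1 / (4 * w) * (1 + d) ^ 2 := by gcongr; linarith
  calc R ^ 2 / A * L ≤ R ^ 2 / A * (k * (A * (1 + d / R))) := by
        gcongr
        exact h.trans (by gcongr)
    _ = k * R ^ 2 + k * R * d := by field_simp
    _ ≤ _ := by linarith

variable [RiemannianBundle (fun x : M => TangentSpace 𝓘(ℝ, Cm n) x)] {o : M} {φ : ℝ → M → ℝ}

theorem lv_zero (a : B1a n M) (b : B1b n M) (h : KRF n o φ) (x : M) : lv n φ 0 x = 0 := by
  have e : φ 0 = fun _ => 0 := funext h.zero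
  have := (vd_pos a b x).ne'
  simp only [lv, g0, hs, e, P272.K.C2.cHess_const, Complex.ofReal_zero, zero_smul, sub_zero,
    add_zero]
  rw [show (hm (pc n x) (pc n x x)).det.re = vd (pc n x) (pc n x x) from rfl, div_self this,
    Real.log_one]

theorem nonpos (a : B1a n M) (b : B1b n M) (h : KRF n o φ) {t : ℝ} (ht : 0 ≤ t) (x : M) :
    φ t x ≤ 0 := by
  have hx := mem_chart_source (Cm n) x
  have h1 : ContinuousOn (fun s => φ s x) (Ici 0) := by
    have := (h.sm _ (a.chart x)).continuousOn.comp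
      (continuous_id.prodMk continuous_const).continuousOn (s := Ici 0)
      fun s hs => (⟨hs, mem_chart_target _ x⟩ : (s, pc n x x) ∈ Ici (0 : ℝ) ×ˢ (pc n x).target)
    simpa only [Function.comp_def, ch, id, (pc n x).left_inv hx] using this
  have h2 : AntitoneOn (fun s => φ s x) (Ici 0) := by
    refine antitoneOn_of_deriv_nonpos (convex_Ici 0) h1 (fun s hs => ?_) fun s hs => ?_
    · rw [interior_Ici] at hs
      exact (h.eq s hs x).differentiableAt.differentiableWithinAt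
    · rw [interior_Ici] at hs
      rw [(h.eq s hs x).deriv, ← lv_zero a b h x]
      exact h.anti x self_mem_Ici (Ioi_subset_Ici_self hs) (Ioi_subset_Ici_self hs)
  exact (h2 self_mem_Ici ht ht).trans_eq (h.zero x)

theorem psd_smul {A : Mx n} (h : A.PosSemidef) {r : ℝ} (hr : 0 ≤ r) : ((r : ℂ) • A).PosSemidef :=
  h.smul (Complex.zero_le_real.2 hr)

end Apx

variable [RiemannianBundle (fun x : M => TangentSpace 𝓘(ℝ, Cm n) x)]

open Apx in
theorem apx (a : B1a n M) (b : B1b n M) (l : LSP n M) {o : M} (G : Gauge n o) : G.APX := by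
  intro φ η h hη ht
  obtain ⟨k, hk, hb⟩ := ht.sc
  have hR : ∀ ν : ℕ, (2 : ℝ) ≤ ν + 2 := fun ν => le_add_of_nonneg_left ν.cast_nonneg
  set S : ℕ → ℝ := fun ν => ((ν : ℝ) + 2) ^ 2 / G.A (ν + 2) with hSd
  have hS1 : ∀ ν : ℕ, (ν : ℝ) + 2 ≤ S ν := fun ν => by
    have h1 := G.le (ν + 2)
    rw [max_eq_left (hR ν)] at h1
    rw [hSd, le_div_iff₀ (G.A_pos _), sq]
    exact mul_le_mul_of_nonneg_left h1 (by linarith [hR ν])
  have hS : ∀ ν, 0 < S ν := fun ν => by linarith [hR ν, hS1 ν]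
  have sm := fun ν => l.lin (φ (S ν)) (φ (S ν)) (-1 / S ν) 0 0 (slice h.sm (hS ν).le)
    (slice h.sm (hS ν).le)
  simp only [zero_mul, add_zero, Complex.ofReal_zero, zero_smul] at sm
  refine ⟨fun ν x => -1 / S ν * φ (S ν) x, fun ν => 1 / S ν, n + 4 + k + k ^ 2,
    ⟨fun ν => (sm ν).1, fun ν e he z hz => ?_, fun ν e he z hz => ?_, ?_⟩, fun ν x => ?_,
    fun ν x => ?_⟩
  · have h0 : (S ν : ℂ) ≠ 0 := Complex.ofReal_ne_zero.2 (hS ν).ne'
    convert psd_smul (h.le _ (hS ν).le e he z hz) (one_div_pos.2 (hS ν)).le using 1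
    rw [(sm ν).2 e he z hz, g0]
    ext i j
    simp only [Matrix.add_apply, Matrix.sub_apply, Matrix.smul_apply, smul_eq_mul]
    push_cast
    field_simp
    ring
  · have h0 : (S ν : ℂ) ≠ 0 := Complex.ofReal_ne_zero.2 (hS ν).ne'
    convert psd_smul (h.pos _ (hS ν).le e he z hz).posSemidef (one_div_pos.2 (hS ν)).le using 1
    rw [(sm ν).2 e he z hz, g0]
    ext i j
    simp only [Matrix.add_apply, Matrix.sub_apply, Matrix.smul_apply, smul_eq_mul]
    push_cast
    field_simp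
    ring
  · simp only [one_div]
    exact tendsto_inv_atTop_zero.comp (tendsto_atTop_mono hS1
      (tendsto_atTop_add_const_right _ _ tendsto_natCast_atTop_atTop))
  · exact mul_nonneg_of_nonpos_of_nonpos (div_nonpos_of_nonpos_of_nonneg (by norm_num) (hS ν).le)
      (nonpos a b h (hS ν).le x)
  by_cases hx : η x = 0
  · simp [nrm, hx, Real.exp_nonneg]
  have hw := one_le_tw (o := o) (x := x) (R := ν + 2)
  have h1 := h.ys η hη (S ν) (1 / (4 * tw o (ν + 2) x))
    (k * (ν + 2) ^ 2 + k ^ 2 * (ν + 2) ^ 2 * tw o (ν + 2) x) (hS ν) (by positivity)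
    (one_div_le_one_div_of_le (by norm_num) (by linarith))
    (fun y hy => arith2 (hR ν) (G.one_le _) hw hk dist_nonneg
      ((Real.log_le_log (nrm_pos a b 1 hy) (le_add_of_nonneg_left one_pos.le)).trans
        (hb _ (by linarith [hR ν]) y))) (S ν) (hS ν).le x hx
  rw [sub_self, zero_mul, add_zero] at h1
  rw [← Real.exp_log (nrm_pos a b 1 hx), ← Real.exp_add, Real.exp_le_exp]
  refine arith (hR ν) (G.one_le _) hw hk n.cast_nonneg dist_nonneg ?_ h1
  rw [mul_comm, ← div_le_iff₀ (by linarith [hR ν])]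
  exact div_le_tw

open Apx in
theorem flw (a : B1a n M) (b : B1b n M) (l : LSP n M) : FLW n M := by
  intro q φ Ω h hΩ hne hup
  obtain ⟨⟨t1, -⟩, t2⟩ := l.triv Ω hΩ hne
  set F : Flow n M := ⟨q, Ω, fun t x => t * lg n Ω x - φ t x⟩ with hF
  have e1 : ∀ t, 0 ≤ t → ∀ e : Chart n M, Hc e → ∀ z ∈ e.target,
      hs (F.ψ t) e z = hm e z - g0 φ t e z := fun t ht e he z hz => by
    have := (l.lin (lg n Ω) (φ t) t (-1) 0 t1 (slice h.sm ht)).2 e he z hz
    simp only [neg_mul, one_mul, add_zero, ← sub_eq_add_neg, t2 e he z hz] at this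
    rw [hF]
    refine this.trans ?_
    simp only [g0, Complex.ofReal_neg, Complex.ofReal_one, neg_smul, one_smul]
    abel
  have e2 : ∀ t, 0 ≤ t → ∀ e : Chart n M, Hc e → ∀ z ∈ e.target, F.g t e z = g0 φ t e z :=
    fun t ht e he z hz => by rw [Flow.g, e1 t ht e he z hz, sub_sub_cancel]
  have e3 : ∀ t, 0 ≤ t → ∀ x, F.u t x = lg n Ω x - lv n φ t x := fun t ht x => by
    have h1 := (vd_pos a b x).ne'
    have h2 : (g0 φ t (pc n x) (pc n x x)).det.re ≠ 0 :=
      (Complex.pos_iff.1 (h.pos t ht _ (a.chart x) _ (mem_chart_target _ x)).det_pos).1.ne'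
    have h3 : ‖Ω x‖ ^ 2 ≠ 0 := pow_ne_zero _ (norm_ne_zero_iff.2 (hne x))
    rw [Flow.u, Flow.gx, e2 t ht _ (a.chart x) _ (mem_chart_target _ x), lg, lv, nrm, zpow_neg,
      zpow_one, Real.log_mul h3 (inv_ne_zero h1), Real.log_inv, Real.log_div h2 h1]
    rw [show F.Ω x = Ω x from rfl, Real.log_div h3 h2]
    ring
  refine ⟨hΩ, hne, fun e he => ?_, fun x => by simp [hF, h.zero], fun t ht e he z hz => ?_,
    fun t ht e he z hz => ?_, fun t ht x => ?_, fun x s hs t ht hst => ?_, ?_,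
    fun S α β hS hα hα' hb t ht x => ?_⟩
  · exact (contDiffOn_fst.mul fun p hp =>
      ((t1 e he _ hp.2).comp p contDiffAt_snd).contDiffWithinAt).sub (h.sm e he)
  · rw [e2 t ht e he z hz]
    exact h.pos t ht e he z hz
  · rw [e1 t ht e he z hz]
    exact h.le t ht e he z hz
  · rw [e3 t ht.le]
    exact (((hasDerivAt_id t).mul_const _).congr_deriv (one_mul _)).sub (h.eq t ht x)
  · simp only [e3 s hs, e3 t ht]
    exact sub_le_sub_left (h.anti x hs ht hst) _
  · simp only [e3 0 le_rfl, lv_zero a b h, sub_zero]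
    exact hup
  · simp only [e3 0 le_rfl, lv_zero a b h, sub_zero] at hb
    have := h.ys Ω hΩ S α β hS hα hα' (fun y _ => hb y) t ht x (hne x)
    rw [e3 t ht]
    change t * lg n Ω x - φ t x + _ ≤ _ + 6 * α * (1 + dist x q) ^ 2 + β
    rw [show Real.log (nrm n 1 Ω x) = lg n Ω x from rfl] at this
    linarith

end Vale.Agent.P253W.T
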