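import Vale.Agent.P253W.T.Defs

/-!
# P253W, block T: elementary properties of the gauge and of tame functions
-/

open scoped Manifold ContDiff Bundle ENNReal Topology ComplexConjugate ComplexOrder
open Bundle IsManifold MeasureTheory Set Metric Filter Vale.Agent.P253.Mfd Vale.Agent.P253Z
open Vale.Agent.P272.K (Cm dz dzb cHess jacM Chart)
open Vale.Agent.P253Z.T2 (Pz Phi)

noncomputable section

namespace Vale.Agent.P253W.T

variable {n : ℕ} {M : Type} [MetricSpace M] [ChartedSpace (Cm n) M]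

section tw

omit [ChartedSpace (Cm n) M]

variable {o x y : M} {R R' : ℝ}

theorem one_le_tw : 1 ≤ tw o R x := le_max_left _ _

theorem tw_pos : 0 < tw o R x := one_pos.trans_le one_le_tw

theorem div_le_tw : dist x o / R ≤ tw o R x := le_max_right _ _

theorem tw_le {c : ℝ} (hR : 0 < R) (hc : 1 ≤ c) (h : dist x o ≤ c * R) : tw o R x ≤ c :=
  max_le hc ((div_le_iff₀ hR).2 h)

theorem tw_eq (hR : 0 < R) (h : dist x o ≤ R) : tw o R x = 1 :=
  le_antisymm (tw_le hR le_rfl (by linarith)) one_le_tw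

theorem tw_anti (hR : 0 < R) (h : R ≤ R') : tw o R' x ≤ tw o R x :=
  max_le_max le_rfl (div_le_div_of_nonneg_left dist_nonneg hR h)

theorem tw_ratio (hR : 0 < R) (h : R ≤ R') : tw o R x ≤ R' / R * tw o R' x := by
  have h1 : 1 ≤ R' / R := (one_le_div hR).2 h
  have h2 := hR.trans_le h
  refine max_le (one_le_mul_of_one_le_of_one_le h1 one_le_tw) ?_
  calc dist x o / R = R' / R * (dist x o / R') := by field_simp
    _ ≤ _ := mul_le_mul_of_nonneg_left div_le_tw (by positivity)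

theorem tw_near (hR : 1 ≤ R) (h : dist y x ≤ 1) : tw o R y ≤ 2 * tw o R x := by
  have h1 := one_le_tw (o := o) (x := x) (R := R)
  have h2 := div_le_tw (o := o) (x := x) (R := R)
  have h3 : 0 < R := by linarith
  refine max_le (by linarith) ?_
  rw [div_le_iff₀ h3] at h2 ⊢
  nlinarith [dist_triangle y x o]

theorem tw_le_lin (hR : 1 ≤ R) : tw o R x ≤ 1 + dist x o :=
  max_le (by linarith [dist_nonneg (x := x) (y := o)])
    ((div_le_self dist_nonneg hR).trans (by linarith))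

theorem continuous_tw (o : M) (R : ℝ) : Continuous (tw o R) := by
  unfold tw
  fun_prop

end tw

section sec

variable {f g : M → ℂ}

theorem co0 (g : M → ℂ) (e : Chart n M) : co 0 g e = fun z => g (e.symm z) := by
  funext z
  simp [co]

theorem sec0 : IsSec n 0 g ↔
    ∀ e : Chart n M, Hc e → ∀ z ∈ e.target, AnalyticAt ℂ (fun y => g (e.symm y)) z := by
  simp only [IsSec, co0]

theorem sec_const (c : ℂ) : IsSec n 0 fun _ : M => c := sec0.2 fun _ _ _ _ => analyticAt_const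

theorem sec_add (hf : IsSec n 0 f) (hg : IsSec n 0 g) : IsSec n 0 fun x => f x + g x :=
  sec0.2 fun e he z hz => (sec0.1 hf e he z hz).add (sec0.1 hg e he z hz)

theorem sec_mul (hf : IsSec n 0 f) (hg : IsSec n 0 g) : IsSec n 0 fun x => f x * g x :=
  sec0.2 fun e he z hz => (sec0.1 hf e he z hz).mul (sec0.1 hg e he z hz)

theorem sec_cont (a : B1a n M) (hf : IsSec n 0 f) : Continuous f :=
  ((a.sec_zero f).1 hf).continuous

theorem mp_cont (a : B1a n M) {L : ℕ} {z : Fin L → M → ℂ} (hz : ∀ i, IsSec n 0 (z i)) :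
    Continuous (mp z) := continuous_pi fun i => sec_cont a (hz i)

/-- the quotient of two sections -/
theorem sec_div (a : B1a n M) {k : ℤ} (hf : IsSec n k f) (hg : IsSec n k g) (h : ∀ x, g x ≠ 0) :
    IsSec n 0 fun x => f x / g x := sec0.2 fun e he z hz => by
  have hj : ∀ y ∈ e.target, (jacM e (chartAt (Cm n) (e.symm y)) (e.symm y)).det ^ k ≠ 0 :=
    fun y hy => zpow_ne_zero _
      (a.jac_ne _ _ he (a.chart _) _ (e.map_target hy) (mem_chart_source _ _))
  refine ((hf e he z hz).div (hg e he z hz) (mul_ne_zero (hj z hz) (h _))).congr ?_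
  filter_upwards [e.open_target.mem_nhds hz] with y hy
  exact mul_div_mul_left _ _ (hj y hy)

/-- a section of `-mK` times the power of a section of `K` -/
theorem sec_pow (a : B1a n M) {m : ℕ} {s Ω : M → ℂ} (hs : IsSec n (-m) s) (hΩ : IsSec n 1 Ω) :
    IsSec n 0 fun x => s x * Ω x ^ m := by
  have h : ∀ i : ℕ, IsSec n i (Ω ^ i) := fun i => by
    induction i with
    | zero => exact sec_const 1
    | succ i ih => exact_mod_cast pow_succ Ω i ▸ a.sec_mul _ _ _ _ ih hΩ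
  exact (neg_add_cancel (m : ℤ) ▸ a.sec_mul _ _ _ _ hs (h m) : IsSec n 0 (s * Ω ^ m))

/-- a section that is not zero does not vanish on an open set -/
theorem freq_ne (a : B1a n M) {k : ℤ} (hg : IsSec n k g) (h : g ≠ 0) (x : M) :
    ∃ᶠ y in 𝓝 x, g y ≠ 0 := fun h1 =>
  h (a.ident k g hg x (h1.mono fun _ hy => not_not.1 hy))

theorem exists_ne (a : B1a n M) {k : ℤ} (hg : IsSec n k g) (h : g ≠ 0) (o : M) :
    ∃ y ∈ closedBall o 1, g y ≠ 0 :=
  ((freq_ne a hg h o).and_eventually (closedBall_mem_nhds o one_pos)).exists.imp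
    fun _ h => ⟨h.2, h.1⟩

end sec

variable [RiemannianBundle (fun x : M => TangentSpace 𝓘(ℝ, Cm n) x)]

theorem nrm0 (g : M → ℂ) (x : M) : nrm n 0 g x = ‖g x‖ ^ 2 := by simp [nrm]

theorem vd_pos (a : B1a n M) (b : B1b n M) (x : M) : 0 < vd (pc n x) (pc n x x) :=
  b.vd_pos _ (a.chart x) _ (mem_chart_target _ x)

theorem nrm_nonneg (a : B1a n M) (b : B1b n M) (k : ℤ) (s : M → ℂ) (x : M) : 0 ≤ nrm n k s x :=
  mul_nonneg (sq_nonneg _) (zpow_pos (vd_pos a b x) _).le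

theorem nrm_pos (a : B1a n M) (b : B1b n M) (k : ℤ) {s : M → ℂ} {x : M} (h : s x ≠ 0) :
    0 < nrm n k s x := mul_pos (pow_pos (norm_pos_iff.2 h) 2) (zpow_pos (vd_pos a b x) _)

theorem exp_lg (a : B1a n M) (b : B1b n M) {Ω : M → ℂ} {x : M} (h : Ω x ≠ 0) :
    Real.exp (lg n Ω x) = nrm n 1 Ω x := Real.exp_log (nrm_pos a b 1 h)

/-- `|η / Ω|² |Ω|² = |η|²` -/
theorem nrm_div {η Ω : M → ℂ} {x : M} (h : Ω x ≠ 0) :
    ‖η x / Ω x‖ ^ 2 * nrm n 1 Ω x = nrm n 1 η x := by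
  have := norm_ne_zero_iff.2 h
  simp only [nrm, norm_div]
  field_simp

theorem SPsh.lo (a : B1a n M) {u : M → ℝ} (h : SPsh n u) (x : M) : HK.Lo n u 0 x := by
  simpa [HK.Lo] using h.2 _ (a.chart x) _ (mem_chart_target _ x)

namespace Gauge

variable {o : M} (G : Gauge n o) {x y : M} {R R' k k' : ℝ} {u v : M → ℝ} {f g : M → ℂ}

theorem A_pos (R : ℝ) : 0 < G.A R := one_pos.trans_le (G.one_le R)

theorem one_le_a (x : M) : 1 ≤ G.a x := G.one_le _

theorem a_pos (x : M) : 0 < G.a x := G.A_pos _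

theorem A_le_sc (R : ℝ) (x : M) : G.A R ≤ G.sc R x :=
  le_mul_of_one_le_right (G.A_pos R).le one_le_tw

theorem one_le_sc (R : ℝ) (x : M) : 1 ≤ G.sc R x := (G.one_le R).trans (G.A_le_sc R x)

theorem sc_pos (R : ℝ) (x : M) : 0 < G.sc R x := one_pos.trans_le (G.one_le_sc R x)

theorem a_le_sc (hR : 0 < R) (x : M) : G.a x ≤ G.sc R x := by
  rcases le_total (dist x o) R with h | h
  · exact (G.mono h).trans (G.A_le_sc R x)
  · exact (G.ratio R _ hR h).trans (mul_le_mul_of_nonneg_left div_le_tw (G.A_pos R).le)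

theorem A_max (s : ℝ) : G.A (max s 2) = G.A s := by
  rcases le_total s 2 with h | h
  · rw [max_eq_right h, G.flat s h]
  · rw [max_eq_left h]

theorem sc_self (x : M) : G.sc (max (dist x o) 2) x = G.a x := by
  rw [sc, tw_eq (lt_max_of_lt_right two_pos) (le_max_left _ _), mul_one, G.A_max, a]

theorem A_two (s : ℝ) : G.A (2 * s) ≤ 2 * G.A s := by
  rcases le_or_gt s 0 with h | h
  · linarith [G.mono (show 2 * s ≤ s by linarith), G.A_pos s]
  · have := G.ratio s (2 * s) h (by linarith)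
    rw [mul_div_cancel_right₀ _ h.ne'] at this
    linarith

theorem A_succ (s : ℝ) : G.A (s + 1) ≤ 2 * G.A s := by
  rcases le_total s 1 with h | h
  · rw [G.flat (s + 1) (by linarith), G.flat s (by linarith)]
    linarith [G.A_pos 2]
  · exact (G.mono (show s + 1 ≤ 2 * s by linarith)).trans (G.A_two s)

theorem a_near (h : dist y x ≤ 1) : G.a y ≤ 2 * G.a x :=
  (G.mono (show dist y o ≤ dist x o + 1 by linarith [dist_triangle y x o])).trans (G.A_succ _)

theorem sc_near (hR : 1 ≤ R) (h : dist y x ≤ 1) : G.sc R y ≤ 2 * G.sc R x := by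
  have := mul_le_mul_of_nonneg_left (tw_near (o := o) hR h) (G.A_pos R).le
  unfold sc
  linarith

theorem sc_le_two (hR : 0 < R) (h : dist x o ≤ 2 * R) : G.sc R x ≤ 2 * G.A R := by
  have := mul_le_mul_of_nonneg_left (tw_le hR one_le_two h) (G.A_pos R).le
  unfold sc
  linarith

theorem a_le_lin (x : M) : G.a x ≤ 2 * (1 + dist x o) :=
  (G.le _).trans (max_le (by linarith [dist_nonneg (x := x) (y := o)])
    (by linarith [dist_nonneg (x := x) (y := o)]))

theorem A_top : Tendsto (fun ν : ℕ => G.A (ν + 2)) atTop atTop := by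
  obtain ⟨C, hC, h⟩ := G.log_le
  have h1 : Tendsto (fun ν : ℕ => Real.log (1 + (ν + 2)) / C) atTop atTop :=
    (Real.tendsto_log_atTop.comp (tendsto_atTop_add_const_left _ _
      (tendsto_atTop_add_const_right _ _ tendsto_natCast_atTop_atTop))).atTop_div_const
      (by linarith)
  refine tendsto_atTop_mono (fun ν => ?_) h1
  rw [div_le_iff₀ (by linarith), mul_comm]
  exact h _ (by positivity)

variable {G}

theorem Le.mono (h : G.Le k u) (hk : k ≤ k') : G.Le k' u :=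
  h.imp fun _ h x => (h x).trans (by nlinarith [G.a_pos x])

theorem Le.of_le (h : G.Le k u) (hv : ∀ x, v x ≤ u x) : G.Le k v :=
  h.imp fun _ h x => (hv x).trans (h x)

theorem Le.add (h : G.Le k u) (h' : G.Le k' v) : G.Le (k + k') fun x => u x + v x := by
  obtain ⟨C, h⟩ := h
  obtain ⟨C', h'⟩ := h'
  exact ⟨C + C', fun x => by linarith [h x, h' x]⟩

theorem Le.mul (h : G.Le k u) {q : ℝ} (hq : 0 ≤ q) : G.Le (q * k) fun x => q * u x := by
  obtain ⟨C, h⟩ := h
  exact ⟨q * C, fun x => by nlinarith [mul_le_mul_of_nonneg_left (h x) hq]⟩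

theorem le_const (c : ℝ) : G.Le 0 fun _ => c := ⟨c, fun _ => by simp⟩

theorem tame_iff : G.Tame u ↔ ∃ k, 0 ≤ k ∧ ∀ x, u x ≤ k * G.a x := by
  refine ⟨fun ⟨k, C, h⟩ => ⟨|k| + |C|, by positivity, fun x => (h x).trans ?_⟩,
    fun ⟨k, _, h⟩ => ⟨k, 0, fun x => by simpa using h x⟩⟩
  nlinarith [G.one_le_a x, le_abs_self k, le_abs_self C, abs_nonneg C]

theorem Tame.of_le (h : G.Tame u) (hv : ∀ x, v x ≤ u x) : G.Tame v := h.imp fun _ h => h.of_le hv

theorem Tame.add (h : G.Tame u) (h' : G.Tame v) : G.Tame fun x => u x + v x :=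
  let ⟨_, h⟩ := h; let ⟨_, h'⟩ := h'; ⟨_, h.add h'⟩

theorem Tame.mul (h : G.Tame u) {q : ℝ} (hq : 0 ≤ q) : G.Tame fun x => q * u x :=
  let ⟨_, h⟩ := h; ⟨_, h.mul hq⟩

theorem tame_const (c : ℝ) : G.Tame fun _ => c := ⟨0, le_const c⟩

theorem Tame.sc (h : G.Tame u) : ∃ k, 0 ≤ k ∧ ∀ R, 0 < R → ∀ x, u x ≤ k * G.sc R x :=
  (tame_iff.1 h).imp fun _ h => ⟨h.1, fun _ hR x =>
    (h.2 x).trans (mul_le_mul_of_nonneg_left (G.a_le_sc hR x) h.1)⟩

theorem Tame.lin (h : G.Tame u) (q : M) : ∃ C, 0 ≤ C ∧ ∀ x, u x ≤ C * (1 + dist x q) := by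
  obtain ⟨k, hk, h⟩ := tame_iff.1 h
  have h0 := dist_nonneg (x := q) (y := o)
  refine ⟨k * (2 * (1 + dist q o)), by positivity, fun x => (h x).trans ?_⟩
  rw [mul_assoc]
  refine mul_le_mul_of_nonneg_left ((G.a_le_lin x).trans ?_) hk
  nlinarith [dist_triangle x q o, dist_nonneg (x := x) (y := q)]

theorem tame_log : G.Tame fun x => Real.log (1 + dist x o) :=
  let ⟨C, hC, h⟩ := G.log_le; tame_iff.2 ⟨C, by linarith, fun _ => h _ dist_nonneg⟩

theorem Deg.mono (h : G.Deg k g) (hk : k ≤ k') : G.Deg k' g :=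
  ⟨h.1, h.2.imp fun _ h x => (h x).trans (Real.exp_le_exp.2 (by nlinarith [G.a_pos x]))⟩

theorem mem_iff : G.Mem g ↔ IsSec n 0 g ∧ ∃ k, 0 ≤ k ∧ ∀ x, ‖g x‖ ≤ Real.exp (k * G.a x) := by
  refine ⟨fun ⟨k, h, C, hC⟩ => ⟨h, |k| + |C|, by positivity, fun x =>
    (hC x).trans (Real.exp_le_exp.2 ?_)⟩, fun ⟨h, k, _, hk⟩ => ⟨k, h, 0, by simpa using hk⟩⟩
  nlinarith [G.one_le_a x, le_abs_self k, le_abs_self C, abs_nonneg C]

theorem Mem.sec (h : G.Mem g) : IsSec n 0 g := (mem_iff.1 h).1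

theorem Mem.sc (h : G.Mem g) :
    ∃ k, 0 ≤ k ∧ ∀ R, 0 < R → ∀ x, ‖g x‖ ≤ Real.exp (k * G.sc R x) :=
  (mem_iff.1 h).2.imp fun _ h => ⟨h.1, fun _ hR x => (h.2 x).trans
    (Real.exp_le_exp.2 (mul_le_mul_of_nonneg_left (G.a_le_sc hR x) h.1))⟩

theorem deg_const (c : ℂ) : G.Deg 0 fun _ => c :=
  ⟨sec_const c, ‖c‖, fun _ => by simpa using by linarith [Real.add_one_le_exp ‖c‖]⟩

theorem Deg.mul (hf : G.Deg k f) (hg : G.Deg k' g) : G.Deg (k + k') fun x => f x * g x := by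
  obtain ⟨h1, C, hC⟩ := hf
  obtain ⟨h2, D, hD⟩ := hg
  refine ⟨sec_mul h1 h2, C + D, fun x => ?_⟩
  rw [norm_mul, show (k + k') * G.a x + (C + D) = (k * G.a x + C) + (k' * G.a x + D) by ring,
    Real.exp_add]
  exact mul_le_mul (hC x) (hD x) (norm_nonneg _) (Real.exp_pos _).le

theorem Deg.add (hf : G.Deg k f) (hg : G.Deg k g) : G.Deg k fun x => f x + g x := by
  obtain ⟨h1, C, hC⟩ := hf
  obtain ⟨h2, D, hD⟩ := hg
  refine ⟨sec_add h1 h2, max C D + 1, fun x => (norm_add_le _ _).trans ?_⟩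
  have e1 : Real.exp (k * G.a x + C) ≤ Real.exp (k * G.a x + max C D) := by
    gcongr; exact le_max_left _ _
  have e2 : Real.exp (k * G.a x + D) ≤ Real.exp (k * G.a x + max C D) := by
    gcongr; exact le_max_right _ _
  rw [← add_assoc, Real.exp_add]
  nlinarith [hC x, hD x, Real.add_one_le_exp (1 : ℝ), Real.exp_pos (k * G.a x + max C D)]

theorem mem_const (c : ℂ) : G.Mem fun _ => c := ⟨0, deg_const c⟩

theorem Mem.mul (hf : G.Mem f) (hg : G.Mem g) : G.Mem fun x => f x * g x :=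
  let ⟨_, h⟩ := hf; let ⟨_, h'⟩ := hg; ⟨_, h.mul h'⟩

theorem Mem.add (hf : G.Mem f) (hg : G.Mem g) : G.Mem fun x => f x + g x :=
  let ⟨_, h⟩ := hf; let ⟨_, h'⟩ := hg
  ⟨_, (h.mono (le_max_left _ _)).add (h'.mono (le_max_right _ _))⟩

variable (G) in
/-- the algebra of tame functions -/
def alg : Subalgebra ℂ (M → ℂ) where
  carrier := {g | G.Mem g}
  mul_mem' := Mem.mul
  add_mem' := Mem.add
  algebraMap_mem' := mem_const

theorem mem_alg : g ∈ G.alg ↔ G.Mem g := Iff.rfl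

theorem Mem.sub (hf : G.Mem f) (hg : G.Mem g) : G.Mem fun x => f x - g x :=
  G.alg.sub_mem hf hg

theorem Mem.pow (hf : G.Mem f) (j : ℕ) : G.Mem fun x => f x ^ j := G.alg.pow_mem hf j

theorem mem_eval {L : ℕ} {z : Fin L → M → ℂ} (hz : ∀ i, G.Mem (z i))
    (P : MvPolynomial (Fin L) ℂ) : G.Mem fun x => MvPolynomial.eval (mp z x) P := by
  induction P using MvPolynomial.induction_on with
  | C c => simpa using mem_const c
  | add p q hp hq => simpa using hp.add hq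
  | mul_X p i hp => simpa [mp] using hp.mul (hz i)

theorem tame_sum {L : ℕ} {a : Fin L → M → ℂ} (h : ∀ i, G.Mem (a i)) :
    G.Tame fun x => Real.log (1 + ∑ i, ‖a i x‖ ^ 2) := by
  choose k hk hb using fun i => (mem_iff.1 (h i)).2
  refine ⟨2 * ∑ i, k i, L, fun x => ?_⟩
  have h0 : 0 ≤ ∑ i, k i := Finset.sum_nonneg fun i _ => hk i
  have h1 : 1 ≤ Real.exp (2 * (∑ i, k i) * G.a x) :=
    Real.one_le_exp (by have := G.a_pos x; positivity)
  have h2 : ∑ i, ‖a i x‖ ^ 2 ≤ L * Real.exp (2 * (∑ i, k i) * G.a x) := by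
    refine (Finset.sum_le_card_nsmul _ _ (Real.exp (2 * (∑ i, k i) * G.a x))
      fun i _ => ?_).trans_eq (by simp)
    refine (pow_le_pow_left₀ (norm_nonneg _) (hb i x) 2).trans ?_
    rw [← Real.exp_nat_mul]
    refine Real.exp_le_exp.2 ?_
    have := Finset.single_le_sum (fun i _ => hk i) (Finset.mem_univ i)
    push_cast
    nlinarith [G.a_pos x]
  rw [Real.log_le_iff_le_exp (by positivity), Real.exp_add]
  nlinarith [Real.add_one_le_exp (L : ℝ)]

theorem Mem.tame (h : G.Mem g) : G.Tame fun x => Real.log (1 + ‖g x‖ ^ 2) := by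
  simpa using tame_sum (a := fun _ : Fin 1 => g) fun _ => h

theorem deg_of_le (h : IsSec n 0 g) (h' : G.Le k fun x => Real.log (1 + ‖g x‖ ^ 2)) :
    G.Deg k g :=
  ⟨h, h'.imp fun C hC x => by
    have := hC x
    rw [Real.log_le_iff_le_exp (by positivity)] at this
    nlinarith [sq_nonneg (‖g x‖ - 1), norm_nonneg (g x)]⟩

theorem mem_of_tame (h : IsSec n 0 g) (h' : G.Tame fun x => Real.log (1 + ‖g x‖ ^ 2)) :
    G.Mem g := h'.imp fun _ => deg_of_le h

theorem Deg.lt (h : G.Deg k g) (U : Filter ℕ) {m : ℕ} (hm : k ≤ m) : G.Lt U m g := by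
  obtain ⟨h1, C, hC⟩ := h.mono hm
  refine ⟨h1, fun _ => g, C, Eventually.of_forall fun ν => ⟨h1, fun x =>
    (hC x).trans (Real.exp_le_exp.2 ?_)⟩, fun _ hu => Eventually.of_forall fun _ _ _ =>
      refl_mem_uniformity hu⟩
  nlinarith [G.a_le_sc (R := ν + 2) (by positivity) x, Nat.cast_nonneg (α := ℝ) m]

theorem Mem.lim (h : G.Mem g) (U : Filter ℕ) : G.Lim U g :=
  let ⟨k, h⟩ := h; ⟨_, h.lt U (Nat.le_ceil k)⟩

end Gauge

end Vale.Agent.P253W.T
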