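import Vale.Agent.P253W.T.Basic

/-!
# P253W, block T: from integral bounds to pointwise bounds; derivatives of tame functions
-/

open scoped Manifold ContDiff Bundle ENNReal Topology ComplexConjugate ComplexOrder
open Bundle IsManifold MeasureTheory Set Metric Filter Vale.Agent.P253.Mfd Vale.Agent.P253Z
open Vale.Agent.P272.K (Cm dz dzb cHess jacM Chart)

set_option linter.all false

noncomputable section

namespace Vale.Agent.P253W.T

namespace Brg

theorem log_mul {J s : ℝ} (hJ : 0 ≤ J) :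
    Real.log (1 + J * Real.exp s) ≤ max s 0 + Real.log (1 + J) := by
  rw [Real.log_le_iff_le_exp (by positivity), Real.exp_add, Real.exp_log (by positivity)]
  nlinarith [Real.one_le_exp (le_max_right s 0),
    mul_le_mul_of_nonneg_left (Real.exp_le_exp.2 (le_max_left s 0)) hJ]

theorem log_le {J : ℝ} (hJ : 0 ≤ J) : Real.log (1 + J) ≤ J := by
  linarith [Real.log_le_sub_one_of_pos (show 0 < 1 + J by positivity)]

theorem log_bd {J C s : ℝ} (hJ : 0 ≤ J) (hC : 0 ≤ C) (hs : 0 ≤ s) (h : J ≤ C * Real.exp s) :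
    Real.log (1 + J) ≤ s + C :=
  (Real.log_le_log (by positivity) (by linarith)).trans
    ((log_mul hC).trans (by rw [max_eq_left hs]; linarith [log_le hC]))

end Brg

open Brg

variable {n : ℕ} {M : Type} [MetricSpace M] [ChartedSpace (Cm n) M]
  [RiemannianBundle (fun x : M => TangentSpace 𝓘(ℝ, Cm n) x)] {o : M} {G : Gauge n o}

theorem spsh_const (c : ℝ) : SPsh n fun _ : M => c :=
  ⟨fun _ _ _ _ => contDiffAt_const, fun e _ z _ => by
    have h : dzb (n := n) = fun k f z => dzb k f z := rfl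
    have : hs (fun _ : M => c) e z = 0 := by
      ext j k
      simp [hs, cHess, dz, h, dzb]
    rw [this]
    exact Matrix.PosSemidef.zero⟩

/-- **GRT** -/
theorem grt (a : B1a n M) (b : B1b n M) (d : DJ n M) (g : GB n M) : G.GRT := by
  obtain ⟨C, hC, h⟩ := g.le
  have h1 : ∀ f, G.Mem f → ∃ k, 0 ≤ k ∧ ∀ x, gr n f x ≤ C * Real.exp (k * G.a x) := fun f hf => by
    obtain ⟨hs, k, hk, hb⟩ := Gauge.mem_iff.1 hf
    refine ⟨4 * k, by positivity, fun x => (h f x (Real.exp (k * (2 * G.a x))) hs fun y hy =>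
      (hb y).trans (Real.exp_le_exp.2 (mul_le_mul_of_nonneg_left
        (G.a_near (mem_ball.1 hy).le) hk))).trans_eq ?_⟩
    rw [← Real.exp_nat_mul]
    congr 2
    push_cast
    ring
  refine ⟨fun f hf => ?_, fun z hz => ?_⟩
  · obtain ⟨k, hk, hb⟩ := h1 f hf
    exact ⟨k, C, fun x => log_bd (d.gr_nonneg f x) hC.le (mul_nonneg hk (G.a_pos x).le) (hb x)⟩
  · choose k hk hb using fun i => h1 _ (hz i)
    have k0 : 0 ≤ ∑ i, k i := Finset.sum_nonneg fun i _ => hk i
    refine ⟨n * ∑ i, k i, (n * C) ^ n, fun x => log_bd (nrm_nonneg a b 1 _ x) (by positivity)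
      (by have := G.a_pos x; positivity) ((d.had z x).trans ?_)⟩
    rw [mul_assoc, Real.exp_nat_mul, ← mul_pow]
    refine pow_le_pow_left₀ (Finset.sum_nonneg fun i _ => d.gr_nonneg _ x) ?_ n
    refine (Finset.sum_le_card_nsmul _ _ (C * Real.exp ((∑ i, k i) * G.a x))
      fun i _ => (hb i x).trans ?_).trans_eq (by simp [mul_assoc])
    have := G.a_pos x
    gcongr
    exact Finset.single_le_sum (fun i _ => hk i) (Finset.mem_univ i)

/-- **JAC** -/
theorem jacc {Ω : M → ℂ} (a : B1a n M) (b : B1b n M) (d : DJ n M) (l : LSP n M) (hO : G.Triv Ω)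
    (h1 : G.GRT) (h2 : G.QUOT) : G.JAC Ω := by
  intro z hz
  have fs := sec_div a (d.sec z fun i => (hz i).sec) hO.sec hO.ne
  obtain ⟨k₁, k1, hk1⟩ := hO.tame.sc
  obtain ⟨k₂, k2, hk2⟩ := (h1.2 z hz).sc
  have l0 := abs_nonneg (lg n Ω o)
  refine Gauge.mem_of_tame fs (h2 _ (k₁ + 2 * k₂ + |lg n Ω o|) (l.log0 _ 1 fs one_pos) fun R hR => ?_)
  have R0 : 0 < R := by linarith
  have hA := G.one_le R
  refine ⟨lg n Ω, o, (l.triv Ω hO.sec hO.ne).1, mem_closedBall_self zero_le_two, fun x =>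
    (hk1 R R0 x).trans (mul_le_mul_of_nonneg_right (by linarith) (G.sc_pos R x).le),
    by nlinarith [neg_abs_le (lg n Ω o)], fun x hx => ?_⟩
  have s2 := G.sc_le_two (x := x) R0 (mem_ball.1 hx).le
  have e : ‖jac z x / Ω x‖ ^ 2 = nrm n 1 (jac z) x * Real.exp (-lg n Ω x) := by
    rw [← nrm_div (hO.ne x), ← exp_lg a b (hO.ne x), mul_assoc, ← Real.exp_add]
    simp
  rw [e]
  nlinarith [log_mul (s := -lg n Ω x) (nrm_nonneg a b 1 (jac z) x), hk2 R R0 x]

variable [MeasurableSpace M] {μ : Measure M}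

/-- **BRG** -/
theorem brg (a : B1a n M) (l : LSP n M) (h : QL0 n μ o) : G.BRG μ := by
  obtain ⟨C, hC, h⟩ := h
  intro k hk
  refine ⟨4 * C * k, fun C₁ => ⟨C * |C₁|, fun R g v ψ y hR hg hv hψ hy hb hl hI x => ?_⟩⟩
  have R0 : 0 < R := by linarith
  have c0 := abs_nonneg C₁
  obtain ⟨R₁, hR₁⟩ : ∃ R₁, R₁ = max R (dist x o + 1) := ⟨_, rfl⟩
  have r1 : R ≤ R₁ := hR₁ ▸ le_max_left _ _
  have r2 : R₁ / R ≤ 2 * tw o R x := by
    have t1 := one_le_tw (o := o) (x := x) (R := R)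
    have t2 := div_le_tw (o := o) (x := x) (R := R)
    rw [div_le_iff₀ R0] at t2 ⊢
    rw [hR₁]
    exact max_le (by nlinarith) (by nlinarith)
  obtain ⟨T, hT⟩ : ∃ T, T = G.A R * (R₁ / R) := ⟨_, rfl⟩
  have hA := G.A_pos R
  have t1 : G.A R ≤ T := hT ▸ le_mul_of_one_le_right hA.le ((one_le_div R0).2 r1)
  have t2 : T ≤ 2 * G.sc R x := by
    rw [hT, Gauge.sc, mul_left_comm]
    exact mul_le_mul_of_nonneg_left r2 hA.le
  have t3 : ∀ w, k * G.sc R w ≤ k * T * tw o R₁ w := fun w => by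
    rw [hT, Gauge.sc, mul_assoc, mul_assoc]
    exact mul_le_mul_of_nonneg_left (mul_le_mul_of_nonneg_left (tw_ratio R0 r1) hA.le) hk
  have kT : 0 ≤ k * T := mul_nonneg hk (by linarith)
  have hu := l.log0 g 1 hg one_pos
  have h1 := h _ v (fun w => ‖g w‖ ^ 2 * Real.exp (v w - ψ w)) R₁ (2 * (k * T) + |C₁|) 0 y hu.1 hv
    (((sec_cont a hg).norm.pow 2).mul ((a.sm_cont v hv.1).sub hψ).rexp) (fun w => by positivity)
    (by linarith) (by positivity) le_rfl hy (fun w _ => hu.lo a w)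
    (fun w => (hb w).1.trans ((t3 w).trans (mul_le_mul_of_nonneg_right (by linarith) tw_pos.le)))
    (by linarith [mul_le_mul_of_nonneg_left t1 hk])
    (hI.trans (ENNReal.ofReal_le_ofReal (by linarith [le_abs_self C₁]))) (fun w hw => ?_) x
    (mem_ball.2 (hR₁ ▸ lt_max_of_lt_right (lt_add_one _)))
  · rw [Real.log_le_iff_le_exp (by positivity)] at h1
    refine le_trans (by nlinarith [sq_nonneg (‖g x‖ - 1), norm_nonneg (g x)])
      (h1.trans (Real.exp_le_exp.2 ?_))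
    nlinarith [mul_le_mul_of_nonneg_left t2 (show 0 ≤ C * k by positivity)]
  · have e : ‖g w‖ ^ 2 = ‖g w‖ ^ 2 * Real.exp (v w - ψ w) * Real.exp (ψ w - v w) := by
      rw [mul_assoc, ← Real.exp_add]
      simp
    have p0 : 0 ≤ ‖g w‖ ^ 2 * Real.exp (v w - ψ w) := by positivity
    have e1 := log_mul (s := ψ w - v w) p0
    have e2 := (hb w).2.trans ((t3 w).trans (mul_le_mul_of_nonneg_left
      (tw_le (by linarith) one_le_two (mem_ball.1 hw).le) kT))
    have e3 : max (ψ w - v w) 0 ≤ k * T * 2 + max (-v w) 0 :=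
      max_le (by linarith [le_max_left (-v w) 0]) (by positivity)
    rw [← e] at e1
    linarith [log_le p0]

/-- **BERG** -/
theorem berg (h : G.BRG μ) : G.BERG μ := by
  intro v hv ht k
  obtain ⟨k₁, k1, hk1⟩ := ht.sc
  have k0 := abs_nonneg k
  have v0 := abs_nonneg (v o)
  obtain ⟨k', h⟩ := h (k₁ + |k| + |v o|) (by positivity)
  refine ⟨k', fun g ψ hg hψ ⟨D, hD⟩ hI => ⟨hg, ?_⟩⟩
  have e : ∫⁻ x, ENNReal.ofReal (‖g x‖ ^ 2 * Real.exp (v x - (ψ x - D))) ∂μ =
      ENNReal.ofReal (Real.exp D) * ∫⁻ x, ENNReal.ofReal (‖g x‖ ^ 2 * Real.exp (v x - ψ x)) ∂μ := by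
    rw [← lintegral_const_mul' _ _ ENNReal.ofReal_ne_top]
    refine lintegral_congr fun x => ?_
    rw [← ENNReal.ofReal_mul (Real.exp_pos _).le, mul_left_comm, ← Real.exp_add]
    congr 3
    ring
  obtain ⟨C, hC⟩ := h (∫⁻ x, ENNReal.ofReal (‖g x‖ ^ 2 * Real.exp (v x - (ψ x - D))) ∂μ).toReal
  refine ⟨C, fun x => ?_⟩
  have R0 : 0 < max (dist x o) 2 := lt_max_of_lt_right two_pos
  have h1 := hC (max (dist x o) 2) g v (fun x => ψ x - D) o (le_max_right _ _) hg hv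
    (hψ.sub continuous_const) (mem_closedBall_self zero_le_two) (fun w => ?_)
    (by nlinarith [neg_abs_le (v o), G.one_le (max (dist x o) 2)])
    (ENNReal.ofReal_toReal (by rw [e]; exact ENNReal.mul_ne_top ENNReal.ofReal_ne_top hI.ne)).ge x
  · rwa [G.sc_self, add_comm] at h1
  · have s0 := G.sc_pos (max (dist x o) 2) w
    refine ⟨(hk1 _ R0 w).trans (mul_le_mul_of_nonneg_right (by linarith) s0.le), ?_⟩
    nlinarith [hD w, mul_le_mul_of_nonneg_right (le_abs_self k) (G.a_pos w).le,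
      mul_le_mul_of_nonneg_left (G.a_le_sc R0 w) k0]

/-- **INH** -/
theorem inh {Ω : M → ℂ} (a : B1a n M) (b : B1b n M) (l : LSP n M) (hO : G.Triv Ω)
    (h : G.BERG μ) : G.INH μ Ω := by
  intro m s hs
  have e : ∀ x, ‖s x * Ω x ^ m‖ ^ 2 * Real.exp (-(m * lg n Ω x)) = nrm n (-m) s x := fun x => by
    have h1 := (vd_pos a b x).ne'
    have h2 := norm_ne_zero_iff.2 (hO.ne x)
    rw [Real.exp_neg, Real.exp_nat_mul, exp_lg a b (hO.ne x)]
    simp only [nrm, neg_neg, zpow_natCast, zpow_neg, zpow_one, norm_mul, norm_pow, mul_pow, inv_pow]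
    field_simp
    ring
  obtain ⟨k, hk⟩ := hO.tame
  obtain ⟨k', h⟩ := h (fun _ => 0) (spsh_const 0) (Gauge.tame_const 0) (m * k)
  refine ⟨⟨k', h _ (fun x => m * lg n Ω x) (sec_pow a hs.1 hO.sec)
    (continuous_const.mul (a.sm_cont _ (l.triv Ω hO.sec hO.ne).1.1)) (hk.mul m.cast_nonneg) ?_⟩, e⟩
  simpa only [zero_sub, e] using hs.2

end Vale.Agent.P253W.T
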