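import Vale.Agent.P253W.T.Basic
import Vale.Agent.P253Z.T2.Conn

/-!
# P253W, row T.CIRC: polynomial growth over the complement of a hypersurface
-/

open scoped Manifold ContDiff Bundle ENNReal Topology ComplexConjugate ComplexOrder
open Bundle IsManifold MeasureTheory Set Metric Filter Vale.Agent.P253.Mfd Vale.Agent.P253Z
open Vale.Agent.P272.K (Cm dz dzb cHess jacM Chart)
open Vale.Agent.P253Z.T2 (Pz Phi)

noncomputable section

namespace Vale.Agent.P253W.T

variable {n : ℕ} {M : Type} [MetricSpace M] [ChartedSpace (Cm n) M]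

namespace Circ

open Polynomial

theorem mono (ζ v : Cm n) (s : Fin n → ℕ) (I : Finset (Fin n)) :
    (∏ i ∈ I, (C (v i) * X + C (ζ i)) ^ s i).natDegree ≤ ∑ i ∈ I, s i ∧
      (∏ i ∈ I, (C (v i) * X + C (ζ i)) ^ s i).coeff (∑ i ∈ I, s i) = ∏ i ∈ I, v i ^ s i := by
  induction I using Finset.induction_on with
  | empty => simp
  | insert i I hi ih =>
    have h1 : (C (v i) * X + C (ζ i)).natDegree ≤ 1 := natDegree_linear_le
    have h2 : ((C (v i) * X + C (ζ i)) ^ s i).natDegree ≤ s i := by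
      simpa using natDegree_pow_le_of_le (s i) h1
    have h3 := coeff_pow_of_natDegree_le (m := s i) h1
    rw [Finset.prod_insert hi, Finset.sum_insert hi, Finset.prod_insert hi]
    refine ⟨natDegree_mul_le_of_le h2 ih.1, ?_⟩
    rw [coeff_mul_add_eq_of_natDegree_le h2 ih.1, ih.2]
    simp only [mul_one] at h3
    rw [h3]
    simp

/-- a direction in which the degree and the leading coefficient are constant -/
theorem line {d : Pz n} (hd : d ≠ 0) : ∃ (v : Cm n) (D : ℕ) (c : ℂ), c ≠ 0 ∧ ∀ ζ : Cm n,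
    ∃ p : ℂ[X], p.natDegree ≤ D ∧ p.coeff D = c ∧
      ∀ t, p.eval t = MvPolynomial.eval (ζ + t • v) d := by
  obtain ⟨s₀, h0, h1⟩ := Finset.exists_mem_eq_sup d.support (MvPolynomial.support_nonempty.2 hd)
    fun s => s.sum fun _ e => e
  have hs : ∀ s : Fin n →₀ ℕ, (s.sum fun _ e => e) = ∑ i, s i := fun s =>
    Finsupp.sum_fintype _ _ fun _ => rfl
  have h2 : MvPolynomial.homogeneousComponent d.totalDegree d ≠ 0 := fun h => by
    have h3 := MvPolynomial.coeff_homogeneousComponent d.totalDegree d s₀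
    rw [h, if_pos (by rw [Finsupp.degree_eq_sum, ← hs]; exact h1.symm)] at h3
    exact MvPolynomial.mem_support_iff.1 h0 h3.symm
  obtain ⟨v, hv⟩ := not_forall.1 fun h => h2 (MvPolynomial.funext (q := 0) h)
  refine ⟨v, d.totalDegree, _, by simpa using hv, fun ζ =>
    ⟨∑ s ∈ d.support, C (d.coeff s) * ∏ i, (C (v i) * X + C (ζ i)) ^ s i, ?_, ?_, fun t => ?_⟩⟩
  · refine natDegree_sum_le_of_forall_le _ _ fun s h => (natDegree_C_mul_le _ _).trans ?_
    exact (mono ζ v s _).1.trans (hs s ▸ MvPolynomial.le_totalDegree h)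
  · rw [finsetSum_coeff, MvPolynomial.homogeneousComponent_apply, map_sum, Finset.sum_filter]
    refine Finset.sum_congr rfl fun s h => ?_
    have h4 := hs s ▸ MvPolynomial.le_totalDegree h
    rw [coeff_C_mul, Finsupp.degree_eq_sum]
    split_ifs with h5
    · rw [← h5, (mono ζ v s _).2, MvPolynomial.eval_monomial, Finsupp.prod_fintype _ _ (by simp)]
    · rw [coeff_eq_zero_of_natDegree_lt ((mono ζ v s _).1.trans_lt (lt_of_le_of_ne h4 h5)),
        mul_zero]
  · simp only [MvPolynomial.eval_eq', eval_finsetSum, eval_mul, eval_C, eval_prod, eval_pow,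
      eval_add, eval_X, Pi.add_apply, Pi.smul_apply, smul_eq_mul, add_comm (ζ _), mul_comm t]

/-- a circle on which a polynomial is not small -/
theorem radius {p : ℂ[X]} {D : ℕ} (h1 : p.natDegree ≤ D) (h2 : p.coeff D ≠ 0) {δ : ℝ}
    (hδ : 0 < δ) : ∃ s : ℝ, 0 ≤ s ∧ s ≤ D * δ ∧ ∀ t : ℂ, ‖t‖ = s →
      ‖p.coeff D‖ * (δ / 2) ^ D ≤ ‖p.eval t‖ := by
  classical
  have h3 := natDegree_eq_of_le_of_coeff_ne_zero h1 h2
  have hp := IsAlgClosed.splits p
  have h4 : p.roots.card = D := hp.natDegree_eq_card_roots.symm.trans h3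
  obtain ⟨j, hj, h5⟩ := Finset.exists_mem_notMem_of_card_lt_card
    (s := p.roots.toFinset.image fun r => ⌊‖r‖ / δ + 1 / 2⌋₊) (t := Finset.range (D + 1))
    (by
      rw [Finset.card_range, ← h4]
      exact Nat.lt_succ_of_le (Finset.card_image_le.trans (Multiset.toFinset_card_le _)))
  refine ⟨j * δ, by positivity, mul_le_mul_of_nonneg_right
    (by exact_mod_cast Nat.lt_succ_iff.1 (Finset.mem_range.1 hj)) hδ.le, fun t ht => ?_⟩
  rw [hp.eval_eq_prod_roots, norm_mul, leadingCoeff, h3]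
  refine mul_le_mul_of_nonneg_left ?_ (norm_nonneg _)
  have h6 : ∀ r ∈ p.roots, δ / 2 ≤ ‖t - r‖ := fun r hr => by
    by_contra h
    have h7 := abs_lt.1 ((abs_norm_sub_norm_le t r).trans_lt (not_le.1 h))
    refine h5 (Finset.mem_image.2 ⟨r, Multiset.mem_toFinset.2 hr, ?_⟩)
    have h8 : ‖r‖ = ‖r‖ / δ * δ := by field_simp
    rw [Nat.floor_eq_iff (by positivity)]
    constructor <;> nlinarith
  rw [← h4]
  generalize p.roots = R at h6
  induction R using Multiset.induction_on with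
  | empty => simp
  | cons r R ih =>
    rw [Multiset.map_cons, Multiset.prod_cons, norm_mul, Multiset.card_cons, pow_succ']
    exact mul_le_mul (h6 r (Multiset.mem_cons_self _ _))
      (ih fun r hr => h6 r (Multiset.mem_cons_of_mem hr)) (by positivity) (norm_nonneg _)

theorem one_add_le (ζ v : Cm n) {t : ℂ} (ht : ‖t‖ ≤ 1) :
    1 + ‖ζ + t • v‖ ≤ (1 + ‖v‖) * (1 + ‖ζ‖) := by
  have h := norm_add_le ζ (t • v)
  rw [norm_smul] at h
  nlinarith [norm_nonneg ζ, norm_nonneg v, mul_nonneg (norm_nonneg ζ) (norm_nonneg v)]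

theorem diff_line (Q : Pz n) (ζ v : Cm n) :
    Differentiable ℂ fun t : ℂ => MvPolynomial.eval (ζ + t • v) Q := by
  simp only [MvPolynomial.eval_eq']
  fun_prop

/-- `Q` does not vanish on a disc in the direction `v` -/
theorem disc (Q : Pz n) (v : Cm n) : ∃ (A : ℝ) (N : ℕ), 0 < A ∧ ∀ ζ : Cm n,
    ‖MvPolynomial.eval ζ Q‖ ≤ A * (1 + ‖ζ‖) ^ N ∧ ∀ t : ℂ,
      ‖t‖ * (A * (1 + ‖ζ‖) ^ N) < ‖MvPolynomial.eval ζ Q‖ → MvPolynomial.eval (ζ + t • v) Q ≠ 0 := by
  obtain ⟨a, N, ha, h⟩ := T2.Cn.pg_eval Q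
  refine ⟨2 * ((a + 1) * (1 + ‖v‖) ^ N), N, by positivity, fun ζ => ?_⟩
  set B := (a + 1) * (1 + ‖v‖) ^ N * (1 + ‖ζ‖) ^ N with hB
  have hB0 : 0 < B := by positivity
  have h1 : ∀ t : ℂ, ‖t‖ ≤ 1 → ‖MvPolynomial.eval (ζ + t • v) Q‖ ≤ B := fun t ht => by
    refine (h _).trans ?_
    rw [hB, mul_assoc, ← mul_pow]
    exact mul_le_mul (by linarith) (pow_le_pow_left₀ (by positivity) (one_add_le ζ v ht) _)
      (by positivity) (by positivity)
  have h2 := h1 0 (by simp)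
  rw [zero_smul, add_zero] at h2
  rw [mul_assoc, ← hB]
  refine ⟨by linarith, fun t ht h0 => ?_⟩
  have h3 := Complex.dist_le_div_mul_dist_of_mapsTo_ball (c := 0) (R₁ := 1) (R₂ := 2 * B) (z := t)
    (diff_line Q ζ v).differentiableOn (fun τ hτ => by
      rw [mem_closedBall_iff_norm, zero_smul, add_zero]
      linarith [h1 τ (mem_ball_zero_iff.1 hτ).le,
        norm_sub_le (MvPolynomial.eval (ζ + τ • v) Q) (MvPolynomial.eval ζ Q)])
    (mem_ball_zero_iff.2 (by nlinarith [norm_nonneg t]))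
  rw [h0, zero_smul, add_zero, dist_zero_left, dist_zero_right] at h3
  linarith

variable [RiemannianBundle (fun x : M => TangentSpace 𝓘(ℝ, Cm n) x)]

/-- the maximum principle over a disc -/
theorem maxp (a : B1a n M) (d : DJ n M) {z : Fin n → M → ℂ} {h : M → ℂ}
    (hz : ∀ i, IsSec n 0 (z i)) (hh : IsSec n 0 h) (x : M) (v : Cm n) {s : ℝ} (hs : 0 ≤ s)
    (hK : IsCompact (mp z ⁻¹' ((fun t : ℂ => mp z x + t • v) '' closedBall 0 s)))
    (hj : ∀ y (t : ℂ), ‖t‖ ≤ s → mp z y = mp z x + t • v → jac z y ≠ 0) :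
    ∃ (y : M) (t : ℂ), ‖t‖ = s ∧ mp z y = mp z x + t • v ∧ ‖h x‖ ≤ ‖h y‖ := by
  have hc := mp_cont a hz
  have hn := (sec_cont a hh).norm
  set W : Set (M × ℂ) := {q | ‖q.2‖ ≤ s ∧ mp z q.1 = mp z x + q.2 • v} with hW
  have hWc : IsCompact W := (hK.prod (isCompact_closedBall (0 : ℂ) s)).of_isClosed_subset
    ((isClosed_le continuous_snd.norm continuous_const).inter (isClosed_eq (hc.comp continuous_fst)
      (continuous_const.add (continuous_snd.smul continuous_const))))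
    fun q hq => ⟨⟨q.2, mem_closedBall_zero_iff.2 hq.1, hq.2.symm⟩, mem_closedBall_zero_iff.2 hq.1⟩
  have hx : (x, (0 : ℂ)) ∈ W := ⟨by simpa using hs, by simp⟩
  obtain ⟨q₀, h0, h1⟩ := hWc.exists_isMaxOn ⟨_, hx⟩ (hn.comp continuous_fst).continuousOn
  obtain ⟨⟨y, t⟩, ⟨⟨h2, h3⟩, h4⟩, h5⟩ := (hWc.inter_right
    (isClosed_eq (hn.comp continuous_fst) (continuous_const (y := ‖h q₀.1‖)))).exists_isMaxOn
    ⟨q₀, h0, rfl⟩ (continuous_norm.comp continuous_snd).continuousOn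
  have h4' : ‖h y‖ = ‖h q₀.1‖ := h4
  refine ⟨y, t, le_antisymm h2 (not_lt.1 fun ht => ?_), h3, (h1 hx).trans_eq h4'.symm⟩
  obtain ⟨e, he, hy, hm⟩ := d.chart z hz y (hj y t h2 h3)
  have h6 : mp z x + t • v = e y := ((hm y hy).1.trans h3).symm
  have h7 : ∀ᶠ τ in 𝓝 t, mp z x + τ • v ∈ e.target :=
    (show ContinuousAt (fun τ : ℂ => mp z x + τ • v) t by fun_prop).eventually_mem
      (e.open_target.mem_nhds (h6 ▸ e.map_source hy))
  have h8 : ∀ᶠ τ in 𝓝 t, (e.symm (mp z x + τ • v), τ) ∈ W := by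
    filter_upwards [h7, continuous_norm.continuousAt.eventually_lt continuousAt_const ht]
      with τ h9 h10
    exact ⟨h10.le, (hm _ (e.map_target h9)).1.symm.trans (e.right_inv h9)⟩
  have h9 := Complex.norm_eventually_eq_of_isLocalMax (c := t)
    (f := fun τ : ℂ => h (e.symm (mp z x + τ • v)))
    (h7.mono fun τ hτ => DifferentiableAt.comp (f := fun τ : ℂ => mp z x + τ • v) τ
      (sec0.1 hh e he _ hτ).differentiableAt (by fun_prop))
    (h8.mono fun τ hτ => (h1 hτ).trans_eq (by simp [h6, e.left_inv hy, h4']))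
  have h10 := Complex.eventually_eq_of_isLocalMax_norm (c := t) (f := id)
    (Eventually.of_forall fun _ => differentiableAt_id)
    ((h8.and h9).mono fun τ hτ => h5 ⟨hτ.1, hτ.2.trans (by simp [h6, e.left_inv hy, h4'])⟩)
  exact (frequently_nhdsWithin_iff.1 (Eventually.frequently (f := 𝓝[≠] t)
    (h10.filter_mono nhdsWithin_le_nhds))).exists.elim fun τ hτ => hτ.2 hτ.1

end Circ

open Circ

variable [RiemannianBundle (fun x : M => TangentSpace 𝓘(ℝ, Cm n) x)]

/-- **Row CIRC.** -/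
theorem circ (a : B1a n M) (d : DJ n M) : CIRC n M := by
  intro z Q P h N C hz hj hK hP hh hb
  obtain ⟨v, D, c, hc, hp⟩ := line hP
  obtain ⟨A, N₀, hA, hQ⟩ := disc Q v
  have hc' := norm_pos_iff.2 hc
  refine ⟨D + 1, N + N₀ * (D + 1), |C| * (1 + ‖v‖) ^ N * (2 * (D + 1) * A) ^ (D + 1) / ‖c‖,
    fun x => ?_⟩
  rcases eq_or_ne (pv z Q x) 0 with h0 | h0
  · rw [h0, norm_zero, zero_pow D.succ_ne_zero, zero_mul]
    positivity
  obtain ⟨h1, h2⟩ := hQ (mp z x)
  obtain ⟨p, p1, p2, p3⟩ := hp (mp z x)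
  set B := A * (1 + ‖mp z x‖) ^ N₀ with hB
  have hB0 : 0 < B := by positivity
  have hq : 0 < ‖pv z Q x‖ := norm_pos_iff.2 h0
  change ‖pv z Q x‖ ≤ B at h1
  set δ := ‖pv z Q x‖ / ((D + 1) * B) with hδ
  have hδ0 : 0 < δ := by positivity
  have hδ1 : ‖pv z Q x‖ = δ * ((D + 1) * B) := by rw [hδ]; field_simp
  have hδ2 : (D + 1) * δ ≤ 1 := by nlinarith
  obtain ⟨s, s0, s1, s2⟩ := radius p1 (p2 ▸ hc) hδ0
  have h3 : ∀ t : ℂ, ‖t‖ ≤ s → MvPolynomial.eval (mp z x + t • v) Q ≠ 0 := fun t ht =>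
    h2 t (by change _ < ‖pv z Q x‖; nlinarith)
  obtain ⟨y, t, t1, t2, t3⟩ := maxp a d hz hh x v s0
    (hK _ ((isCompact_closedBall _ _).image (by fun_prop))
      (forall_mem_image.2 fun t ht => h3 t (mem_closedBall_zero_iff.1 ht)))
    fun y t ht hy => hj y (by rw [pv, hy]; exact h3 t ht)
  have h4 := s2 t t1
  have h5 := hb y
  rw [p2, p3] at h4
  rw [pv, t2] at h5
  have h6 : C * (1 + ‖mp z x + t • v‖) ^ N ≤ |C| * ((1 + ‖v‖) * (1 + ‖mp z x‖)) ^ N :=
    mul_le_mul (le_abs_self C) (pow_le_pow_left₀ (by positivity)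
      (one_add_le _ _ (by nlinarith)) _) (by positivity) (abs_nonneg C)
  have h7 : (δ / 2) ^ (D + 1) ≤ (δ / 2) ^ D :=
    pow_le_pow_of_le_one (by positivity) (by nlinarith [D.cast_nonneg (α := ℝ)]) D.le_succ
  have h8 := (mul_le_mul ((mul_le_mul_of_nonneg_left h7 hc'.le).trans h4) t3 (norm_nonneg _)
    (norm_nonneg _)).trans (h5.trans h6)
  rw [div_mul_eq_mul_div, le_div_iff₀ hc']
  calc _ = ‖c‖ * (δ / 2) ^ (D + 1) * ‖h x‖ * (2 * (D + 1) * B) ^ (D + 1) := by
        rw [hδ1, show δ * ((D + 1) * B) = δ / 2 * (2 * (D + 1) * B) by ring, mul_pow]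
        ring
    _ ≤ _ := mul_le_mul_of_nonneg_right h8 (by positivity)
    _ = _ := by
        rw [hB, ← mul_assoc, mul_pow, mul_pow, ← pow_mul, pow_add]
        ring

end Vale.Agent.P253W.T
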