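import Vale.Agent.P253Z.T2.Alg
import Vale.Agent.P253Y.H2.Defs
import Vale.Agent.P253W.HK.Defs
import Vale.Agent.P272.GJ.Green

/-!
# P253W, block T: the gauge, tame functions, discs. Definitions and statements.

See notes/P253/T_plan.md.
-/

open scoped Manifold ContDiff Bundle ENNReal Topology ComplexConjugate ComplexOrder
open Bundle IsManifold MeasureTheory Set Metric Filter Vale.Agent.P253.Mfd Vale.Agent.P253Z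
open Vale.Agent.P272.K (Cm dz dzb cHess jacM Chart)
open Vale.Agent.P272.GJ (ddb)
open Vale.Agent.P253.R2.H451 (ContPsh WeakLevi)
open Vale.Agent.P253Z.T2 (Pz Phi)
open Vale.Agent.P253Z.VS (ev)

noncomputable section

namespace Vale.Agent.P253W.T

/-! ### statements in `ℂ` and `ℂⁿ` -/

/-- **POT1**: `L¹` norm and mass of subharmonic functions -/
def POT1 : Prop := ∀ (c τ₀ : ℂ) (ρ r B : ℝ), τ₀ ∈ ball c ρ → r < ρ → ∃ C : ℝ, ∀ v : ℂ → ℝ,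
  (∀ τ ∈ ball c ρ, ContDiffAt ℝ 2 v τ ∧ 0 ≤ ddb v τ ∧ v τ ≤ B) → -B ≤ v τ₀ →
  ∫ τ in closedBall c r, |v τ| ≤ C ∧ ∫ τ in closedBall c r, ddb v τ ≤ C

/-- **POT2**: integrals along segments where the mass is small -/
def POT2 : Prop := ∀ ε C : ℝ, 0 < ε → ∃ C' : ℝ, ∀ (v : ℂ → ℝ) (τ : ℂ),
  (∀ w ∈ closedBall τ (3 * ε), ContDiffAt ℝ 2 v w ∧ 0 ≤ ddb v w) →
  ∫ w in closedBall τ (3 * ε), |v w| ≤ C → ∫ w in closedBall τ (3 * ε), ddb v w ≤ 1 →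
  ∀ a ∈ ball τ ε, ∀ b ∈ ball τ ε,
    ∫ t in (0 : ℝ)..1, Real.exp (-v (a + t * (b - a)) / 2) * ‖b - a‖ ≤ C' * √‖b - a‖

/-- **POT** -/
def POT : Prop := ∀ (v : ℕ → ℂ → ℝ) (U : Ultrafilter ℕ) (c τ₀ : ℂ) (ρ B : ℝ), τ₀ ∈ ball c ρ →
  (∀ᶠ k in U, (∀ τ ∈ ball c ρ, ContDiffAt ℝ 2 (v k) τ ∧ 0 ≤ ddb (v k) τ ∧ v k τ ≤ B) ∧
    -B ≤ v k τ₀) →
  ∃ S : Set ℂ, (∀ r < ρ, (S ∩ closedBall c r).Finite) ∧ ∀ τ ∈ ball c ρ \ S, ∃ ε C : ℝ, 0 < ε ∧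
    ball τ ε ⊆ ball c ρ \ S ∧ ∀ᶠ k in U, ∀ a ∈ ball τ ε, ∀ b ∈ ball τ ε,
      ∫ t in (0 : ℝ)..1, Real.exp (-v k (a + t * (b - a)) / 2) * ‖b - a‖ ≤ C * √‖b - a‖

/-- **PLH**: limits of almost pluriharmonic functions -/
def PLH (n : ℕ) : Prop := ∀ (H : ℕ → Cm n → ℝ) (ε : ℕ → ℝ) (U : Ultrafilter ℕ) (c : Cm n)
  (ρ B : ℝ), 0 < ρ → Tendsto ε U (𝓝 0) → (∀ᶠ ν in U, ∀ z ∈ ball c ρ, ContDiffAt ℝ 2 (H ν) z ∧
    |H ν z| ≤ B ∧ (cHess (H ν) z).PosSemidef ∧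
    ((ε ν : ℂ) • (1 : Mx n) - cHess (H ν) z).PosSemidef) →
  ∃ (r : ℝ) (h : Cm n → ℂ), 0 < r ∧ AnalyticOnNhd ℂ h (ball c r) ∧
    TendstoUniformlyOn H (fun z => (h z).re) U (ball c r)

/-! ### definitions -/

variable {n : ℕ} {M : Type} [MetricSpace M] [ChartedSpace (Cm n) M]

/-- the tail `max (1, r / R)` -/
def tw (o : M) (R : ℝ) (x : M) : ℝ := max 1 (dist x o / R)

variable (n) in
/-- smooth plurisubharmonic functions -/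
def SPsh (u : M → ℝ) : Prop :=
  Sm n u ∧ ∀ e : Chart n M, Hc e → ∀ z ∈ e.target, (hs u e z).PosSemidef

/-- the map with the components `z i` -/
def mp {L : ℕ} (z : Fin L → M → ℂ) (x : M) : Cm L := fun i => z i x

/-- the value of a polynomial in `z` -/
def pv (z : Fin n → M → ℂ) (Q : Pz n) (x : M) : ℂ := MvPolynomial.eval (mp z x) Q

/-- the differential of `a` in the chart `e` -/
def dv (a : M → ℂ) (e : Chart n M) (w : Cm n) : Cm n := fun j => dz j (fun y => a (e.symm y)) w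

variable (n) in
/-- the differential of `a` at `x` in the preferred chart -/
def dx (a : M → ℂ) (x : M) : Cm n := dv a (pc n x) (pc n x x)

/-- the section `dz_1 ∧ … ∧ dz_n` of `K` -/
def jac (z : Fin n → M → ℂ) (x : M) : ℂ := (Matrix.of fun i => dx n (z i) x).det

variable (n) in
/-- holomorphic discs over an open set -/
def HolOn (f : ℂ → M) (U : Set ℂ) : Prop := MDifferentiableOn 𝓘(ℂ, ℂ) 𝓘(ℂ, Cm n) f U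

variable (n M) in
/-- holomorphic functions give coordinates and separate points -/
def HS : Prop := (∀ x : M, ∃ z : Fin n → M → ℂ, (∀ i, IsSec n 0 (z i)) ∧ jac z x ≠ 0) ∧
  ∀ x y : M, x ≠ y → ∃ a : M → ℂ, IsSec n 0 a ∧ a x ≠ a y

variable (n M) in
/-- **NEAR**: discs stay in a chart given by holomorphic functions -/
def NEAR : Prop := ∀ (z : Fin n → M → ℂ) (f : ℕ → ℂ → M) (l : Filter ℕ) (K : Set ℂ) (τ₀ : ℂ)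
  (x₀ : M) (F : ℂ → Cm n), l.NeBot → (∀ i, IsSec n 0 (z i)) → jac z x₀ ≠ 0 → Convex ℝ K → τ₀ ∈ K →
  (∀ᶠ k in l, ContinuousOn (f k) K) → ContinuousOn F K →
  TendstoUniformlyOn (fun k τ => mp z (f k τ)) F l K →
  (∀ ε > 0, ∃ τ ∈ K ∩ ball τ₀ ε, ∀ᶠ k in l, dist (f k τ) x₀ < ε) →
  ∃ (ε : ℝ) (e : Chart n M), 0 < ε ∧ Hc e ∧ (∀ y ∈ e.source, e y = mp z y ∧ jac z y ≠ 0) ∧
    MapsTo F (K ∩ ball τ₀ ε) e.target ∧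
    TendstoUniformlyOn f (fun τ => e.symm (F τ)) l (K ∩ ball τ₀ ε)

variable (n M) in
/-- **CIRC**: polynomial growth over the complement of a hypersurface -/
def CIRC : Prop := ∀ (z : Fin n → M → ℂ) (Q d : Pz n) (h : M → ℂ) (N : ℕ) (C : ℝ),
  (∀ i, IsSec n 0 (z i)) → (∀ x, pv z Q x ≠ 0 → jac z x ≠ 0) →
  (∀ K : Set (Cm n), IsCompact K → (∀ ζ ∈ K, MvPolynomial.eval ζ Q ≠ 0) → IsCompact (mp z ⁻¹' K)) →
  d ≠ 0 → IsSec n 0 h → (∀ x, ‖pv z d x‖ * ‖h x‖ ≤ C * (1 + ‖mp z x‖) ^ N) →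
  ∃ (k N' : ℕ) (C' : ℝ), ∀ x, ‖pv z Q x‖ ^ k * ‖h x‖ ≤ C' * (1 + ‖mp z x‖) ^ N'

variable [RiemannianBundle (fun x : M => TangentSpace 𝓘(ℝ, Cm n) x)]

variable (n) in
/-- `|da|²` -/
def gr (a : M → ℂ) (x : M) : ℝ := hq (hm (pc n x) (pc n x x)) (dx n a x)

variable (n) in
/-- `|f'(τ)|²`, the area density of a holomorphic disc -/
def dens (f : ℂ → M) (τ : ℂ) : ℝ :=
  chartMetric (pc n (f τ)) (pc n (f τ) (f τ))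
    (deriv (fun s => pc n (f τ) (f s)) τ) (deriv (fun s => pc n (f τ) (f s)) τ)

variable (n) in
/-- `log |Ω|²` -/
def lg (Ω : M → ℂ) (x : M) : ℝ := Real.log (nrm n 1 Ω x)

variable (n) in
/-- weights which make the canonical bundle almost flat -/
structure Alm (σ : ℕ → M → ℝ) (ε : ℕ → ℝ) : Prop where
  sm : ∀ ν, Sm n (σ ν)
  lo : ∀ ν, ∀ e : Chart n M, Hc e → ∀ z ∈ e.target, (ric e z + hs (σ ν) e z).PosSemidef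
  up : ∀ ν, ∀ e : Chart n M, Hc e → ∀ z ∈ e.target,
    ((ε ν : ℂ) • hm e z - (ric e z + hs (σ ν) e z)).PosSemidef
  eps : Tendsto ε atTop (𝓝 0)

/-! ### statements without the gauge -/

variable (n M) in
/-- **DJ**: differentials and Jacobians -/
structure DJ : Prop where
  sec : ∀ z : Fin n → M → ℂ, (∀ i, IsSec n 0 (z i)) → IsSec n 1 (jac z)
  co : ∀ z : Fin n → M → ℂ, (∀ i, IsSec n 0 (z i)) → ∀ e : Chart n M, Hc e → ∀ w ∈ e.target,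
    co 1 (jac z) e w = (Matrix.of fun i => dv (z i) e w).det
  fd : ∀ z : Fin n → M → ℂ, (∀ i, IsSec n 0 (z i)) → ∀ e : Chart n M, Hc e → ∀ w ∈ e.target,
    (jac z (e.symm w) ≠ 0 ↔ Function.Bijective (fderiv ℂ (fun y => mp z (e.symm y)) w))
  chart : ∀ z : Fin n → M → ℂ, (∀ i, IsSec n 0 (z i)) → ∀ x, jac z x ≠ 0 →
    ∃ e : Chart n M, Hc e ∧ x ∈ e.source ∧ ∀ y ∈ e.source, e y = mp z y ∧ jac z y ≠ 0
  /-- in a chart given by `z` -/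
  one : ∀ z : Fin n → M → ℂ, ∀ e : Chart n M, Hc e → (∀ y ∈ e.source, e y = mp z y) →
    ∀ w ∈ e.target, ∀ i, dv (z i) e w = Pi.single i 1
  gr : ∀ a : M → ℂ, IsSec n 0 a → ∀ e : Chart n M, Hc e → ∀ w ∈ e.target,
    gr n a (e.symm w) = hq (hm e w) (dv a e w)
  gr_nonneg : ∀ (a : M → ℂ) (x : M), 0 ≤ T.gr n a x
  had : ∀ (z : Fin n → M → ℂ) (x : M), nrm n 1 (jac z) x ≤ (∑ i, T.gr n (z i) x) ^ n

variable (n M) in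
/-- **GB**: the gradient bound and the plurisubharmonic functions made of gradients -/
structure GB : Prop where
  le : ∃ C : ℝ, 0 < C ∧ ∀ (a : M → ℂ) (x : M) (B : ℝ), IsSec n 0 a →
    (∀ y ∈ ball x 1, ‖a y‖ ≤ B) → gr n a x ≤ C * B ^ 2
  sm : ∀ a : M → ℂ, IsSec n 0 a → Sm n (gr n a)
  psh : ∀ (L : ℕ) (a : Fin L → M → ℂ) (δ : ℝ), (∀ i, IsSec n 0 (a i)) → 0 < δ →
    SPsh n fun x => Real.log (δ + ∑ i, gr n (a i) x)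

variable (n M) in
/-- **LSP**: smooth plurisubharmonic functions made of sections of `K^k` and weights -/
structure LSP : Prop where
  cont : ∀ u : M → ℝ, SPsh n u → ContPsh (Cm n) u
  sm : ∀ (k : ℤ) (s : M → ℂ), IsSec n k s → Sm n (nrm n k s)
  log : ∀ (k : ℤ) (s : M → ℂ) (ψ : M → ℝ) (δ : ℝ), IsSec n k s → Sm n ψ → 0 < δ →
    (∀ e : Chart n M, Hc e → ∀ z ∈ e.target, ((k : ℂ) • ric e z + hs ψ e z).PosSemidef) →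
    SPsh n fun x => Real.log (δ + nrm n k s x * Real.exp (ψ x))
  mul : ∀ (k : ℤ) (s : M → ℂ) (ψ : M → ℝ), IsSec n k s → Sm n ψ →
    (∀ e : Chart n M, Hc e → ∀ z ∈ e.target, ((k : ℂ) • ric e z + hs ψ e z).PosSemidef) →
    SPsh n fun x => nrm n k s x * Real.exp (ψ x)
  log0 : ∀ (b : M → ℂ) (δ : ℝ), IsSec n 0 b → 0 < δ → SPsh n fun x => Real.log (δ + ‖b x‖ ^ 2)
  log1 : ∀ (η : M → ℂ) (δ : ℝ), IsSec n 1 η → 0 < δ → SPsh n fun x => Real.log (δ + nrm n 1 η x)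
  triv : ∀ Ω : M → ℂ, IsSec n 1 Ω → (∀ x, Ω x ≠ 0) → SPsh n (lg n Ω) ∧
    ∀ e : Chart n M, Hc e → ∀ z ∈ e.target, hs (lg n Ω) e z = ric e z
  sum : ∀ (L : ℕ) (a : Fin L → M → ℂ), (∀ i, IsSec n 0 (a i)) →
    SPsh n fun x => Real.log (1 + ∑ i, ‖a i x‖ ^ 2)
  strict : ∀ z : Fin n → M → ℂ, (∀ i, IsSec n 0 (z i)) → ∀ e : Chart n M, Hc e → ∀ w ∈ e.target,
    jac z (e.symm w) ≠ 0 → (hs (fun x => Real.log (1 + ∑ i, ‖z i x‖ ^ 2)) e w).PosDef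
  lin : ∀ (u v : M → ℝ) (p q r : ℝ), Sm n u → Sm n v → Sm n (fun x => p * u x + q * v x + r) ∧
    ∀ e : Chart n M, Hc e → ∀ z ∈ e.target, hs (fun x => p * u x + q * v x + r) e z =
      (p : ℂ) • hs u e z + (q : ℂ) • hs v e z
  ricb : ∀ K : Set M, IsCompact K → ∃ N : ℝ, 0 ≤ N ∧ ∀ e : Chart n M, Hc e → ∀ z ∈ e.target,
    e.symm z ∈ K → ((N : ℂ) • hm e z - ric e z).PosSemidef

variable (n M) in
/-- **DSC**: holomorphic discs -/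
structure DSC : Prop where
  hol : ∀ (a : M → ℂ) (f : ℂ → M) (U : Set ℂ), IsSec n 0 a → HolOn n f U →
    DifferentiableOn ℂ (fun τ => a (f τ)) U
  symm : ∀ (e : Chart n M) (F : ℂ → Cm n) (U : Set ℂ), Hc e → DifferentiableOn ℂ F U →
    MapsTo F U e.target → HolOn n (fun τ => e.symm (F τ)) U
  chart : ∀ (f : ℂ → M) (τ : ℂ), MDifferentiableAt 𝓘(ℂ, ℂ) 𝓘(ℂ, Cm n) f τ → ∀ e : Chart n M,
    Hc e → f τ ∈ e.source → DifferentiableAt ℂ (fun s => e (f s)) τ ∧ dens n f τ =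
      chartMetric e (e (f τ)) (deriv (fun s => e (f s)) τ) (deriv (fun s => e (f s)) τ)
  nonneg : ∀ (f : ℂ → M) (τ : ℂ), 0 ≤ dens n f τ
  cont : ∀ (f : ℂ → M) (U : Set ℂ), IsOpen U → HolOn n f U → ContinuousOn (dens n f) U
  len : ∀ (f : ℂ → M) (U : Set ℂ) (a b : ℂ), IsOpen U → HolOn n f U → segment ℝ a b ⊆ U →
    dist (f a) (f b) ≤ ∫ t in (0 : ℝ)..1, √(dens n f (a + t * (b - a))) * ‖b - a‖
  lim : ∀ (f : ℕ → ℂ → M) (g : ℂ → M) (l : Filter ℕ) (U : Set ℂ), l.NeBot → IsOpen U →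
    (∀ᶠ k in l, HolOn n (f k) U) → TendstoLocallyUniformlyOn f g l U →
    HolOn n g U ∧ ∀ τ ∈ U, Tendsto (fun k => dens n (f k) τ) l (𝓝 (dens n g τ))
  seq : ∀ (f : ℕ → ℂ → M) (g : ℂ → M) (l : Filter ℕ) (U : Set ℂ) (P : ℕ → Prop), l.NeBot →
    l ≤ atTop → IsOpen U → (∀ᶠ k in l, P k) → TendstoLocallyUniformlyOn f g l U →
    ∃ s : ℕ → ℕ, StrictMono s ∧ (∀ k, P (s k)) ∧
      TendstoLocallyUniformlyOn (fun k => f (s k)) g atTop U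

variable (n M) in
/-- **DSP**: plurisubharmonic functions and Jacobians along discs -/
structure DSP : Prop where
  sub : ∀ (u : M → ℝ) (f : ℂ → M) (U : Set ℂ), SPsh n u → IsOpen U → HolOn n f U → ∀ τ ∈ U,
    ContDiffAt ℝ 2 (fun s => u (f s)) τ ∧ 0 ≤ ddb (fun s => u (f s)) τ
  max : ∀ (u : M → ℝ) (f : ℂ → M) (c : ℂ) (ρ B : ℝ), ContPsh (Cm n) u → 0 < ρ →
    ContinuousOn f (closedBall c ρ) → HolOn n f (ball c ρ) → (∀ τ ∈ sphere c ρ, u (f τ) ≤ B) →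
    ∀ τ ∈ closedBall c ρ, u (f τ) ≤ B
  fp : ∃ C : ℝ, 0 < C ∧ ∀ (z : Fin n → M → ℂ) (f : ℂ → M) (τ : ℂ), (∀ i, IsSec n 0 (z i)) →
    MDifferentiableAt 𝓘(ℂ, ℂ) 𝓘(ℂ, Cm n) f τ → dens n f τ * nrm n 1 (jac z) (f τ) ≤
      C * ‖deriv (fun s => mp z (f s)) τ‖ ^ 2 * (1 + ∑ i, gr n (z i) (f τ)) ^ n

variable (n M) in
/-- **SOP**: punctured discs of finite area -/
def SOP : Prop := ∀ (z : Fin n → M → ℂ) (g : ℂ → M) (F : ℂ → Cm n) (c : ℂ) (ρ B : ℝ), 0 < ρ →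
  (∀ i, IsSec n 0 (z i)) → HolOn n g (ball c ρ \ {c}) → DifferentiableOn ℂ F (ball c ρ) →
  (∀ τ ∈ ball c ρ \ {c}, mp z (g τ) = F τ ∧ jac z (g τ) ≠ 0 ∧ ∀ i, gr n (z i) (g τ) ≤ B) →
  ∫⁻ τ in ball c ρ \ {c}, ENNReal.ofReal (dens n g τ) < ⊤ → ∃ x, MapClusterPt x (𝓝[≠] c) g

variable (n M) in
/-- **KPC**: discs on which `z` and `|dz|` are bounded converge off a discrete set -/
def KPC : Prop := ∀ (z : Fin n → M → ℂ) (f : ℕ → ℂ → M) (U : Ultrafilter ℕ) (c : ℂ) (ρ B : ℝ)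
  (τ₀ : ℂ) (x : M), (U : Filter ℕ) ≤ atTop → (∀ i, IsSec n 0 (z i)) →
  (∀ᶠ k in U, HolOn n (f k) (ball c ρ) ∧
    ∀ i, ∀ τ ∈ ball c ρ, ‖z i (f k τ)‖ ≤ B ∧ gr n (z i) (f k τ) ≤ B) → τ₀ ∈ ball c ρ →
  Tendsto (fun k => f k τ₀) U (𝓝 x) → jac z x ≠ 0 →
  ∃ (S : Set ℂ) (g : ℂ → M), (∀ r < ρ, (S ∩ closedBall c r).Finite) ∧ HolOn n g (ball c ρ \ S) ∧
    (∀ τ ∈ ball c ρ \ S, jac z (g τ) ≠ 0) ∧ TendstoLocallyUniformlyOn f g U (ball c ρ \ S)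

variable (n M) in
/-- **KPP**: discs of bounded area which converge on the circle converge -/
def KPP : Prop := ∀ (f : ℕ → ℂ → M) (l : Filter ℕ) (c : ℂ) (ρ : ℝ) (g₀ : ℂ → M), l ≤ atTop →
  0 < ρ → (∀ᶠ k in l, ContinuousOn (f k) (closedBall c ρ) ∧ HolOn n (f k) (ball c ρ)) →
  TendstoUniformlyOn f g₀ l (sphere c ρ) → (∀ r < ρ, ∃ C : ℝ, ∀ᶠ k in l,
    ∫⁻ τ in ball c r, ENNReal.ofReal (dens n (f k) τ) ≤ ENNReal.ofReal C) →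
  ∃ g : ℂ → M, TendstoUniformlyOn f g l (closedBall c ρ) ∧
    (l.NeBot → ContinuousOn g (closedBall c ρ) ∧ HolOn n g (ball c ρ))

variable (n) in
/-- **FLAT**: the flat limit of almost flat weights -/
def FLAT (o : M) : Prop := ∀ (τ : ℕ → M → ℝ) (ε : ℕ → ℝ) (U : Ultrafilter ℕ), Alm n τ ε →
  (∀ ρ : ℝ, ∃ B : ℝ, ∀ ν, ∀ x ∈ closedBall o ρ, |τ ν x| ≤ B) → (U : Filter ℕ) ≤ atTop →
  ∃ Ω : M → ℂ, IsSec n 1 Ω ∧ (∀ x, Ω x ≠ 0) ∧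
    ∀ ρ : ℝ, TendstoUniformlyOn τ (fun x => -lg n Ω x) U (closedBall o ρ)

variable (n M) in
/-- **FLW**: the flow -/
def FLW : Prop := ∀ (q : M) (φ : ℝ → M → ℝ) (Ω : M → ℂ), KRF n q φ → IsSec n 1 Ω →
  (∀ x, Ω x ≠ 0) → (∃ C : ℝ, ∀ x, lg n Ω x ≤ C * (1 + dist x q)) →
  (⟨q, Ω, fun t x => t * lg n Ω x - φ t x⟩ : Flow n M).Is

section meas

variable [MeasurableSpace M] (μ : Measure M)

variable (n) in
/-- **QL0**: the weak Harnack inequality and the mean value inequality together -/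
def QL0 (o : M) : Prop := ∃ C : ℝ, 1 ≤ C ∧ ∀ (u v G : M → ℝ) (R a N : ℝ) (y : M), Sm n u →
  SPsh n v → Continuous G → (∀ x, 0 ≤ G x) → 2 ≤ R → 0 ≤ a → 0 ≤ N → y ∈ closedBall o 2 →
  (∀ x ∈ closedBall o (2 * R), HK.Lo n u N x) → (∀ x, v x ≤ a * tw o R x) → -a ≤ v y →
  ∫⁻ x, ENNReal.ofReal (G x) ∂μ ≤ ENNReal.ofReal a →
  (∀ x ∈ ball o (2 * R), u x ≤ a + max (-v x) 0 + G x) → ∀ x ∈ ball o R, u x ≤ C * (a + N * R ^ 2)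

variable (n) in
/-- **MVU**: the mean value inequality on unit balls -/
def MVU (o : M) : Prop := ∃ C : ℝ, 1 ≤ C ∧ ∀ (u : M → ℝ) (x : M) (a : ℝ), SPsh n u → 0 ≤ a →
  ∫⁻ y in ball x 1, ENNReal.ofReal (u y) ∂μ ≤ ENNReal.ofReal a →
  u x ≤ C * a * (1 + dist x o) ^ (2 * n)

variable (n) in
/-- **FRG**: holomorphic `n`-forms with `L²` bounds -/
def FRG : Prop := ∀ (p : M) (ρ κ B : ℝ), 0 < ρ → 0 < κ → ∃ (e : Chart n M) (δ q C : ℝ), Hc e ∧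
  p ∈ e.source ∧ e p = 0 ∧ 0 < δ ∧ 0 < q ∧ closedBall 0 δ ⊆ e.target ∧
  (∀ z ∈ closedBall (0 : Cm n) δ, dist (e.symm z) p < ρ) ∧ ∀ W c : M → ℝ, Continuous c →
  (∀ x, 0 < c x) → WeakLevi (Cm n) W c univ → (∀ x ∈ closedBall p ρ, κ ≤ c x ∧ |W x| ≤ B) →
  ∃ (Ω : M → ℂ) (ψ : M → ℝ), IsSec n 1 Ω ∧ Sm n ψ ∧ (∀ x, |ψ x - q * W x| ≤ q) ∧
    L2 n μ 1 ψ Ω ≤ ENNReal.ofReal C ∧ ∀ z ∈ closedBall (0 : Cm n) δ, 1 / 2 ≤ ‖co 1 Ω e z‖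

variable (n) in
/-- **PRO**: ratios of square integrable sections are proper over the complement of a
hypersurface -/
def PRO : Prop := ∃ (m : ℕ) (s₀ : M → ℂ) (s : Fin n → M → ℂ) (Q : Pz n), 1 ≤ m ∧ InH n μ m s₀ ∧
  (∀ i, InH n μ m (s i)) ∧ (∃ x, s₀ x ≠ 0 ∧ MvPolynomial.eval (Phi s₀ s x) Q ≠ 0) ∧
  ∀ K : Set (Cm n), IsCompact K → (∀ ζ ∈ K, MvPolynomial.eval ζ Q ≠ 0) →
    IsCompact {x | s₀ x ≠ 0 ∧ Phi s₀ s x ∈ K}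

end meas

/-! ### the gauge -/

variable (n) in
/-- the gauge -/
structure Gauge (o : M) where
  A : ℝ → ℝ
  one_le : ∀ R, 1 ≤ A R
  mono : Monotone A
  flat : ∀ R, R ≤ 2 → A R = A 2
  le : ∀ R, A R ≤ max R 2
  ratio : ∀ R R', 0 < R → R ≤ R' → A R' ≤ A R * (R' / R)
  log_le : ∃ C : ℝ, 1 ≤ C ∧ ∀ R, 0 ≤ R → Real.log (1 + R) ≤ C * A R
  dom : ∃ C : ℝ, 0 < C ∧ ∀ (R : ℝ) (w : M → ℝ) (l : ℝ), 2 ≤ R → ContPsh (Cm n) w →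
    (∀ x, 0 ≤ w x) → (∀ x ∈ closedBall o (3 / 2), w x = 0) → 0 < l →
    (∀ x, w x ≤ l * (A R * tw o R x)) → ∀ x, w x ≤ C * l * (1 + dist x o)
  wt : ∃ κ : ℝ, 0 < κ ∧ ∀ R : ℝ, 2 ≤ R → ∃ W c : M → ℝ, Continuous c ∧ (∀ x, 0 < c x) ∧
    (∀ x ∈ closedBall o (1 / 8), κ ≤ c x) ∧ WeakLevi (Cm n) W c univ ∧
    (∀ x, |W x| ≤ 2 * dist x o) ∧ ∀ x, W x ≤ 3 * (A R * tw o R x)

namespace Gauge

variable {o : M} (G : Gauge n o)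

/-- the gauge as a function on `M` -/
def a (x : M) : ℝ := G.A (dist x o)

/-- the gauge at the scale `R` -/
def sc (R : ℝ) (x : M) : ℝ := G.A R * tw o R x

/-- `u ≤ k A(r) + C` -/
def Le (k : ℝ) (u : M → ℝ) : Prop := ∃ C : ℝ, ∀ x, u x ≤ k * G.a x + C

/-- `u ≤ C A(r)` -/
def Tame (u : M → ℝ) : Prop := ∃ k : ℝ, G.Le k u

/-- tame holomorphic functions of degree at most `k` -/
def Deg (k : ℝ) (g : M → ℂ) : Prop :=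
  IsSec n 0 g ∧ ∃ C : ℝ, ∀ x, ‖g x‖ ≤ Real.exp (k * G.a x + C)

/-- the algebra `A` of tame holomorphic functions -/
def Mem (g : M → ℂ) : Prop := ∃ k : ℝ, G.Deg k g

/-- tame coordinates -/
def Co (z : Fin n → M → ℂ) : Prop := (∀ i, G.Mem (z i)) ∧ jac z ≠ 0

/-- limits of functions which are tame at the scales `ν + 2` -/
def Lt (U : Filter ℕ) (k : ℕ) (g : M → ℂ) : Prop :=
  IsSec n 0 g ∧ ∃ (t : ℕ → M → ℂ) (C : ℝ), (∀ᶠ ν in U, IsSec n 0 (t ν) ∧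
    ∀ x, ‖t ν x‖ ≤ Real.exp (C + k * G.sc (ν + 2) x)) ∧ TendstoUniformlyOn t g U (closedBall o 2)

/-- limits of any degree -/
def Lim (U : Filter ℕ) (g : M → ℂ) : Prop := ∃ k : ℕ, G.Lt U k g

/-- a trivialisation of `K` with tame norm -/
structure Triv (Ω : M → ℂ) : Prop where
  sec : IsSec n 1 Ω
  ne : ∀ x, Ω x ≠ 0
  tame : G.Tame (lg n Ω)

/-- **DIM**: the dimension of the spaces of limits -/
def DIM : Prop := ∃ C : ℝ, ∀ U : Ultrafilter ℕ, (U : Filter ℕ) ≤ atTop → ∀ k : ℕ, 1 ≤ k →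
  ∀ V : Submodule ℂ (M → ℂ), (∀ g ∈ V, G.Lt U k g) →
  Module.Finite ℂ V ∧ (Module.finrank ℂ V : ℝ) ≤ C * k ^ n

/-- **FIN**: the functions of degree at most `k` form a space of finite dimension -/
def FIN : Prop := ∀ k : ℝ, ∃ (L : ℕ) (g : Fin L → M → ℂ), (∀ i, G.Mem (g i)) ∧
  ∀ f, G.Deg k f → f ∈ Submodule.span ℂ (range g)

/-- **RELL**: algebraic relations between limits -/
def RELL : Prop := ∀ U : Ultrafilter ℕ, (U : Filter ℕ) ≤ atTop →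
  ∀ (g₀ a b : M → ℂ) (g : Fin n → M → ℂ), G.Lim U g₀ → (∀ i, G.Lim U (g i)) → G.Lim U a →
  G.Lim U b → ∃ R : Polynomial (Pz n), R ≠ 0 ∧
    ∀ x, g₀ x ≠ 0 → b x ≠ 0 → ev R (Phi g₀ g x) (a x / b x) = 0

/-- **REL**: every ratio of elements of `A` is algebraic over `n` ratios of elements of `A` -/
def REL : Prop := ∀ (g₀ a b : M → ℂ) (g : Fin n → M → ℂ), G.Mem g₀ → (∀ i, G.Mem (g i)) →
  G.Mem a → G.Mem b → ∃ R : Polynomial (Pz n), R ≠ 0 ∧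
    ∀ x, g₀ x ≠ 0 → b x ≠ 0 → ev R (Phi g₀ g x) (a x / b x) = 0

/-- **TRD** -/
def TRD : Prop := ∀ a : Fin (n + 1) → M → ℂ, (∀ i, G.Mem (a i)) →
  ∃ P : MvPolynomial (Fin (n + 1)) ℂ, P ≠ 0 ∧ ∀ x, MvPolynomial.eval (mp a x) P = 0

/-- **RBD**: bounds by polynomials in `z` -/
def RBD : Prop := ∀ (z : Fin n → M → ℂ) (a : M → ℂ), (∀ i, G.Mem (z i)) → G.Mem a →
  (∃ (d : Pz n) (N : ℕ) (C : ℝ), d ≠ 0 ∧ ∀ x, ‖pv z d x‖ * ‖a x‖ ≤ C * (1 + ‖mp z x‖) ^ N) ∧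
  (a ≠ 0 → ∃ (d : Pz n) (N : ℕ) (C : ℝ), d ≠ 0 ∧
    ∀ x, ‖pv z d x‖ ≤ C * (1 + ‖mp z x‖) ^ N * ‖a x‖)

/-- **QUOT**: quotients -/
def QUOT : Prop := ∀ (u : M → ℝ) (k : ℝ), SPsh n u → (∀ R, 2 ≤ R → ∃ (v : M → ℝ) (y : M),
  SPsh n v ∧ y ∈ closedBall o 2 ∧ (∀ x, v x ≤ k * G.sc R x) ∧ -(k * G.A R) ≤ v y ∧
    ∀ x ∈ ball o (2 * R), u x ≤ k * G.A R + max (-v x) 0) → G.Tame u

/-- **QUOB**: quotients by holomorphic functions -/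
def QUOB : Prop := ∀ (u : M → ℝ) (k : ℝ), SPsh n u → (∀ R, 2 ≤ R → ∃ (b : M → ℂ) (y : M),
  IsSec n 0 b ∧ y ∈ closedBall o 2 ∧ (∀ x, ‖b x‖ ≤ Real.exp (k * G.sc R x)) ∧
    Real.exp (-(k * G.A R)) ≤ ‖b y‖ ∧
    ∀ x ∈ ball o (2 * R), Real.exp (u x) * ‖b x‖ ^ 2 ≤ Real.exp (k * G.A R)) → G.Tame u

/-- **ALGR**: roots of equations whose coefficients depend on the scale -/
def ALGR : Prop := ∀ (f : M → ℂ) (D : ℕ) (k : ℝ), IsSec n 0 f → (∀ R, 2 ≤ R →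
  ∃ (b : ℕ → M → ℂ) (y : M), IsSec n 0 (b D) ∧ y ∈ closedBall o 2 ∧
    (∀ j ≤ D, ∀ x, ‖b j x‖ ≤ Real.exp (k * G.sc R x)) ∧ Real.exp (-(k * G.A R)) ≤ ‖b D y‖ ∧
    ∀ x, ∑ j ∈ Finset.range (D + 1), b j x * f x ^ j = 0) → G.Mem f

/-- **ALGT**: a holomorphic function that is algebraic over `A` is in `A` -/
def ALGT : Prop := ∀ (f : M → ℂ) (D : ℕ) (b : ℕ → M → ℂ), IsSec n 0 f → (∀ j ≤ D, G.Mem (b j)) →
  b D ≠ 0 → (∀ x, ∑ j ∈ Finset.range (D + 1), b j x * f x ^ j = 0) → G.Mem f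

/-- **LTA**: limits are tame -/
def LTA : Prop := ∀ U : Ultrafilter ℕ, (U : Filter ℕ) ≤ atTop → ∀ g, G.Lim U g → G.Mem g

/-- **GRT**: derivatives of tame functions are tame -/
def GRT : Prop := (∀ a, G.Mem a → G.Tame fun x => Real.log (1 + gr n a x)) ∧
  ∀ z : Fin n → M → ℂ, (∀ i, G.Mem (z i)) → G.Tame fun x => Real.log (1 + nrm n 1 (jac z) x)

/-- **APX**: the weights given by the flow -/
def APX : Prop := ∀ (φ : ℝ → M → ℝ) (η : M → ℂ), KRF n o φ → IsSec n 1 η →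
  (G.Tame fun x => Real.log (1 + nrm n 1 η x)) → ∃ (σ : ℕ → M → ℝ) (ε : ℕ → ℝ) (k : ℝ),
    Alm n σ ε ∧ (∀ ν x, 0 ≤ σ ν x) ∧
    ∀ ν x, nrm n 1 η x * Real.exp (σ ν x) ≤ Real.exp (k * G.sc (ν + 2) x)

/-- **NRM**: normalisation of the weights -/
def NRM : Prop := ∀ (η : M → ℂ) (σ : ℕ → M → ℝ) (ε : ℕ → ℝ) (k : ℝ), IsSec n 1 η → η ≠ 0 →
  Alm n σ ε → (∀ ν x, 0 ≤ σ ν x) →
  (∀ ν x, nrm n 1 η x * Real.exp (σ ν x) ≤ Real.exp (k * G.sc (ν + 2) x)) →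
  ∃ (τ : ℕ → M → ℝ) (k' : ℝ), Alm n τ ε ∧
    (∀ ν x, nrm n 1 η x * Real.exp (τ ν x) ≤ Real.exp (k' * G.sc (ν + 2) x)) ∧
    ∀ ρ : ℝ, ∃ B : ℝ, ∀ ν, ∀ x ∈ closedBall o ρ, |τ ν x| ≤ B

/-- **KH**: a tame multiple of `dz / Ω` -/
def KH : Prop := ∀ (z : Fin n → M → ℂ) (τ : ℕ → M → ℝ) (ε : ℕ → ℝ) (k : ℝ) (U : Ultrafilter ℕ)
  (Ω : M → ℂ), G.Co z → Alm n τ ε →
  (∀ ν x, nrm n 1 (jac z) x * Real.exp (τ ν x) ≤ Real.exp (k * G.sc (ν + 2) x)) →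
  (U : Filter ℕ) ≤ atTop → IsSec n 1 Ω → (∀ x, Ω x ≠ 0) →
  (∀ ρ : ℝ, TendstoUniformlyOn τ (fun x => -lg n Ω x) U (closedBall o ρ)) →
  ∃ h, G.Mem h ∧ h ≠ 0 ∧ G.Lim U fun x => h x * (jac z x / Ω x)

/-- **K6** -/
def K6 : Prop := ∀ (z : Fin n → M → ℂ) (Ω h : M → ℂ), G.Co z → IsSec n 1 Ω → (∀ x, Ω x ≠ 0) →
  G.Mem h → h ≠ 0 → (G.Mem fun x => h x * (jac z x / Ω x)) → G.Triv Ω

/-- **JETS**: `A` gives coordinates at every point and separates points -/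
def JETS : Prop := (∀ x, ∃ z : Fin n → M → ℂ, (∀ i, G.Mem (z i)) ∧ jac z x ≠ 0) ∧
  ∀ x y, x ≠ y → ∃ a, G.Mem a ∧ a x ≠ a y

/-- **EMB**: finitely many elements of `A` embed a neighbourhood of a compact set -/
def EMB : Prop := ∀ K : Set M, IsCompact K → ∃ (L : ℕ) (a : Fin L → M → ℂ) (U : Set M),
  (∀ i, G.Mem (a i)) ∧ IsOpen U ∧ K ⊆ U ∧ InjOn (mp a) U ∧
    ∀ x ∈ U, ∃ σ : Fin n → Fin L, jac (fun i => a (σ i)) x ≠ 0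

/-- **JAC**: Jacobians with respect to `Ω` are in `A` -/
def JAC (Ω : M → ℂ) : Prop :=
  ∀ z : Fin n → M → ℂ, (∀ i, G.Mem (z i)) → G.Mem fun x => jac z x / Ω x

/-- **SMO**: smoothing -/
def SMO : Prop := ∀ k : ℝ, ∃ k' : ℝ, ∀ φ : M → ℝ, ContPsh (Cm n) φ → G.Le k φ →
  ∃ φ' : M → ℝ, SPsh n φ' ∧ G.Le k' φ' ∧ ∀ x, φ x ≤ φ' x

/-- **LOGA**: tame plurisubharmonic functions are bounded by elements of `A`, uniformly in the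
degree -/
def LOGA (Ω : M → ℂ) : Prop := ∀ z : Fin n → M → ℂ, (∀ i, G.Mem (z i)) → ∀ k : ℝ,
  ∃ (L N : ℕ) (g : Fin L → M → ℂ), (∀ i, G.Mem (g i)) ∧ ∀ φ : M → ℝ, SPsh n φ → G.Le k φ →
    ∃ C : ℝ, ∀ x, Real.exp (φ x) * ‖jac z x / Ω x‖ ^ 2 ≤
      C * (1 + ‖mp z x‖) ^ N * ∑ i, ‖g i x‖ ^ 2

/-- `z` is etale and proper over the complement of the zeros of `Q`, and the elements of `A` have
polynomial growth -/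
structure Aff (Ω : M → ℂ) (z : Fin n → M → ℂ) (Q : Pz n) : Prop where
  ne : ∃ x, pv z Q x ≠ 0
  et : ∀ x, pv z Q x ≠ 0 → jac z x ≠ 0
  low : ∃ (N : ℕ) (C : ℝ), ∀ x, ‖pv z Q x‖ ≤ C * (1 + ‖mp z x‖) ^ N * ‖jac z x / Ω x‖
  onto : ∀ ζ, MvPolynomial.eval ζ Q ≠ 0 → ∃ x, mp z x = ζ
  proper : ∀ K : Set (Cm n), IsCompact K → (∀ ζ ∈ K, MvPolynomial.eval ζ Q ≠ 0) →
    IsCompact (mp z ⁻¹' K)
  bd : ∀ a, G.Mem a → ∃ (k N : ℕ) (C : ℝ), ∀ x,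
    ‖pv z Q x‖ ^ k * ‖a x‖ ≤ C * (1 + ‖mp z x‖) ^ N

/-- **AFFZ** -/
def AFFZ (Ω : M → ℂ) : Prop := ∀ z : Fin n → M → ℂ, G.Co z → ∃ Q, G.Aff Ω z Q

/-- **LOG**: tame plurisubharmonic functions have logarithmic growth, uniformly in the degree -/
def LOG (Ω : M → ℂ) : Prop := ∀ (z : Fin n → M → ℂ) (Q : Pz n), (∀ i, G.Mem (z i)) →
  G.Aff Ω z Q → ∀ k₀ : ℝ, ∃ k N : ℕ, ∀ φ : M → ℝ, ContPsh (Cm n) φ → G.Le k₀ φ →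
    ∃ C : ℝ, ∀ x, Real.exp (φ x) * ‖pv z Q x‖ ^ k ≤ C * (1 + ‖mp z x‖) ^ N

variable [MeasurableSpace M] (μ : Measure M)

/-- **FRN**: frames at all scales -/
def FRN : Prop := ∃ (e : Chart n M) (δ : ℝ) (Ω : ℝ → M → ℂ), Hc e ∧ o ∈ e.source ∧ e o = 0 ∧
  0 < δ ∧ closedBall 0 δ ⊆ e.target ∧ (∀ z ∈ closedBall (0 : Cm n) δ, dist (e.symm z) o ≤ 1) ∧
  (∀ R, 2 ≤ R → IsSec n 1 (Ω R) ∧ ∀ z ∈ closedBall (0 : Cm n) δ, 1 / 2 ≤ ‖co 1 (Ω R) e z‖) ∧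
  ∀ m : ℕ, 1 ≤ m → ∀ s, InH n μ m s → ∃ k : ℝ, ∀ R, 2 ≤ R → ∀ x,
    ‖s x * Ω R x ^ m‖ ≤ Real.exp (k * G.sc R x)

/-- **BRG**: from integral bounds to pointwise bounds at one scale -/
def BRG : Prop := ∀ k : ℝ, 0 ≤ k → ∃ k' : ℝ, ∀ C₁ : ℝ, ∃ C : ℝ, ∀ (R : ℝ) (g : M → ℂ)
  (v ψ : M → ℝ) (y : M), 2 ≤ R → IsSec n 0 g → SPsh n v → Continuous ψ → y ∈ closedBall o 2 →
  (∀ x, v x ≤ k * G.sc R x ∧ ψ x ≤ k * G.sc R x) → -(k * G.A R) ≤ v y →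
  ∫⁻ x, ENNReal.ofReal (‖g x‖ ^ 2 * Real.exp (v x - ψ x)) ∂μ ≤ ENNReal.ofReal C₁ →
  ∀ x, ‖g x‖ ≤ Real.exp (C + k' * G.sc R x)

/-- **BERG**: weighted Bergman spaces consist of tame functions of bounded degree -/
def BERG : Prop := ∀ v : M → ℝ, SPsh n v → G.Tame v → ∀ k : ℝ, ∃ k' : ℝ,
  ∀ (g : M → ℂ) (ψ : M → ℝ), IsSec n 0 g → Continuous ψ → G.Le k ψ →
  ∫⁻ x, ENNReal.ofReal (‖g x‖ ^ 2 * Real.exp (v x - ψ x)) ∂μ < ⊤ → G.Deg k' g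

/-- **INH**: square integrable sections are tame -/
def INH (Ω : M → ℂ) : Prop := ∀ (m : ℕ) (s : M → ℂ), InH n μ m s →
  (G.Mem fun x => s x * Ω x ^ m) ∧
    ∀ x, ‖s x * Ω x ^ m‖ ^ 2 * Real.exp (-(m * lg n Ω x)) = nrm n (-m) s x

/-- **L2R**: `A` is algebraic over ratios of square integrable functions -/
def L2R (Ω : M → ℂ) : Prop := ∃ (m : ℕ) (g₀ : M → ℂ) (g : Fin n → M → ℂ), 1 ≤ m ∧ G.Mem g₀ ∧
  g₀ ≠ 0 ∧ (∀ i, G.Mem (g i)) ∧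
  ∫⁻ x, ENNReal.ofReal (‖g₀ x‖ ^ 2 * Real.exp (-(m * lg n Ω x))) ∂μ < ⊤ ∧
  (∀ i, ∫⁻ x, ENNReal.ofReal (‖g i x‖ ^ 2 * Real.exp (-(m * lg n Ω x))) ∂μ < ⊤) ∧
  ∀ a, G.Mem a → ∃ R : Polynomial (Pz n), R ≠ 0 ∧
    (∃ x, g₀ x ≠ 0 ∧ MvPolynomial.eval (Phi g₀ g x) R.leadingCoeff ≠ 0) ∧
    ∀ x, g₀ x ≠ 0 → ev R (Phi g₀ g x) (a x) = 0

/-- **UNIA**: tame global coordinates are ratios of tame sections -/
def UNIA : Prop :=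
  ∀ Φ : M ≃ₘ^1⟮𝓘(ℂ, Cm n), 𝓘(ℂ, Cm n)⟯ Cm n, (∀ i, G.Mem fun x => Φ x i) → P253Y.H2.UNI n μ

end Gauge

end Vale.Agent.P253W.T
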