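import Vale.Agent.P253W.T.Basic
import Vale.Agent.P253Z.Main

/-!
# P253W, block T, row DIM: the dimension count
-/

open scoped Manifold ContDiff Bundle ENNReal Topology ComplexConjugate ComplexOrder
open Bundle IsManifold MeasureTheory Set Metric Filter Vale.Agent.P253.Mfd Vale.Agent.P253Z
open Vale.Agent.P272.K (Cm dz dzb cHess jacM Chart)
open Vale.Agent.P253.R2.H618 (gb gb_mono)
open Vale.Agent.P253Z.OrdA

set_option linter.unusedSectionVars false

noncomputable section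

namespace Vale.Agent.P253W.T

variable {n : ℕ} {M : Type} [MetricSpace M] [ChartedSpace (Cm n) M]
  [IsManifold 𝓘(ℂ, Cm n) 1 M] [IsManifold 𝓘(ℝ, Cm n) ∞ M]
  [RiemannianBundle (fun x : M => TangentSpace 𝓘(ℝ, Cm n) x)]
  [IsContMDiffRiemannianBundle 𝓘(ℝ, Cm n) ∞ (Cm n) (fun x : M => TangentSpace 𝓘(ℝ, Cm n) x)]
  [IsRiemannianManifold 𝓘(ℝ, Cm n) M] [CompleteSpace M] [ConnectedSpace M] [NoncompactSpace M]
  [MeasurableSpace M] [BorelSpace M] {μ : Measure M} {o : M}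

namespace Dim

theorem scale (a : B1a n M) {u : M → ℂ} {c : ℝ} (hu : IsSec n 0 u) (h0 : 0 < c) :
    ∃ g : M → ℂ, IsSec n 0 g ∧ (∀ x, g x = ((c⁻¹ : ℝ) : ℂ) * u x) ∧ ∀ x, ‖g x‖ = ‖u x‖ / c :=
  ⟨_, a.sec_mul 0 0 _ _ (sec_const ((c⁻¹ : ℝ) : ℂ)) hu, fun _ => rfl, fun x => by
    rw [Pi.mul_apply, norm_mul, Complex.norm_real, Real.norm_of_nonneg (inv_pos.2 h0).le,
      div_eq_inv_mul]⟩

/-- doubling for limits -/
theorem dbl (a : B1a n M) (G : Gauge n o) : ∃ D : ℝ, 0 < D ∧ ∀ U : Ultrafilter ℕ,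
    (U : Filter ℕ) ≤ atTop → ∀ m : ℕ, 1 ≤ m → ∀ f, G.Lt U m f → ∀ S : ℝ, 0 < S →
    (∀ x ∈ closedBall o (3 / 2), ‖f x‖ ≤ S) →
    ∀ x, dist x o ≤ 2 → ‖f x‖ / S ≤ Real.exp (D * m) := by
  obtain ⟨D, hD, hdom⟩ := G.dom
  refine ⟨6 * D + 2, by positivity, fun U hU m hm f ⟨_, t, C, hT, hl⟩ S S0 hmax x hx => ?_⟩
  have m1 : (1 : ℝ) ≤ m := by exact_mod_cast hm
  obtain ⟨ν, ⟨hν, ht, hT⟩, hd⟩ := ((((G.A_top.eventually_ge_atTop
    ((C - Real.log (2 * S)) / m)).filter_mono hU).and hT).and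
      (Metric.tendstoUniformlyOn_iff.1 hl S S0)).exists
  rw [div_le_iff₀ (by positivity)] at hν
  obtain ⟨g', sg', -, ng'⟩ := scale a ht (show 0 < 2 * S by positivity)
  have hd' : ∀ x, dist x o ≤ 2 → |‖f x‖ - ‖t ν x‖| ≤ S := fun x hx =>
    (abs_norm_sub_norm_le _ _).trans (dist_eq_norm (f x) _ ▸ (hd x hx).le)
  have := hdom (ν + 2) _ (2 * m) (by linarith [ν.cast_nonneg (α := ℝ)]) (a.psh g' sg' 1 one_pos)
    (fun x => Real.log_nonneg (le_max_right _ _))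
    (fun x hx => by
      rw [max_eq_right (ng' x ▸ (div_le_one (by positivity)).2 (by
        linarith [hmax x hx, (abs_le.1 (hd' x (le_trans hx (by norm_num)))).1])), Real.log_one])
    (by positivity) (fun x => by
      have u := mul_le_mul_of_nonneg_left (G.A_le_sc (ν + 2) x) (by positivity : (0 : ℝ) ≤ m)
      have v := G.sc_pos (ν + 2) x
      rw [← Real.exp_zero]
      refine log_max_le ?_ (by unfold Gauge.sc at v; positivity)
      rw [ng', div_le_iff₀ (by positivity)]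
      refine (hT x).trans ?_
      rw [← Real.exp_log (show 0 < 2 * S by positivity), ← Real.exp_add]
      refine Real.exp_le_exp.2 ?_
      unfold Gauge.sc at u ⊢
      linarith) x
  rw [Real.log_le_iff_le_exp (one_pos.trans_le (le_max_right _ _)), max_le_iff, ng',
    div_le_iff₀ (by positivity)] at this
  have k1 : Real.exp (D * (2 * m) * (1 + dist x o)) * 3 ≤ Real.exp ((6 * D + 2) * m) := by
    refine (mul_le_mul_of_nonneg_left (show (3 : ℝ) ≤ Real.exp 2 by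
      linarith [Real.add_one_le_exp 2]) (Real.exp_pos _).le).trans ?_
    rw [← Real.exp_add]
    exact Real.exp_le_exp.2 (by nlinarith [mul_pos hD (show (0 : ℝ) < m by linarith)])
  rw [div_le_iff₀ S0]
  nlinarith [(abs_le.1 (hd' x hx)).2, this.1, this.2]

/-- the order of vanishing of a limit -/
theorem ord (c : Ctx n μ) (G : Gauge n o) : ∃ (e : Chart n M) (C₃ : ℕ), Hc e ∧
    0 ∈ e.target ∧ ∀ U : Ultrafilter ℕ, (U : Filter ℕ) ≤ atTop → ∀ m : ℕ, 1 ≤ m → ∀ f,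
    G.Lt U m f → ((fun z => f (e.symm z)) =O[𝓝 0] fun z => ‖z‖ ^ (C₃ * m)) → f = 0 := by
  have := properSpace_riemannian (Cm n) M
  have a := (all c).a
  have h := tc c
  obtain ⟨e, he, src, ep, sub, near⟩ := FRa.exists_chart a o one_pos
  obtain ⟨D, hD, hdbl⟩ := dbl a G
  have hp := e.open_source.mem_nhds src
  have hc := e.continuousAt src
  rw [ContinuousAt, ep] at hc
  obtain ⟨ε, e0, e1, hε⟩ : ∃ ε > (0 : ℝ), ε ≤ 1 ∧ ∀ x, dist x o ≤ ε →
      x ∈ e.source ∧ e x ∈ ball (0 : Cm n) (2 / 3) := by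
    obtain ⟨r, r0, hr⟩ := Metric.nhds_basis_closedBall.eventually_iff.1
      (Eventually.and hp (hc.eventually (ball_mem_nhds 0 (by norm_num : (0 : ℝ) < 2 / 3))))
    exact ⟨min r 1, by positivity, min_le_right _ _, fun x hx => hr (hx.trans (min_le_left _ _))⟩
  have g1 : gb (ε ^ 2) ≤ gb ((3 / 2) ^ 2) := gb_mono (by positivity) (by nlinarith)
  have g2 : gb ((3 / 2) ^ 2) < gb (2 ^ 2) := by
    have := Real.log_le_log (x := (3 / 2) ^ 2) (y := 2 ^ 2) (by norm_num) (by norm_num)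
    unfold gb
    linarith
  have g3 := sub_pos.2 (g1.trans_lt g2)
  obtain ⟨θ, hθ⟩ : ∃ θ, θ = 1 - (gb ((3 / 2) ^ 2) - gb (ε ^ 2)) / (gb (2 ^ 2) - gb (ε ^ 2)) :=
    ⟨_, rfl⟩
  have t0 : 0 < θ := by
    rw [hθ, sub_pos, div_lt_one g3]
    exact sub_lt_sub_right g2 _
  have t1 : θ ≤ 1 := hθ ▸ sub_le_self _ (div_nonneg (sub_nonneg.2 g1) g3.le)
  obtain ⟨C₃, hC₃⟩ := exists_nat_gt (D / θ)
  rw [div_lt_iff₀ t0] at hC₃
  refine ⟨e, C₃, he, sub (mem_closedBall_self two_pos.le), fun U hU m hm f hf hO => ?_⟩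
  by_contra hs0
  have m1 : (1 : ℝ) ≤ m := by exact_mod_cast hm
  obtain ⟨B, hB⟩ : ∃ B, B = D * m := ⟨_, rfl⟩
  have B0 : 0 < B := by
    rw [hB]
    positivity
  have hk : B < ((C₃ * m : ℕ) : ℝ) * θ := by
    rw [hB]
    push_cast
    nlinarith
  have k0 : (0 : ℝ) < (C₃ * m : ℕ) := (mul_pos_iff_of_pos_right t0).1 (B0.trans hk)
  obtain ⟨x₁, hx₁, hmax⟩ := (isCompact_closedBall o (3 / 2)).exists_isMaxOn
    ⟨o, mem_closedBall_self (by norm_num)⟩ (sec_cont a hf.1).norm.continuousOn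
  obtain ⟨S, hS⟩ : ∃ S, S = ‖f x₁‖ := ⟨_, rfl⟩
  rw [isMaxOn_iff, ← hS] at hmax
  have S0 : 0 < S := not_le.1 fun k => hs0 (a.ident _ f hf.1 o (by
    filter_upwards [closedBall_mem_nhds o (by norm_num : (0 : ℝ) < 3 / 2)] with y hy
    exact norm_le_zero_iff.1 ((hmax y hy).trans k)))
  obtain ⟨g, sg, hg, ng⟩ := scale a hf.1 S0
  have b2 : ∀ x, dist x o ≤ 2 → ‖g x‖ ≤ Real.exp B := fun x hx => by
    rw [ng, hB]
    exact hdbl U hU m hm f hf S S0 hmax x hx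
  have b1 : ∀ x, dist x o ≤ ε → ‖g x‖ ≤ Real.exp (B - (C₃ * m : ℕ)) := fun x hx => by
    rw [← e.left_inv (hε x hx).1]
    refine schwarz (G := fun z => g (e.symm z)) two_pos (fun z hz => ?_)
      (fun z hz => b2 _ ((near z (ball_subset_closedBall hz)).le.trans one_le_two))
      (by exact_mod_cast k0) ?_ (hε x hx).2
    · exact (sec0.1 sg e he z
        (sub (ball_subset_closedBall hz))).differentiableAt.differentiableWithinAt
    · simp only [hg]
      exact hO.const_mul_left _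
  have n1 : ‖g x₁‖ = 1 := by rw [ng, ← hS, div_self S0.ne']
  rcases le_total (dist x₁ o) ε with h1 | h1
  · have := b1 x₁ h1
    rw [n1, Real.one_le_exp_iff] at this
    nlinarith
  · have h2 := h o _ ε 2 (B - (C₃ * m : ℕ)) B
      (a.psh g sg _ (Real.exp_pos (B - (C₃ * m : ℕ)))) e0 (by linarith) (by linarith)
      (fun x hx => log_max_le (b1 x hx.le) le_rfl)
      (fun x hx => log_max_le (b2 x hx.le) (by linarith)) x₁ h1
      ((mem_closedBall.1 hx₁).trans (by norm_num))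
    have h3 : (gb (dist x₁ o ^ 2) - gb (ε ^ 2)) / (gb (2 ^ 2) - gb (ε ^ 2)) ≤ 1 - θ := by
      rw [hθ, sub_sub_cancel]
      exact div_le_div_of_nonneg_right (sub_le_sub_right (gb_mono (pow_pos (e0.trans_le h1) 2)
        (pow_le_pow_left₀ dist_nonneg hx₁ 2)) _) g3.le
    have h4 := Real.log_nonneg (n1.ge.trans (le_max_left _ (Real.exp (B - (C₃ * m : ℕ)))))
    nlinarith

variable {G : Gauge n o} {U : Filter ℕ} {k l : ℕ} {f g : M → ℂ}

theorem lt_mul (a : B1a n M) (hf : G.Lt U k f) (hg : G.Lt U l g) : G.Lt U (k + l) (f * g) := by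
  have := properSpace_riemannian (Cm n) M
  obtain ⟨h1, t, C, h2, h3⟩ := hf
  obtain ⟨h4, s, D, h5, h6⟩ := hg
  refine ⟨sec_mul h1 h4, t * s, C + D, (h2.and h5).mono fun ν h => ⟨sec_mul h.1.1 h.2.1, fun x => ?_⟩,
    (tendstoLocallyUniformlyOn_iff_tendstoUniformlyOn_of_compact (isCompact_closedBall o 2)).1
      (h3.tendstoLocallyUniformlyOn.mul₀ h6.tendstoLocallyUniformlyOn
        (sec_cont a h1).continuousOn (sec_cont a h4).continuousOn)⟩
  rw [Pi.mul_apply, Pi.mul_apply, norm_mul]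
  refine (mul_le_mul (h.1.2 x) (h.2.2 x) (norm_nonneg _) (Real.exp_pos _).le).trans_eq ?_
  rw [← Real.exp_add]
  congr 1
  push_cast
  ring

theorem lt_add (hf : G.Lt U k f) (hg : G.Lt U k g) : G.Lt U k (f + g) := by
  obtain ⟨h1, t, C, h2, h3⟩ := hf
  obtain ⟨h4, s, D, h5, h6⟩ := hg
  refine ⟨sec_add h1 h4, t + s, max C D + 1, (h2.and h5).mono fun ν h =>
    ⟨sec_add h.1.1 h.2.1, fun x => (norm_add_le _ _).trans ?_⟩, h3.add h6⟩
  generalize hX : k * G.sc (ν + 2) x = X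
  have e1 : Real.exp (C + X) ≤ Real.exp (max C D + X) := by gcongr; exact le_max_left _ _
  have e2 : Real.exp (D + X) ≤ Real.exp (max C D + X) := by gcongr; exact le_max_right _ _
  have e3 := h.1.2 x
  have e4 := h.2.2 x
  rw [hX] at e3 e4
  rw [add_right_comm, Real.exp_add _ 1]
  nlinarith [Real.add_one_le_exp (1 : ℝ), Real.exp_pos (max C D + X)]

theorem lt_const (c : ℂ) : G.Lt U 0 fun _ => c := (Gauge.deg_const c).lt U (by simp)

theorem lt_mono (hf : G.Lt U k f) (h : k ≤ l) : G.Lt U l f := by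
  obtain ⟨h1, t, C, h2, h3⟩ := hf
  refine ⟨h1, t, C, h2.mono fun ν h4 => ⟨h4.1, fun x => (h4.2 x).trans ?_⟩, h3⟩
  have := G.sc_pos (ν + 2) x
  gcongr

variable (G U) in
/-- the limits of degree `k` -/
def T (a : B1a n M) (k : ℕ) : Submodule ℂ (M → ℂ) where
  carrier := {g | G.Lt U k g}
  zero_mem' := lt_mono (lt_const 0) k.zero_le
  add_mem' := lt_add
  smul_mem' c _ h := lt_mono (lt_mul a (lt_const c) h) (zero_add k).le

end Dim

open Dim

/-- **Row DIM.** -/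
theorem dim (c : Ctx n μ) (G : Gauge n o) : G.DIM := by
  obtain ⟨e, C₃, he, h0, h⟩ := ord c G
  refine ⟨(C₃ : ℝ) ^ n, fun U hU k hk V hV => ?_⟩
  obtain ⟨h1, h2⟩ := jet n (C₃ * k) V ((LinearMap.funLeft ℂ ℂ e.symm).comp V.subtype)
    (fun v => sec0.1 (hV v v.2).1 e he 0 h0) fun v hv => Subtype.ext (h U hU k hk v (hV v v.2) hv)
  refine ⟨h1, ?_⟩
  rw [← mul_pow]
  exact_mod_cast h2

variable {G : Gauge n o}

theorem fin (_c : Ctx n μ) (h : G.DIM) : G.FIN := by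
  intro k
  obtain ⟨C, h⟩ := h
  let V : Submodule ℂ (M → ℂ) :=
    { carrier := {f | G.Deg k f}
      zero_mem' := ⟨sec_const 0, 0, fun x => by simpa using (Real.exp_pos _).le⟩
      add_mem' := Gauge.Deg.add
      smul_mem' := fun c _ h => ((Gauge.deg_const c).mul h).mono (zero_add k).le }
  obtain ⟨h1, -⟩ := h _ Nat.hyperfilter_le_atTop (⌈k⌉₊ + 1) le_add_self V fun g hg =>
    Gauge.Deg.lt hg _ (by push_cast; linarith [Nat.le_ceil k])
  obtain ⟨L, g, hg⟩ := Submodule.fg_iff_exists_fin_generating_family.1 (Module.Finite.iff_fg.1 h1)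
  exact ⟨L, g, fun i => ⟨k, show g i ∈ V from hg ▸ Submodule.subset_span ⟨i, rfl⟩⟩,
    fun f hf => hg ▸ hf⟩

theorem rell (c : Ctx n μ) (h : G.DIM) : G.RELL := by
  intro U hU g₀ a b g ⟨k₀, h₀⟩ hg ⟨k₁, h₁⟩ ⟨k₂, h₂⟩
  obtain ⟨C, h⟩ := h
  have A := (all c).a
  choose k hk using hg
  obtain ⟨J, hJ⟩ := VS.count (T := T G U A) c.npos ⟨lt_const 1, fun _ _ _ hs _ ht => lt_mul A hs ht⟩
    (fun m hm => h U hU m hm _ fun _ hg => hg) (m := k₀ + ∑ i, k i + 1) le_add_self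
    (s₀ := g₀) (s := g) (lt_mono h₀ (by omega)) fun i => lt_mono (hk i) (by
      have := Finset.single_le_sum (fun i _ => (k i).zero_le) (Finset.mem_univ i)
      omega)
  obtain ⟨Q, h1, -, h2⟩ := hJ (k₁ + k₂) a (lt_mono h₁ (by omega)) b (lt_mono h₂ (by omega))
  exact ⟨Q, h1, h2⟩

end Vale.Agent.P253W.T

namespace Vale.Agent.P253W.T

variable {n : ℕ} {M : Type} [MetricSpace M] [ChartedSpace (Cm n) M]
  [RiemannianBundle (fun x : M => TangentSpace 𝓘(ℝ, Cm n) x)] {o : M} {G : Gauge n o}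

theorem rel (h : G.RELL) : G.REL := fun _ _ _ _ h₀ hg ha hb =>
  h _ Nat.hyperfilter_le_atTop _ _ _ _ (h₀.lim _) (fun i => (hg i).lim _) (ha.lim _) (hb.lim _)

end Vale.Agent.P253W.T
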