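import Vale.Agent.P253W.T.Sop
import Mathlib.LinearAlgebra.Matrix.AbsoluteValue

/-!
# P253W, block T: plurisubharmonic functions and Jacobians along discs
-/

open scoped Manifold ContDiff Bundle ENNReal Topology ComplexConjugate ComplexOrder Matrix Nat
open Bundle IsManifold MeasureTheory Set Metric Filter Vale.Agent.P253.Mfd Vale.Agent.P253Z
open Vale.Agent.P272.K (Cm Chart)
open Vale.Agent.P272.GJ (ddb)
open Vale.Agent.P253.R2.H451

noncomputable section

namespace Vale.Agent.P253W.T

namespace Dsp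

/-- the maximum principle -/
theorem max {w : ℂ → ℝ} {c : ℂ} {ρ B : ℝ} (hρ : 0 < ρ) (hw : ContinuousOn w (closedBall c ρ))
    (h : ∀ τ r, 0 < r → closedBall τ r ⊆ closedBall c ρ → ball τ r ⊆ ball c ρ →
      w τ ≤ Real.circleAverage w τ r) (hB : ∀ τ ∈ sphere c ρ, w τ ≤ B) :
    ∀ τ ∈ closedBall c ρ, w τ ≤ B := by
  obtain ⟨p, hp, hm⟩ := (isCompact_closedBall c ρ).exists_isMaxOn (nonempty_closedBall.2 hρ.le) hw
  refine fun τ hτ => (hm hτ).trans (le_of_not_gt fun hlt => ?_)
  have h1 : dist p c < ρ := lt_of_le_of_ne hp fun h1 => (hB p h1).not_gt hlt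
  have hr : 0 < ρ - dist p c := sub_pos.2 h1
  have hs : closedBall p (ρ - dist p c) ⊆ closedBall c ρ :=
    closedBall_subset_closedBall' (by linarith)
  have h2 := h p _ hr hs (ball_subset_ball' (by linarith))
  have hm' : ∀ θ, circleMap p (ρ - dist p c) θ ∈ closedBall c ρ := fun θ =>
    hs (circleMap_mem_closedBall _ hr.le _)
  have h3 := intervalIntegral.integral_lt_integral_of_continuousOn_of_le_of_exists_lt
    (f := fun θ => w (circleMap p (ρ - dist p c) (θ + (p - c).arg))) (g := fun _ => w p)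
    Real.two_pi_pos (hw.comp (by fun_prop) fun θ _ => hm' _) continuousOn_const
    (fun θ _ => hm (hm' _)) ⟨0, ⟨le_rfl, Real.two_pi_pos.le⟩, (hB _ (by
      have e : circleMap p (ρ - dist p c) (0 + (p - c).arg) - c =
          ρ * Complex.exp ((p - c).arg * Complex.I) := by
        have := Complex.norm_mul_exp_arg_mul_I (p - c)
        rw [circleMap, zero_add, dist_eq_norm]
        push_cast
        linear_combination -this
      rw [mem_sphere, dist_eq_norm, e]
      simp [hρ.le])).trans_lt hlt⟩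
  rw [Real.circleAverage_eq_integral_add (p - c).arg, smul_eq_mul,
    le_inv_mul_iff₀ Real.two_pi_pos] at h2
  rw [intervalIntegral.integral_const, sub_zero, smul_eq_mul] at h3
  exact h2.not_gt h3

variable {n : ℕ}

theorem fp {H : Mx n} (hH : H.PosDef) {B : ℝ} (hB : 1 ≤ B)
    (h : ∀ i, hq H (Pi.single i 1) ≤ B) (v : Cm n) :
    (∑ j, ∑ k, H j k * (v j * conj (v k))).re * H.det.re⁻¹ ≤ n ^ 2 * n ! * ‖v‖ ^ 2 * B ^ n := by
  have hu : IsUnit H.det := (Matrix.isUnit_iff_isUnit_det _).1 hH.isUnit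
  have h1 : ∀ i j, ‖H⁻¹ i j‖ ≤ B := fun i j => by
    have e := Sop.cs hH (by linarith) i (h i) (star (H⁻¹ *ᵥ Pi.single j 1))
    have a1 : ∑ p, ∑ k, H p k * (star (H⁻¹ *ᵥ Pi.single j 1) p *
        conj (star (H⁻¹ *ᵥ Pi.single j 1) k)) =
        star (H⁻¹ *ᵥ Pi.single j 1) ⬝ᵥ H *ᵥ (H⁻¹ *ᵥ Pi.single j 1) := by
      generalize H⁻¹ *ᵥ Pi.single j 1 = y
      simp only [dotProduct, Matrix.mulVec, Finset.mul_sum, Pi.star_apply, RCLike.star_def,
        Complex.conj_conj]
      exact Finset.sum_congr rfl fun j _ => Finset.sum_congr rfl fun k _ => by ring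
    have a2 := h j
    have a3 : star (Pi.single j 1 : Cm n) = Pi.single j 1 := by
      funext l
      by_cases hl : l = j <;> simp [hl]
    rw [hq, a3, single_dotProduct, one_mul] at a2
    rw [a1, Matrix.mulVec_mulVec, Matrix.mul_nonsing_inv _ hu, Matrix.one_mulVec,
      dotProduct_single, mul_one] at e
    simp only [Pi.star_apply, RCLike.star_def, Complex.conj_re, Complex.norm_conj,
      Matrix.mulVec_single_one, Matrix.col_apply] at e a2
    refine le_of_sq_le_sq ?_ (by linarith)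
    nlinarith
  have h2 : ∀ j k, ‖H⁻¹.adjugate j k‖ ≤ n ! * B ^ n := fun j k => by
    rw [Matrix.adjugate_apply]
    have := Matrix.det_le (A := H⁻¹.updateRow k (Pi.single j 1))
      (abv := NormedField.toAbsoluteValue ℂ) (x := B) fun p q => by
        change ‖(_ : ℂ)‖ ≤ B
        rw [Matrix.updateRow_apply]
        split_ifs
        · by_cases h : q = j <;> simp [h, hB, (zero_le_one.trans hB)]
        · exact h1 p q
    rw [Fintype.card_fin, nsmul_eq_mul] at this
    exact this
  have h3 : H⁻¹.adjugate = H.det⁻¹ • H := by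
    have := Matrix.mul_adjugate H⁻¹
    rw [← Matrix.one_mul H⁻¹.adjugate, ← Matrix.mul_nonsing_inv H hu, Matrix.mul_assoc, this,
      Matrix.det_nonsing_inv, Ring.inverse_eq_inv', Matrix.mul_smul, Matrix.mul_one]
  have h4 : H.det = (H.det.re : ℂ) := (Complex.ext rfl (Complex.pos_iff.1 hH.det_pos).2.symm)
  have h5 : (∑ j, ∑ k, H j k * (v j * conj (v k))).re * H.det.re⁻¹ =
      (∑ j, ∑ k, H⁻¹.adjugate j k * (v j * conj (v k))).re := by
    rw [h3, h4, ← Complex.ofReal_inv, Complex.ofReal_re, mul_comm, ← Complex.re_ofReal_mul]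
    simp only [Finset.mul_sum, Matrix.smul_apply, smul_eq_mul, mul_assoc]
  rw [h5]
  refine (Complex.re_le_norm _).trans ((norm_sum_le_of_le _ fun j _ => norm_sum_le_of_le _
    (n := fun _ => n ! * B ^ n * (‖v‖ * ‖v‖)) fun k _ => ?_).trans_eq ?_)
  · rw [norm_mul, norm_mul, Complex.norm_conj]
    have := h2 j k
    have := norm_le_pi_norm v j
    have := norm_le_pi_norm v k
    gcongr
  · simp
    ring

end Dsp

variable {n : ℕ} {M : Type} [MetricSpace M] [ChartedSpace (Cm n) M]
  [RiemannianBundle (fun x : M => TangentSpace 𝓘(ℝ, Cm n) x)]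

theorem dsp (a : B1a n M) (b : B1b n M) (d : DJ n M) (s : DSC n M) : DSP n M where
  sub u f U hu hU hf τ hτ := by
    have he := a.chart (f τ)
    have h1 : ∀ᶠ t in 𝓝 τ, t ∈ U ∧ f t ∈ (pc n (f τ)).source :=
      (show ∀ᶠ t in 𝓝 τ, t ∈ U from hU.mem_nhds hτ).and
        ((hf.continuousOn.continuousAt (hU.mem_nhds hτ)).eventually
          (chart_source_mem_nhds _ _))
    have hφ : AnalyticAt ℂ (fun t => pc n (f τ) (f t)) τ :=
      Complex.analyticAt_iff_eventually_differentiableAt.2 (h1.mono fun t ht =>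
        (s.chart f t ((hf t ht.1).mdifferentiableAt (hU.mem_nhds ht.1)) _ he ht.2).1)
    have hN : ContDiffAt ℝ 2 (fun y => u ((pc n (f τ)).symm y)) (pc n (f τ) (f τ)) :=
      (hu.1 _ he _ (mem_chart_target _ _)).of_le P253.R2.H384.two_le_infty
    have h2 : (fun t => u (f t)) =ᶠ[𝓝 τ] fun t => u ((pc n (f τ)).symm (pc n (f τ) (f t))) :=
      h1.mono fun t ht => by simp only [(pc n (f τ)).left_inv ht.2]
    refine ⟨(hN.comp (f := fun t => pc n (f τ) (f t)) τ
      ((hφ.contDiffAt (n := 2)).restrict_scalars ℝ)).congr_of_eventuallyEq h2, ?_⟩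
    have h3 : ∀ v : ℂ, (fun w => fderiv ℝ (fun t => u (f t)) w v) =ᶠ[𝓝 τ] fun w =>
        fderiv ℝ (fun t => u ((pc n (f τ)).symm (pc n (f τ) (f t)))) w v := fun v =>
      (h2.fderiv (𝕜 := ℝ)).mono fun w hw => by simp only [hw]
    have h4 := lap_comp_hol hφ hN
    have h5 : DifferentiableAt ℝ (fderiv ℝ fun y => u ((pc n (f τ)).symm y)) (pc n (f τ) (f τ)) :=
      (hN.fderiv_right (m := 1) (by norm_num)).differentiableAt (by norm_num)
    have h6 := b.levi _ _ (deriv (fun t => pc n (f τ) (f t)) τ) hN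
    have h7 := hu.2 _ he _ (mem_chart_target _ (f τ))
    have h8 := (b.psd _ h7.1).1 h7 (deriv (fun t => pc n (f τ) (f t)) τ)
    rw [lap, fderiv_clm_apply h5 (differentiableAt_const _),
      fderiv_clm_apply h5 (differentiableAt_const _)] at h4
    rw [ddb, (h3 1).fderiv_eq, (h3 Complex.I).fderiv_eq, h4]
    rw [levi2] at h6
    simp only [hs] at h8
    simp only [fderiv_fun_const, Pi.zero_apply, ContinuousLinearMap.comp_zero, zero_add,
      ContinuousLinearMap.flip_apply]
    linarith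
  max u f c ρ B hu hρ hc hf := Dsp.max hρ (hu.1.comp_continuousOn hc)
    fun τ r hr h1 h2 => hu.2 f τ r hr (hc.mono h1) (hf.mono h2)
  fp := by
    refine ⟨n ^ 2 * n ! + 1, by positivity, fun z f τ hz hf => ?_⟩
    have h0 : 0 ≤ ∑ i, gr n (z i) (f τ) := Finset.sum_nonneg fun i _ => d.gr_nonneg _ _
    by_cases j : jac z (f τ) = 0
    · simp only [nrm, j, norm_zero, ne_eq, OfNat.ofNat_ne_zero, not_false_eq_true, zero_pow,
        zero_mul, mul_zero]
      positivity
    obtain ⟨e, he, hx, hy⟩ := d.chart z hz _ j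
    have t := e.map_source hx
    have one := d.one z e he (fun y h => (hy y h).1) _ t
    have h1 : (fun s => e (f s)) =ᶠ[𝓝 τ] fun s => mp z (f s) :=
      (hf.continuousAt.eventually (e.open_source.mem_nhds hx)).mono fun s h => (hy _ h).1
    have h2 := b.nrm_eq 1 (jac z) e he _ t
    have h3 : (Matrix.of fun i => dv (z i) e (e (f τ))) = 1 := by
      ext i k
      rw [Matrix.of_apply, one, Matrix.one_apply, Pi.single_apply]
      simp only [eq_comm]
    rw [d.co z hz e he _ t, h3, e.left_inv hx, Matrix.det_one, norm_one, one_pow, one_mul,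
      zpow_neg_one] at h2
    rw [(s.chart f τ hf e he hx).2, h1.deriv_eq, b.quad e he _ t, h2]
    refine (Dsp.fp (b.wpos e he _ t) (le_add_of_nonneg_right h0) (fun i => ?_) _).trans ?_
    · rw [← one i, ← d.gr _ (hz i) e he _ t, e.left_inv hx]
      linarith [Finset.single_le_sum (fun i _ => d.gr_nonneg (z i) (f τ)) (Finset.mem_univ i)]
    · gcongr
      linarith

end Vale.Agent.P253W.T
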