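import Vale.Agent.P253W.T.Basic
import Vale.Agent.P253Y.Kum.Rt
import Vale.Agent.P253Z.B1a
import Vale.Agent.P253Z.B1b
import Vale.Agent.P272.K.C2.PosLin

/-!
# P253W, block T, row FLAT: the flat limit of almost flat weights
-/

open scoped Manifold ContDiff Bundle ENNReal Topology ComplexConjugate ComplexOrder
open Bundle IsManifold MeasureTheory Set Metric Filter Vale.Agent.P253.Mfd Vale.Agent.P253Z
open Vale.Agent.P272.K (Cm dz dzb cHess jacM Chart)

noncomputable section

namespace Vale.Agent.P253W.T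

namespace Fla

variable {n : ℕ}

theorem two_le : (2 : WithTop ℕ∞) ≤ ((⊤ : ℕ∞) : WithTop ℕ∞) :=
  WithTop.coe_le_coe.2 (le_top : (2 : ℕ∞) ≤ ⊤)

theorem psd_le {A : Mx n} (hA : A.PosSemidef) {T : ℝ} (hT : A.trace.re ≤ T) :
    ((T : ℂ) • (1 : Mx n) - A).PosSemidef := by
  have h3 : (((T - A.trace.re : ℝ) : ℂ) • (1 : Mx n)).PosSemidef :=
    Matrix.PosSemidef.one.smul (by exact_mod_cast sub_nonneg.2 hT)
  have h4 : (A.trace.re : ℂ) = A.trace :=
    Complex.ext rfl (by rw [Complex.ofReal_im]; exact (Complex.le_def.1 hA.trace_nonneg).2)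
  have h6 := h3.add (P272.K.C2.trace_smul_one_sub_posSemidef hA)
  rwa [Complex.ofReal_sub, h4, sub_smul, sub_add_sub_cancel] at h6

variable {M : Type} [MetricSpace M] [ChartedSpace (Cm n) M] [IsManifold 𝓘(ℂ, Cm n) 1 M]
  [RiemannianBundle (fun x : M => TangentSpace 𝓘(ℝ, Cm n) x)]

/-- the limit near a point -/
theorem loc (a : B1a n M) (b : B1b n M) (h : PLH n) {o : M} {τ : ℕ → M → ℝ} {ε : ℕ → ℝ}
    {U : Ultrafilter ℕ} (A : Alm n τ ε)
    (hB : ∀ ρ : ℝ, ∃ B : ℝ, ∀ ν, ∀ x ∈ closedBall o ρ, |τ ν x| ≤ B) (hU : (U : Filter ℕ) ≤ atTop)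
    (p : M) : ∃ (V : Set M) (s : M → ℂ), IsOpen V ∧ p ∈ V ∧
      (∀ y ∈ V, s y ≠ 0 ∧ ∀ e : Chart n M, Hc e → y ∈ e.source → AnalyticAt ℂ (co 1 s e) (e y)) ∧
      TendstoUniformlyOn τ (fun x => -lg n s x) U V := by
  set e := pc n p
  have he : Hc e := a.chart p
  have hp : p ∈ e.source := mem_chart_source _ p
  obtain ⟨ρ, hρ, hK⟩ := nhds_basis_closedBall.mem_iff.1 (e.open_target.mem_nhds (e.map_source hp))
  have hc := isCompact_closedBall (e p) ρ
  obtain ⟨R, hR⟩ := (hc.image_of_continuousOn (e.continuousOn_symm.mono hK)).isBounded.subset_closedBall o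
  obtain ⟨B, hB⟩ := hB R
  have hv : ∀ z ∈ e.target, ContDiffAt ℝ 2 (fun y => -Real.log (vd e y)) z := fun z hz =>
    (((b.vd_sm e he z hz).of_le two_le).log (b.vd_pos e he z hz).ne').neg
  obtain ⟨B', hB'⟩ := hc.exists_bound_of_continuousOn
    fun z hz => (hv z (hK hz)).continuousAt.continuousWithinAt
  obtain ⟨T, hT⟩ := hc.exists_bound_of_continuousOn (f := fun z => (hm e z).trace)
    (continuousOn_finsetSum _ fun j _ z hz =>
      (b.wsm e he z (hK hz) j j).continuousAt.continuousWithinAt)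
  obtain ⟨r, g, hr, hg, hlim⟩ := h (fun ν z => τ ν (e.symm z) + -Real.log (vd e z))
    (fun ν => |ε ν| * T) U (e p) ρ (B + B') hρ
    (by simpa using ((A.eps.abs.mul_const T).mono_left hU)) (Eventually.of_forall fun ν z hz => by
      have hz' := ball_subset_closedBall hz
      have ht := hK hz'
      have h1 := (A.sm ν e he z ht).of_le two_le
      have h2 : cHess (fun z => τ ν (e.symm z) + -Real.log (vd e z)) z = ric e z + hs (τ ν) e z := by
        rw [P272.K.C2.cHess_add h1 (hv z ht), add_comm]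
        rfl
      refine ⟨h1.add (hv z ht), (abs_add_le _ _).trans
        (add_le_add (hB ν _ (hR ⟨z, hz', rfl⟩)) (hB' z hz')), h2 ▸ A.lo ν e he z ht, ?_⟩
      rw [h2]
      refine psd_le (A.lo ν e he z ht) ?_
      have h3 := (Complex.le_def.1 (A.up ν e he z ht).trace_nonneg).1
      rw [Matrix.trace_sub, Matrix.trace_smul, Complex.sub_re, smul_eq_mul, Complex.re_ofReal_mul,
        Complex.zero_re] at h3
      have h4 : ε ν * (hm e z).trace.re ≤ |ε ν| * T := (le_abs_self _).trans (by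
        rw [abs_mul]
        exact mul_le_mul_of_nonneg_left ((Complex.abs_re_le_norm _).trans (hT z hz')) (abs_nonneg _))
      linarith)
  obtain ⟨s, -, hs⟩ := a.ext 1 e he fun z => Complex.exp (-g z / 2)
  refine ⟨e.source ∩ e ⁻¹' ball (e p) r, s, e.isOpen_inter_preimage isOpen_ball,
    ⟨hp, mem_ball_self hr⟩, fun y hy => ⟨fun h0 => ?_, fun e' he' hy' => ?_⟩, ?_⟩
  · have h1 := hs _ (e.map_source hy.1)
    rw [co, e.left_inv hy.1, h0, mul_zero] at h1
    exact Complex.exp_ne_zero _ h1.symm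
  · have h1 : AnalyticAt ℂ (co 1 s e) (e y) := by
      refine ((hg _ hy.2).neg.div_const (c := 2)).cexp.congr ?_
      filter_upwards [e.open_target.mem_nhds (e.map_source hy.1)] with z hz
      exact (hs z hz).symm
    have hz := e'.map_source hy'
    have hz' : e'.symm (e' y) ∈ e.source := by rw [e'.left_inv hy']; exact hy.1
    exact ((B1aP.jac_zpow_an 1 he' he hz hz').mul (h1.comp_of_eq (a.hol e' e he' he _ hz hz')
      (by rw [e'.left_inv hy']))).congr (B1aP.co_ev 1 s he' he hz hz')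
  · rw [Metric.tendstoUniformlyOn_iff] at hlim ⊢
    intro η hη
    filter_upwards [hlim η hη] with ν hν y hy
    have h1 := hν _ hy.2
    have hz := e.map_source hy.1
    have h2 := b.nrm_eq 1 s e he _ hz
    have h3 := b.vd_pos e he _ hz
    rw [e.left_inv hy.1, hs _ hz, Complex.norm_exp, ← Real.exp_nat_mul] at h2
    rw [e.left_inv hy.1] at h1
    rw [lg, h2, Real.log_mul (Real.exp_pos _).ne' (zpow_pos h3 _).ne', Real.log_exp, Real.log_zpow]
    rw [Real.dist_eq] at h1 ⊢
    convert h1 using 2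
    simp only [Complex.div_ofNat_re, Complex.neg_re]
    push_cast
    ring

end Fla

variable {n : ℕ} {M : Type} [MetricSpace M] [ChartedSpace (Cm n) M]
  [IsManifold 𝓘(ℂ, Cm n) 1 M] [IsManifold 𝓘(ℝ, Cm n) ∞ M]
  [RiemannianBundle (fun x : M => TangentSpace 𝓘(ℝ, Cm n) x)]
  [IsContMDiffRiemannianBundle 𝓘(ℝ, Cm n) ∞ (Cm n) (fun x : M => TangentSpace 𝓘(ℝ, Cm n) x)]
  [IsRiemannianManifold 𝓘(ℝ, Cm n) M] [CompleteSpace M] [ConnectedSpace M] [NoncompactSpace M]
  [MeasurableSpace M] [BorelSpace M] {μ : Measure M}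

/-- **FLAT** -/
theorem flat (c : Ctx n μ) [SimplyConnectedSpace M] (h : PLH n) (o : M) : FLAT n o := by
  classical
  intro τ ε U A hB hU
  have a : B1a n M := b1a
  have b : B1b n M := b1b c.kahler a
  have := ChartedSpace.locallyPathConnectedSpace (Cm n) M
  have := properSpace_riemannian (Cm n) M
  choose V s hV hp hs hl using Fla.loc a b h A hB hU
  have h1 : ∀ p q y, y ∈ V p → y ∈ V q → ‖s p y / s q y‖ = 1 := fun p q y h1 h2 => by
    have h3 : lg n (s p) y = lg n (s q) y :=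
      neg_injective (tendsto_nhds_unique ((hl p).tendsto_at h1) ((hl q).tendsto_at h2))
    have h4 := nrm_div (n := n) (η := s p) (hs q y h2).1
    rw [← exp_lg a b (hs p y h1).1, h3, exp_lg a b (hs q y h2).1,
      mul_eq_right₀ (nrm_pos a b 1 (hs q y h2).1).ne'] at h4
    exact (pow_eq_one_iff_of_nonneg (norm_nonneg _) two_ne_zero).1 h4
  have h2 : ∀ p q y, y ∈ V p → y ∈ V q → ∀ᶠ z in 𝓝 y, s p z / s q z = s p y / s q y := by
    intro p q y hp hq
    set e := pc n y
    have he : Hc e := a.chart y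
    have hy : y ∈ e.source := mem_chart_source _ y
    have hj : ∀ z ∈ e.source, (jacM e (chartAt (Cm n) z) z).det ^ (1 : ℤ) ≠ 0 := fun z hz =>
      zpow_ne_zero _ (a.jac_ne _ _ he (a.chart _) _ hz (mem_chart_source _ _))
    have h3 : ∀ z ∈ e.source, co 1 (s p) e (e z) / co 1 (s q) e (e z) = s p z / s q z :=
      fun z hz => by rw [co, co, e.left_inv hz, mul_div_mul_left _ _ (hj z hz)]
    have h4 : AnalyticAt ℂ (fun w => co 1 (s p) e w / co 1 (s q) e w) (e y) :=
      ((hs p y hp).2 e he hy).div ((hs q y hq).2 e he hy) (by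
        rw [co, e.left_inv hy]
        exact mul_ne_zero (hj y hy) (hs q y hq).1)
    have h5 := Complex.eventually_eq_of_isLocalMax_norm
      (h4.eventually_analyticAt.mono fun w hw => hw.differentiableAt) (by
        filter_upwards [e.open_target.mem_nhds (e.map_source hy), (e.tendsto_symm hy).eventually
          (((hV p).inter (hV q)).mem_nhds ⟨hp, hq⟩)] with w hw hw'
        have h6 := h3 _ (e.map_target hw)
        rw [e.right_inv hw] at h6
        simp only [Function.comp_apply]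
        rw [h6, h3 y hy, h1 p q _ hw'.1 hw'.2, h1 p q y hp hq])
    filter_upwards [(e.continuousAt hy).eventually h5, e.open_source.mem_nhds hy] with z hz hz'
    rw [← h3 z hz', hz, h3 y hy]
  let un : ℂ → Circle := fun z => if h : ‖z‖ = 1 then ⟨z, mem_sphere_zero_iff_norm.2 h⟩ else 1
  have hun : ∀ z, ‖z‖ = 1 → (un z : ℂ) = z := fun z h => congrArg Subtype.val (dif_pos h)
  obtain ⟨u, k1, k2⟩ := P253Y.Kum.Rt.coc V hV (fun y => ⟨y, hp y⟩)
    (fun p q y => un (s p y / s q y))
    (fun p q y hy => (h2 p q y hy.1 hy.2).mono fun z hz => by simp only [hz])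
    fun p q d y hp hq hd => Circle.ext (by
      rw [Circle.coe_mul, hun _ (h1 _ _ y hq hd), hun _ (h1 _ _ y hp hq), hun _ (h1 _ _ y hp hd),
        mul_comm, div_mul_div_cancel₀ (hs q y hq).1])
  have h3 : ∀ p, ∀ y ∈ V p, (u y y : ℂ) * s y y = u p y * s p y := fun p y hy => by
    have := (hs y y (hp y)).1
    rw [k2 p y y hy (hp y), Circle.coe_mul, hun _ (h1 _ _ y hy (hp y))]
    field_simp
  refine ⟨fun y => u y y * s y y, a.sec_loc _ _ fun x => ⟨pc n x, a.chart x, mem_chart_source _ x, ?_⟩,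
    fun y => mul_ne_zero (Circle.coe_ne_zero _) (hs y y (hp y)).1, fun ρ => ?_⟩
  · have hx := mem_chart_source (Cm n) x
    refine ((analyticAt_const (v := (u x x : ℂ))).mul
      ((hs x x (hp x)).2 _ (a.chart x) hx)).congr ?_
    filter_upwards [((pc n x).tendsto_symm hx).eventually
      ((k1 x x (hp x)).and ((hV x).mem_nhds (hp x)))] with w hw
    simp only [Pi.mul_apply, co]
    rw [h3 x _ hw.2, hw.1]
    ring
  · refine (tendstoLocallyUniformlyOn_iff_tendstoUniformlyOn_of_compact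
      (isCompact_closedBall o ρ)).1 fun w hw x _ =>
        ⟨V x, mem_nhdsWithin_of_mem_nhds ((hV x).mem_nhds (hp x)), ?_⟩
    filter_upwards [hl x w hw] with ν hν y hy
    have h4 : lg n (fun y => (u y y : ℂ) * s y y) y = lg n (s x) y := by
      simp only [lg, nrm, h3 x y hy, norm_mul, Circle.norm_coe, one_mul]
    rw [h4]
    exact hν y hy

end Vale.Agent.P253W.T
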