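import Vale.Agent.P253W.T.Basic
import Vale.Agent.P253Z.Main

/-!
# P253W, block T, row FRG: frames
-/

open scoped Manifold ContDiff Bundle ENNReal Topology ComplexConjugate ComplexOrder
open Bundle IsManifold MeasureTheory Set Metric Filter Vale.Agent.P253.Mfd Vale.Agent.P253Z
open Vale.Agent.P272.K (Cm dz dzb cHess jacM Chart)
open Vale.Agent.P253Z.FRa

set_option linter.unusedSectionVars false

noncomputable section

namespace Vale.Agent.P253W.T

variable {n : ℕ} {M : Type} [MetricSpace M] [ChartedSpace (Cm n) M]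
  [IsManifold 𝓘(ℂ, Cm n) 1 M] [IsManifold 𝓘(ℝ, Cm n) ∞ M]
  [RiemannianBundle (fun x : M => TangentSpace 𝓘(ℝ, Cm n) x)]
  [IsContMDiffRiemannianBundle 𝓘(ℝ, Cm n) ∞ (Cm n) (fun x : M => TangentSpace 𝓘(ℝ, Cm n) x)]
  [IsRiemannianManifold 𝓘(ℝ, Cm n) M] [CompleteSpace M] [ConnectedSpace M] [NoncompactSpace M]
  [MeasurableSpace M] [BorelSpace M] {μ : Measure M}

/-- **Row FRG.** -/
theorem frg (c : Ctx n μ) : FRG n μ := by
  intro p ρ κ B hρ hκ
  have a := (all c).a
  have b := (all c).b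
  obtain ⟨Λ, hΛ, hJ⟩ := ctx_hj c
  obtain ⟨e, he, hpe, hep, hsub, hnear⟩ := exists_chart a p hρ
  obtain ⟨l, hl, hlow⟩ := unif (isCompact_closedBall (0 : Cm n) 2) (H := hm e)
    (fun j k z hz => (b.wsm e he z (hsub hz) j k).continuousAt.continuousWithinAt)
    (fun z hz => b.wpos e he z (hsub hz))
  set q : ℝ := 2 * Λ / (κ * l) with hq
  have hq0 : 0 < q := by positivity
  obtain ⟨C, δ, -, hδ, hδ1, hS⟩ := hJ 1 (q * (B + 1)) (1 / 2) (by norm_num)
  have hδ2 : closedBall (0 : Cm n) δ ⊆ closedBall 0 2 := closedBall_subset_closedBall (by linarith)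
  refine ⟨e, δ, q, C, he, hpe, hep, hδ, hq0, hδ2.trans hsub, fun z hz => hnear z (hδ2 hz),
    fun W k hcc hc0 hL hB => ?_⟩
  obtain ⟨u, hu, hu1, hu2⟩ := rb c.kahler a b W k hcc hc0 hL
  have hth : ∀ (e' : Chart n M) z, th 1 (fun x => q * u x) e' z =
      (q : ℂ) • cHess (fun y => u (e'.symm y)) z := by
    intro e' z
    rw [← cHess_smul]
    unfold th
    congr 1
    funext y
    simp [wt]
  have hsm : Sm n fun x => q * u x := fun e' he' z hz => contDiffAt_const.mul (hu e' he' z hz)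
  refine (hS 1 (fun x => q * u x) hsm (fun e' he' z hz => ?_)
    (fun _ => e) (fun _ _ => 1) (fun _ _ => 1) (fun _ => he) (fun _ => hsub)
    (fun i j hij => absurd (Subsingleton.elim i j) hij) (fun _ z hz => ?_)).imp
    fun s ⟨hs, hs2, hs3⟩ => ⟨_, hs, hsm, fun x => ?_, hs2, fun z hz => ?_⟩
  · rw [hth]
    refine Matrix.PosSemidef.smul ?_ (Complex.zero_le_real.mpr hq0.le)
    have h5 := (hu2 e' he' z hz).add ((b.wpos e' he' z hz).posSemidef.smul
      (Complex.zero_le_real.mpr (half_pos (hc0 (e'.symm z))).le))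
    rwa [sub_add_cancel] at h5
  · obtain ⟨hk, h6⟩ := hB (e.symm z) (mem_closedBall.mpr (hnear z hz).le)
    refine ⟨?_, analyticAt_const, analyticAt_const, one_ne_zero, by simp, ?_⟩
    · rw [hth]
      have h5 := (hu2 e he z (hsub hz)).smul (Complex.zero_le_real.mpr hq0.le)
      have h6 := (hlow z hz).smul (a := ((q * (k (e.symm z) / 2) : ℝ) : ℂ))
        (Complex.zero_le_real.mpr (mul_pos hq0 (half_pos (hc0 _))).le)
      have h7 : 0 ≤ q * (k (e.symm z) / 2) * l - Λ := by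
        have : q * (κ / 2) * l = Λ := by rw [hq]; field_simp
        rw [← this, sub_nonneg]
        gcongr
      have h8 := (Matrix.PosSemidef.one (n := Fin n) (R := ℂ)).smul
        (Complex.zero_le_real.mpr h7)
      convert (h5.add h6).add h8 using 1
      push_cast
      module
    · have h5 := hu1 (e.symm z)
      have h7 : |u (e.symm z)| ≤ B + 1 := by
        have := abs_add_le (u (e.symm z) - W (e.symm z)) (W (e.symm z))
        rw [sub_add_cancel] at this
        linarith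
      have h8 : wt 1 (fun x => q * u x) e z = q * u (e.symm z) := by simp [wt]
      rw [h8, norm_one, one_pow, Real.log_one, zero_sub, abs_neg, abs_mul, abs_of_pos hq0]
      exact mul_le_mul_of_nonneg_left h7 hq0.le
  · rw [← mul_sub, abs_mul, abs_of_pos hq0]
    exact mul_le_of_le_one_right hq0.le (hu1 x)
  · have h5 := (hs3 0).1 z hz
    simp only [div_one] at h5
    have h6 := norm_sub_norm_le (1 : ℂ) (co 1 s e z)
    rw [norm_sub_rev, norm_one] at h6
    linarith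

theorem frn (c : Ctx n μ) (h : FRG n μ) {o : M} (G : Gauge n o) : G.FRN μ := by
  have a := (all c).a
  have b := (all c).b
  obtain ⟨κ, hκ, hW⟩ := G.wt
  obtain ⟨e, δ, q, C, he, h1, h2, h3, hq, h4, h5, h6⟩ := h o (1 / 8) κ (1 / 4) (by norm_num) hκ
  have h7 : ∀ R : ℝ, ∃ (Ω : M → ℂ) (ψ : M → ℝ), 2 ≤ R → IsSec n 1 Ω ∧ Continuous ψ ∧
      (∀ x, ψ x ≤ q * (3 * G.sc R x + 1)) ∧ L2 n μ 1 ψ Ω ≤ ENNReal.ofReal C ∧
      ∀ z ∈ closedBall (0 : Cm n) δ, 1 / 2 ≤ ‖co 1 Ω e z‖ := fun R => by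
    by_cases hR : 2 ≤ R
    · obtain ⟨W, k, w1, w2, w3, w4, w5, w6⟩ := hW R hR
      obtain ⟨Ω, ψ, s1, s2, s3, s4, s5⟩ := h6 W k w1 w2 w4 fun x hx =>
        ⟨w3 x hx, (w5 x).trans (by linarith [mem_closedBall.1 hx])⟩
      refine ⟨Ω, ψ, fun _ => ⟨s1, a.sm_cont _ s2, fun x => ?_, s4, s5⟩⟩
      have := mul_le_mul_of_nonneg_left (w6 x) hq.le
      unfold Gauge.sc
      linarith [(abs_le.1 (s3 x)).2]
    · exact ⟨0, 0, fun h => absurd h hR⟩
  choose Ω ψ h7 using h7
  refine ⟨e, δ, Ω, he, h1, h2, h3, h4, fun z hz => (h5 z hz).le.trans (by norm_num),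
    fun R hR => ⟨(h7 R hR).1, (h7 R hR).2.2.2.2⟩, fun m hm s hs => ?_⟩
  obtain ⟨C', hC'⟩ := P253Z.gr a b (all c).v (ctx_mv c) (bg c a b) o m hm s hs C
  obtain ⟨D, hD, hlog⟩ := G.log_le
  refine ⟨|C'| + m * (7 * q + 2 * n * D), fun R hR x => ?_⟩
  obtain ⟨s1, s2, s3, s4, -⟩ := h7 R hR
  have p1 := G.one_le_sc R x
  refine (hC' _ _ s1 s2 s4 x (q * (6 * G.sc R x + 1)) (by positivity) fun y hy =>
    (s3 y).trans (mul_le_mul_of_nonneg_left ?_ hq.le)).trans (Real.exp_le_exp.2 ?_)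
  · linarith [G.sc_near (by linarith : 1 ≤ R) (mem_ball.1 hy).le]
  · have p2 : Real.log (dist x o + 1) ≤ D * G.sc R x := by
      rw [add_comm]
      exact (hlog _ dist_nonneg).trans
        (mul_le_mul_of_nonneg_left (G.a_le_sc (by linarith) x) (by linarith))
    have p3 : q * (6 * G.sc R x + 1) + 2 * n * Real.log (dist x o + 1) ≤
        (7 * q + 2 * n * D) * G.sc R x := by
      nlinarith [mul_le_mul_of_nonneg_left p2 (by positivity : (0 : ℝ) ≤ 2 * n)]
    nlinarith [mul_le_mul_of_nonneg_left p3 (by positivity : (0 : ℝ) ≤ m), le_abs_self C',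
      abs_nonneg C']

end Vale.Agent.P253W.T
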