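import Vale.Agent.P253W.T.Basic
import Vale.Agent.P253Z.SUP
import Vale.Agent.P253Z.WT
import Vale.Agent.P253Z.TC
import Vale.Agent.P253Z.BUS

/-!
# P253W, block T, row GAU: the gauge
-/

open scoped Manifold ContDiff Bundle ENNReal Topology ComplexConjugate ComplexOrder
open Bundle IsManifold MeasureTheory Set Metric Filter Vale.Agent.P253.Mfd Vale.Agent.P253Z
open Vale.Agent.P272.K (Cm dz dzb cHess jacM Chart)
open Vale.Agent.P253.R2.H451
open Vale.Agent.P253.R2.H618 (gb gb_mono)
open Vale.Agent.P253Z.Wt (sc)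

set_option linter.unusedSectionVars false

noncomputable section

namespace Vale.Agent.P253W.T

variable {n : ℕ} {M : Type} [MetricSpace M] [ChartedSpace (Cm n) M]

namespace Gau

variable (n) in
/-- `v` is a competitor for the gauge `A` -/
structure Cp (o : M) (R A : ℝ) (v : M → ℝ) : Prop where
  psh : ContPsh (Cm n) v
  nonneg : ∀ x, 0 ≤ v x
  zero : ∀ x ∈ closedBall o (3 / 2), v x = 0
  big : ∃ y, 2 * (1 + dist y o) ≤ v y
  le : ∀ x, v x ≤ A * tw o R x

variable {o : M} {R R' A : ℝ} {v : M → ℝ}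

theorem Cp.two_le (h : Cp n o R A v) (hR : 1 ≤ R) : 2 ≤ A := by
  obtain ⟨y, hy⟩ := h.big
  have h1 := h.le y
  have h2 := tw_le_lin (o := o) (x := y) hR
  have h3 := tw_pos (o := o) (x := y) (R := R)
  nlinarith

variable (n) in
/-- the admissible values -/
def S (o : M) (R : ℝ) : Set ℝ := insert R {A | ∃ v, Cp n o R A v}

theorem S_low (hR : 2 ≤ R) : 2 ∈ lowerBounds (S n o R) := by
  rintro A (rfl | ⟨v, hv⟩)
  exacts [hR, hv.two_le (by linarith)]

theorem inf_le (hR : 2 ≤ R) (h : A ∈ S n o R) : sInf (S n o R) ≤ A := csInf_le ⟨2, S_low hR⟩ h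

theorem le_inf (h : ∀ B ∈ S n o R, A ≤ B) : A ≤ sInf (S n o R) := le_csInf (insert_nonempty _ _) h

theorem inf_mono (hR : 2 ≤ R) (h : R ≤ R') : sInf (S n o R) ≤ sInf (S n o R') := by
  refine le_inf ?_
  rintro A (rfl | ⟨v, hv⟩)
  · exact (inf_le hR (mem_insert _ _)).trans h
  · refine inf_le hR (Or.inr ⟨v, hv.psh, hv.nonneg, hv.zero, hv.big, fun x => (hv.le x).trans ?_⟩)
    exact mul_le_mul_of_nonneg_left (tw_anti (by linarith) h)
      (by linarith [hv.two_le (by linarith)])

theorem inf_ratio (hR : 2 ≤ R) (h : R ≤ R') :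
    sInf (S n o R') ≤ sInf (S n o R) * (R' / R) := by
  have h0 : 0 < R := by linarith
  rw [← div_le_iff₀ (div_pos (by linarith) h0)]
  refine le_inf fun A hA => ?_
  rw [div_le_iff₀ (div_pos (by linarith) h0)]
  refine inf_le (by linarith) ?_
  rcases hA with rfl | ⟨v, hv⟩
  · exact Or.inl (by field_simp)
  · refine Or.inr ⟨v, hv.psh, hv.nonneg, hv.zero, hv.big, fun x => (hv.le x).trans ?_⟩
    rw [mul_assoc]
    exact mul_le_mul_of_nonneg_left (tw_ratio h0 h) (by linarith [hv.two_le (by linarith)])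

/-- three circles bound the gauge from below -/
theorem log_le [RiemannianBundle (fun x : M => TangentSpace 𝓘(ℝ, Cm n) x)] (h1 : TC n M)
    (hR : 2 ≤ R) (h : A ∈ S n o R) : Real.log R ≤ 4 * A := by
  have l0 := Real.log_le_sub_one_of_pos (show 0 < R by linarith)
  rcases h with rfl | ⟨v, h⟩
  · linarith
  have hA := h.two_le (by linarith)
  obtain ⟨y, hy⟩ := h.big
  have hd := dist_nonneg (x := y) (y := o)
  rcases le_total R (dist y o) with hy1 | hy1
  · have h2 := h.le y
    rw [tw, max_eq_right ((one_le_div (by linarith)).2 hy1), ← mul_div_assoc] at h2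
    have h3 := (le_div_iff₀ (show 0 < R by linarith)).1 (hy.trans h2)
    nlinarith
  have hy3 : 3 / 2 ≤ dist y o := by
    by_contra hc
    linarith [h.zero y (mem_closedBall.2 (not_le.1 hc).le)]
  have h2 := h1 o v (3 / 2) R 0 A h.psh (by norm_num) (by linarith) (by linarith)
    (fun x hx => (h.zero x (mem_closedBall.2 hx.le)).le)
    (fun x hx => by simpa [tw_eq (show 0 < R by linarith) hx.le] using h.le x) y hy3 hy1
  have l2 : Real.log 2 ≤ Real.log R := Real.log_le_log two_pos hR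
  have l3 := Real.log_two_gt_d9
  have l4 : Real.log ((3 / 2) ^ 2) ≤ (3 / 2) ^ 2 - 1 := Real.log_le_sub_one_of_pos (by norm_num)
  have l5 : 0 ≤ Real.log ((3 / 2) ^ 2) := Real.log_nonneg (by norm_num)
  have l6 : 1 / R ^ 2 ≤ 1 / 4 := one_div_le_one_div_of_le (by norm_num) (by nlinarith)
  have l7 := Real.log_le_sub_one_of_pos (show 0 < dist y o by linarith)
  have hnum : gb (dist y o ^ 2) - gb ((3 / 2) ^ 2) ≤ 2 * (1 + dist y o) := by
    have : 0 ≤ 1 / dist y o ^ 2 := by positivity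
    unfold gb
    rw [Real.log_pow (dist y o)]
    push_cast
    linarith
  have hden : Real.log R / 4 ≤ gb (R ^ 2) - gb ((3 / 2) ^ 2) := by
    unfold gb
    rw [Real.log_pow R]
    push_cast
    linarith
  have hd0 : 0 < gb (R ^ 2) - gb ((3 / 2) ^ 2) := by linarith
  rw [zero_add, sub_zero, ← mul_div_assoc, le_div_iff₀ hd0] at h2
  have h3 := mul_le_mul_of_nonneg_left hnum (show 0 ≤ A by linarith)
  have h4 := mul_le_mul_of_nonneg_right hy hd0.le
  nlinarith

theorem Cp.near (h : Cp n o R A v) (hR : 1 ≤ R) (hA : A ≤ R) (x y : M) :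
    v y ≤ A * tw o R x + dist x y := by
  have h0 : 0 < R := by linarith
  have h1 := h.two_le hR
  have h2 : tw o R y ≤ tw o R x + dist x y / R := by
    refine max_le (le_add_of_le_of_nonneg one_le_tw (by positivity)) ?_
    refine le_trans ?_ (add_le_add_left div_le_tw _)
    rw [← add_div]
    gcongr
    linarith [dist_triangle_left y o x]
  have h3 : A * (dist x y / R) ≤ dist x y := by
    rw [← mul_div_assoc, div_le_iff₀ h0]
    nlinarith [dist_nonneg (x := x) (y := y)]
  nlinarith [h.le y]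

end Gau

open Gau

variable [IsManifold 𝓘(ℂ, Cm n) 1 M] [IsManifold 𝓘(ℝ, Cm n) ∞ M]
  [RiemannianBundle (fun x : M => TangentSpace 𝓘(ℝ, Cm n) x)]
  [IsContMDiffRiemannianBundle 𝓘(ℝ, Cm n) ∞ (Cm n) (fun x : M => TangentSpace 𝓘(ℝ, Cm n) x)]
  [IsRiemannianManifold 𝓘(ℝ, Cm n) M] [CompleteSpace M] [ConnectedSpace M] [NoncompactSpace M]
  [MeasurableSpace M] [BorelSpace M] {μ : Measure M}

/-- the sup-convolution is strictly plurisubharmonic near `p` -/
theorem Gau.sup2 (c : Ctx n μ) (p : M) : ∃ κ : ℝ, 0 < κ ∧ ∀ (v : M → ℝ) (A : ℝ),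
    ContPsh (Cm n) v → (∀ x ∈ closedBall p (3 / 2), v x = 0) → (∀ x, 0 ≤ v x) →
    (∃ y, 2 * (1 + dist y p) ≤ v y) → (∀ x, v x ≤ A + dist x p) →
    ContPsh (Cm n) (sc v) ∧ WeakLevi (Cm n) (sc v) (fun _ => κ) (ball p (1 / 4)) := by
  have := properSpace_riemannian (Cm n) M
  have hK := c.kahler
  obtain ⟨ρ, hρ, hρ1, κ, hκ, hu⟩ := Sup.exists_unif hK c.pos (isCompact_closedBall p (1 / 4))
  refine ⟨0 + 6 / 5 * κ * ρ / 2, by positivity, fun v A hv hz h0 ⟨y₀, h4⟩ hA => ?_⟩
  have hlip : ∀ a b, sc v b ≤ sc v a + 6 / 5 * dist a b := Sup.lip hA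
  have hmax : ∀ x, ∃ y, sc v x ≤ v y - 6 / 5 * dist x y := Sup.exists_max hv.1 h0 hA
  have hle : ∀ y, v y ≤ sc v y := fun y => by simpa [sc] using le_ciSup (Sup.bdd hA y) y
  generalize sc v = W at *
  have hc : Continuous W := by
    refine (LipschitzWith.of_le_add_mul' (6 / 5) fun a b => ?_).continuous
    rw [dist_comm]
    exact hlip b a
  have hnn : ∀ e ∈ maximalAtlas 𝓘(ℂ, Cm n) 1 M, ∀ y ∈ e.source, ∀ X a,
      0 ≤ Rc (chartG e) (e y) X a := by
    intro e he y hy X a
    by_cases hX : X = 0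
    · have h1 := LocalKahler.Rc_smul (G := chartG e) 0 1 (e y) X a
      rw [hX]
      simpa using h1.ge
    by_cases ha : a = 0
    · have h1 := LocalKahler.Rc_smul (G := chartG e) 1 0 (e y) X a
      rw [ha]
      simpa using h1.ge
    exact (Rc_pos_chartG hK he (e.map_source hy) (c.pos _) X a hX ha).le
  have hL : (0 : ℝ) < 6 / 5 := by norm_num
  refine ⟨Sup.contPsh_of_discW hc fun x => ?_, Sup.weakLevi_of_discW hK hc fun x hx => ?_⟩
  · obtain ⟨y, hy⟩ := hmax x
    exact Sup.discW_chain hK hnn hv hle hL hlip hy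
  · obtain ⟨y, hy⟩ := hmax x
    obtain ⟨e, he, hR, hcurv⟩ := hu x (ball_subset_closedBall hx)
    have h1 : dist x p < 1 / 4 := hx
    have h3 : 3 / 2 < dist y p := by
      by_contra h5
      have h6 := hz y (not_lt.1 h5)
      have h7 := hlip x y₀
      have h8 := dist_triangle_right x y₀ p
      linarith [hle y₀, dist_nonneg (x := x) (y := y), dist_nonneg (x := y₀) (y := p)]
    have h5 : ρ ≤ dist x y := by linarith [dist_triangle_left y p x]
    obtain ⟨x', h6, h7⟩ := exists_mid (approxMid_of_riemannian (Cm n) M) x y ρ hρ.le h5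
    have h8 := Sup.discW_chain hK hnn hv hle hL hlip (x := x') (y := y)
      (by have := hlip x x'; rw [h6] at this; rw [h7]; linarith)
    have h9 := Sup.discW_step hK he hR (by rw [h6]; linarith) (by rw [← dist_pos, h6]; exact hρ)
      hκ.le hcurv hL hlip (by have := hlip x' y; rw [h7] at this; rw [h6]; linarith [hle y]) h8
    rwa [h6] at h9

/-- the weights -/
theorem Gau.wt (c : Ctx n μ) (p : M) : ∃ κ : ℝ, 0 < κ ∧ ∀ R : ℝ, 2 ≤ R → ∃ W c : M → ℝ,
    Continuous c ∧ (∀ x, 0 < c x) ∧ (∀ x ∈ closedBall p (1 / 8), κ ≤ c x) ∧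
    WeakLevi (Cm n) W c univ ∧ (∀ x, |W x| ≤ 2 * dist x p) ∧
    ∀ x, W x ≤ 3 * (sInf (S n p R) * tw p R x) := by
  have := properSpace_riemannian (Cm n) M
  obtain ⟨κ, hκ, hs⟩ := sup2 c p
  obtain ⟨b, c, hb, hbd, hc, hc0, hbc⟩ := bus c p
  obtain ⟨x₀, -, hx₀⟩ := (isCompact_closedBall p (1 / 8)).exists_isMinOn
    ⟨p, mem_closedBall_self (by norm_num)⟩ hc.continuousOn
  refine ⟨min (c x₀) (κ / 4), lt_min (hc0 _) (by positivity), fun R hR => ?_⟩
  have hR0 : 0 < R := by linarith
  have hA : 2 ≤ sInf (S n p R) := le_inf (S_low hR)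
  obtain ⟨A', hv, hA'⟩ := exists_lt_of_csInf_lt (insert_nonempty R _) (lt_add_one (sInf (S n p R)))
  generalize sInf (S n p R) = A at *
  have ht : ∀ x, b x ≤ R * tw p R x := fun x => ((le_abs_self _).trans (hbd x)).trans
    ((div_le_iff₀' hR0).1 div_le_tw)
  rcases le_total R A' with hS | hS
  · refine ⟨b, c, hc, hc0, fun x hx => (min_le_left _ _).trans (hx₀ hx), hbc,
      fun x => by linarith [hbd x, dist_nonneg (x := x) (y := p)], fun x => (ht x).trans ?_⟩
    nlinarith [tw_pos (o := p) (x := x) (R := R)]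
  rcases hv with rfl | ⟨v, hv⟩
  · refine ⟨b, c, hc, hc0, fun x hx => (min_le_left _ _).trans (hx₀ hx), hbc,
      fun x => by linarith [hbd x, dist_nonneg (x := x) (y := p)], fun x => (ht x).trans ?_⟩
    nlinarith [tw_pos (o := p) (x := x) (R := A')]
  have hn := hv.near (by linarith) hS
  have hl : ∀ x, v x ≤ A' + dist x p := fun x => by
    simpa [tw_eq (o := p) (x := p) hR0 (by simpa using hR0.le), dist_comm] using hn p x
  obtain ⟨s1, s2⟩ := hs v A' hv.psh hv.zero hv.nonneg hv.big hl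
  have hRi : 0 < R⁻¹ := inv_pos.2 hR0
  have hRi2 : R⁻¹ ≤ 1 / 2 := by
    rw [one_div]
    exact inv_anti₀ two_pos hR
  let W : M → ℝ := fun x => sc v x + R⁻¹ * b x + -sc v p
  let c' : M → ℝ := fun x => max (R⁻¹ * c x) (κ * (1 - 4 * dist x p)) / 2
  have hc' : Continuous c' := by fun_prop
  have w1 : WeakLevi (Cm n) W (fun _ => κ) (ball p (1 / 4)) :=
    (s2.add_psh ((hb.subS univ).const_mul hRi.le).contPsh).add_const _
  have w2 : WeakLevi (Cm n) W (fun x => R⁻¹ * c x) univ := by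
    have := ((hbc.const_mul hRi).add_psh s1).add_const (-sc v p)
    simpa only [add_comm (R⁻¹ * b _)] using this
  have hp0 : 0 ≤ sc v p := (hv.nonneg p).trans (by simpa [sc] using le_ciSup (Sup.bdd hl p) p)
  refine ⟨W, c', hc', fun x => ?_, fun x hx => ?_,
    weakLevi_of_tangent w1.1 fun y _ => ?_, fun x => ?_, fun x => ?_⟩
  · exact half_pos (lt_max_of_lt_left (mul_pos hRi (hc0 x)))
  · refine (min_le_right _ _).trans ?_
    have h4 := le_max_right (R⁻¹ * c x) (κ * (1 - 4 * dist x p))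
    have h5 := mem_closedBall.1 hx
    simp only [c']
    nlinarith
  · have h4 := mul_pos hRi (hc0 y)
    rcases le_total (κ * (1 - 4 * dist y p)) (R⁻¹ * c y) with h5 | h5
    · refine ⟨{x | c' x < R⁻¹ * c x}, isOpen_lt hc' (by fun_prop), ?_, W, rfl, fun _ _ => le_rfl,
        w2.mono (subset_univ _) fun x hx => le_of_lt hx⟩
      simp only [mem_ofPred_eq, c', max_eq_left h5]
      linarith
    · refine ⟨ball p (1 / 4) ∩ {x | c' x < κ}, isOpen_ball.inter (isOpen_lt hc' continuous_const),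
        ⟨mem_ball.2 ?_, ?_⟩, W, rfl, fun _ _ => le_rfl,
        w1.mono inter_subset_left fun x hx => le_of_lt hx.2⟩
      · linarith [(mul_pos_iff_of_pos_left hκ).1 (h4.trans_le h5)]
      · simp only [mem_ofPred_eq, c', max_eq_right h5]
        nlinarith [dist_nonneg (x := y) (y := p)]
  · have h4 : sc v p ≤ sc v x + 6 / 5 * dist x p := Sup.lip hl x p
    have h5 : sc v x ≤ sc v p + 6 / 5 * dist p x := Sup.lip hl p x
    have h6 := abs_le.1 (hbd x)
    have h7 := dist_nonneg (x := x) (y := p)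
    rw [dist_comm] at h5
    simp only [W]
    rw [abs_le]
    constructor <;> nlinarith [h6.1, h6.2]
  · have : Nonempty M := ⟨p⟩
    have h4 : sc v x ≤ A' * tw p R x :=
      ciSup_le fun y => by linarith [hn x y, dist_nonneg (x := x) (y := y)]
    have h5 : R⁻¹ * b x ≤ tw p R x := (inv_mul_le_iff₀ hR0).2 (ht x)
    have h6 := tw_pos (o := p) (x := x) (R := R)
    simp only [W]
    nlinarith

/-- **Row GAU.** -/
theorem gau (c : Ctx n μ) (o : M) : Nonempty (Gauge n o) := by
  have h2 : ∀ R : ℝ, 2 ≤ max R 2 := fun R => le_max_right _ _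
  have hA : ∀ R : ℝ, 2 ≤ sInf (S n o (max R 2)) := fun R => le_inf (S_low (h2 R))
  refine ⟨
    { A := fun R => sInf (S n o (max R 2))
      one_le := fun R => one_le_two.trans (hA R)
      mono := fun R R' h => inf_mono (h2 R) (max_le_max h le_rfl)
      flat := fun R h => by rw [max_eq_right h, max_self]
      le := fun R => inf_le (h2 R) (mem_insert _ _)
      ratio := fun R R' h0 h => (inf_ratio (h2 R) (max_le_max h le_rfl)).trans ?_
      log_le := ⟨8, by norm_num, fun R hR => ?_⟩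
      dom := ⟨4, by norm_num, fun R w l hR h3 h4 h5 hl h6 x => ?_⟩
      wt := ?_ }⟩
  · refine mul_le_mul_of_nonneg_left ?_ (by linarith [hA R])
    rw [div_le_div_iff₀ (by linarith [h2 R]) h0]
    rcases le_total R' 2 with h3 | h3
    · rw [max_eq_right h3, max_eq_right (h.trans h3)]
      linarith
    · rw [max_eq_left h3]
      exact mul_le_mul_of_nonneg_left (le_max_left _ _) (by linarith)
  · have h3 : Real.log (max R 2) / 4 ≤ sInf (S n o (max R 2)) :=
      le_inf fun B hB => by linarith [log_le (tc c) (h2 R) hB]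
    have h4 : Real.log (1 + R) ≤ Real.log (max R 2 ^ 2) :=
      Real.log_le_log (by linarith) (by nlinarith [h2 R, le_max_left R 2])
    rw [Real.log_pow] at h4
    push_cast at h4
    linarith
  · by_contra h7
    have h8 := hA R
    have hl' : 0 < (2 * l)⁻¹ := by positivity
    simp only [max_eq_left hR] at h6 h8
    have : Cp n o R (sInf (S n o R) / 2) fun y => (2 * l)⁻¹ * w y :=
      ⟨((h3.subS univ).const_mul hl'.le).contPsh, fun y => mul_nonneg hl'.le (h4 y),
        fun y hy => by rw [h5 y hy, mul_zero], ⟨x, by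
          rw [le_inv_mul_iff₀ (by positivity)]
          linarith⟩, fun y => by
          rw [inv_mul_le_iff₀ (by positivity)]
          linarith [h6 y]⟩
    linarith [inf_le hR (Or.inr ⟨_, this⟩)]
  · obtain ⟨κ, hκ, h⟩ := wt c o
    exact ⟨κ, hκ, fun R hR => by simpa only [max_eq_left hR] using h R hR⟩

end Vale.Agent.P253W.T
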