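import Vale.Agent.P253W.T.Basic
import Vale.Agent.P253Z.Main
import Vale.Agent.P253Z.T2.WR
import Vale.Agent.P253Z.T2.LSE.Good
import Vale.Agent.P253.R2.H451.Hull4

/-!
# P253W, block T, row GB: gradients
-/

open scoped Manifold ContDiff Bundle ENNReal Topology ComplexConjugate ComplexOrder Matrix
open Bundle IsManifold MeasureTheory Set Metric Filter Vale.Agent.P253.Mfd Vale.Agent.P253Z
open Vale.Agent.P272.K (Cm dz dzb cHess jacM Chart)
open Vale.Agent.P253.R2.H451 (ContPsh)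
open Vale.Agent.P253Z.T2

set_option linter.unusedSectionVars false

noncomputable section

namespace Vale.Agent.P253W.T

namespace Gb

variable {n : ℕ} {H : Mx n} {θ : Cm n}

theorem mul_inv (hH : H.PosDef) (θ : Cm n) : H *ᵥ (H⁻¹ *ᵥ θ) = θ := by
  rw [Matrix.mulVec_mulVec, Matrix.mul_nonsing_inv _ hH.det_pos.ne'.isUnit, Matrix.one_mulVec]

theorem hq_le (hH : H.PosDef) {L : ℝ} (hL : 0 ≤ L) (h : ∀ u : Cm n,
    ‖∑ j, u j * θ j‖ ^ 2 ≤ L * (∑ j, ∑ k, H j k * (u j * conj (u k))).re) : hq H θ ≤ L := by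
  have h1 := h (star (H⁻¹ *ᵥ θ))
  rw [← MC.dot_eq, mul_inv hH, Matrix.star_dotProduct] at h1
  have e3 : ∑ j, star (H⁻¹ *ᵥ θ) j * θ j = star (star θ ⬝ᵥ (H⁻¹ *ᵥ θ)) := by
    simp [dotProduct, mul_comm]
  rw [e3, norm_star] at h1
  rw [hq]
  generalize star θ ⬝ᵥ (H⁻¹ *ᵥ θ) = q at h1
  have h2 : q.re ^ 2 ≤ L * q.re := by
    refine le_trans ?_ (h1.trans_eq (by simp))
    rw [← sq_abs]
    exact pow_le_pow_left₀ (abs_nonneg _) (Complex.abs_re_le_norm q) 2
  by_contra h3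
  nlinarith

/-- the inequality of Cauchy and Schwarz -/
theorem cs (hH : H.PosDef) (θ u : Cm n) :
    ‖∑ j, u j * θ j‖ ^ 2 ≤ hq H θ * (∑ j, ∑ k, H j k * (u j * conj (u k))).re := by
  rcases eq_or_ne θ 0 with rfl | h0
  · simp [hq]
  have q0 := Complex.pos_iff.1 (hH.inv.dotProduct_mulVec_pos h0)
  obtain ⟨x, rfl⟩ : ∃ x, u = star x := ⟨star u, (star_star u).symm⟩
  rw [← MC.dot_eq]
  change ‖star x ⬝ᵥ θ‖ ^ 2 ≤ _
  have e0 : star θ ⬝ᵥ (H⁻¹ *ᵥ θ) = (hq H θ : ℂ) := Complex.ext rfl (by simpa using q0.2.symm)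
  have e1 : star (H⁻¹ *ᵥ θ) ⬝ᵥ (H *ᵥ x) = conj (star x ⬝ᵥ θ) := by
    rw [Matrix.dotProduct_mulVec, ← hH.isHermitian.eq, ← Matrix.star_mulVec,
      hH.isHermitian.eq, mul_inv hH, Matrix.star_dotProduct]
    rfl
  have e2 : star (H⁻¹ *ᵥ θ) ⬝ᵥ θ = (hq H θ : ℂ) := by
    rw [Matrix.star_dotProduct, e0]
    exact Complex.conj_ofReal _
  have h1 := (Complex.nonneg_iff.1 (hH.posSemidef.dotProduct_mulVec_nonneg
    ((hq H θ : ℂ) • x - conj (star x ⬝ᵥ θ) • (H⁻¹ *ᵥ θ)))).1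
  have q1 : 0 < hq H θ := q0.1
  simp only [star_sub, star_smul, Matrix.mulVec_sub, Matrix.mulVec_smul, sub_dotProduct,
    dotProduct_sub, smul_dotProduct, dotProduct_smul, mul_inv hH, e1, e2, smul_eq_mul,
    RCLike.star_def, Complex.conj_ofReal, Complex.conj_conj] at h1
  rw [Complex.sq_norm, Complex.normSq_apply]
  generalize star x ⬝ᵥ θ = s at h1 ⊢
  generalize star x ⬝ᵥ (H *ᵥ x) = t at h1 ⊢
  generalize hq H θ = q at h1 q1 ⊢
  simp only [Complex.sub_re, Complex.mul_re, Complex.ofReal_re, Complex.ofReal_im, Complex.sub_im,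
    Complex.mul_im, Complex.conj_re, Complex.conj_im] at h1
  by_contra h2
  nlinarith [mul_pos q1 (sub_pos.2 (not_le.1 h2))]

end Gb

open Gb

variable {n : ℕ} {M : Type} [MetricSpace M] [ChartedSpace (Cm n) M]
  [IsManifold 𝓘(ℂ, Cm n) 1 M] [IsManifold 𝓘(ℝ, Cm n) ∞ M]
  [RiemannianBundle (fun x : M => TangentSpace 𝓘(ℝ, Cm n) x)]
  [IsContMDiffRiemannianBundle 𝓘(ℝ, Cm n) ∞ (Cm n) (fun x : M => TangentSpace 𝓘(ℝ, Cm n) x)]
  [IsRiemannianManifold 𝓘(ℝ, Cm n) M] [CompleteSpace M] [ConnectedSpace M] [NoncompactSpace M]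
  [MeasurableSpace M] [BorelSpace M] {μ : Measure M} {f : M → ℂ}

theorem Gb.fd (hf : IsSec n 0 f) {e : Chart n M} (he : Hc e) {z : Cm n} (hz : z ∈ e.target)
    (v : Cm n) : fderiv ℂ (fun w => f (e.symm w)) z v = ∑ j, v j * dv f e z j := by
  rw [Wro.lin_eq]
  simp only [dv, P272.K.dz_of_holo (sec0.1 hf e he z hz).differentiableAt]

/-- the two norms of the differential agree -/
theorem Gb.S_sq (c : Ctx n μ) (hf : IsSec n 0 f) (x : M) :
    Sch.S (Cm n) f x ^ 2 = gr n f x := by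
  have : Nonempty (Fin n) := ⟨⟨0, c.npos⟩⟩
  have a := (all c).a
  have b := (all c).b
  have he := a.chart x
  have hz := mem_chart_target (Cm n) x
  have hp := (localKahler_chartG c.kahler he).pos _ hz
  refine le_antisymm ?_ (hq_le (b.wpos _ he _ hz) (sq_nonneg _) fun u => ?_)
  · obtain ⟨v, h1, h2⟩ := P253.R2.H451.exists_max
      (T := P253.R2.H451.dF f (chartAt (Cm n) x) (chartAt (Cm n) x x)) (Sch.homQ ℂ) hp
    have h3 := cs (b.wpos _ he _ hz) (dx n f x) (v 0)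
    rw [← b.quad _ he _ hz, ← chartG_apply, h1, mul_one] at h3
    refine le_trans (le_of_eq ?_) h3
    exact congrArg (· ^ 2) (h2.symm.trans (congrArg norm (fd hf he hz _)))
  · have h2 := P253.R2.H451.norm_le_Sq
      (T := P253.R2.H451.dF f (chartAt (Cm n) x) (chartAt (Cm n) x x)) (Sch.homQ ℂ) hp fun _ => u
    rw [Fin.prod_univ_one, chartG_apply, b.quad _ he _ hz] at h2
    have g2 := (MC.psd (b.wpos _ he _ hz).isHermitian).1 (b.wpos _ he _ hz).posSemidef u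
    rw [← Real.sq_sqrt g2, ← mul_pow]
    exact pow_le_pow_left₀ (norm_nonneg _) ((congrArg norm (fd hf he hz u)).ge.trans h2) 2

theorem Gb.sm (b : B1b n M) (d : DJ n M) (hf : IsSec n 0 f) : Sm n (gr n f) := fun e he z hz => by
  have h1 : ∀ j, ContDiffAt ℝ ∞ (fun y => dv f e y j) z := fun j =>
    P272.K.C2.contDiffAt_dz j ((sec0.1 hf e he z hz).contDiffAt.restrict_scalars ℝ) le_rfl
  have h2 := P272.K.C2.MC.inv (b.wsm e he z hz) (b.wpos e he z hz).det_pos.ne'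
  have h3 : ContDiffAt ℝ ∞ (fun y => hq (hm e y) (dv f e y)) z :=
    Complex.reCLM.contDiff.contDiffAt.comp z (ContDiffAt.sum fun j _ =>
      (P272.K.C2.contDiffAt_conj (h1 j)).mul
        (ContDiffAt.sum (s := Finset.univ) fun k _ => (h2 j k).mul (h1 k)))
  refine h3.congr_of_eventuallyEq ?_
  filter_upwards [e.open_target.mem_nhds hz] with y hy using d.gr f hf e he y hy

/-- plurisubharmonic functions in a chart -/
theorem Gb.psh_chart {u : M → ℝ} (h : ContPsh (Cm n) u) {e : Chart n M} (he : Hc e) :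
    P284Z.Psh (fun z => u (e.symm z)) e.target := by
  refine ⟨(h.1.comp_continuousOn e.continuousOn_symm).upperSemicontinuousOn, fun z w hw => ?_⟩
  have h1 : MapsTo (fun ζ : ℂ => z + ζ • w) (closedBall 0 1) e.target := fun ζ hζ =>
    hw ζ (mem_closedBall_zero_iff.1 hζ)
  have h2 := h.2 (fun ζ => e.symm (z + ζ • w)) 0 1 one_pos
    (e.continuousOn_symm.comp (by fun_prop) h1) fun ζ hζ => ?_
  · simpa using h2
  · have h3 : MDifferentiableAt 𝓘(ℂ, Cm n) 𝓘(ℂ, Cm n) e.symm (z + ζ • w) :=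
      ((contMDiffOn_symm_of_mem_maximalAtlas he).contMDiffAt
        (e.open_target.mem_nhds (h1 (ball_subset_closedBall hζ)))).mdifferentiableAt (by simp)
    have h4 : DifferentiableAt ℂ (fun ζ : ℂ => z + ζ • w) ζ := by fun_prop
    exact (h3.comp ζ h4.mdifferentiableAt).mdifferentiableWithinAt

theorem Gb.good (c : Ctx n μ) (d : DJ n M) (hf : IsSec n 0 f) {e : Chart n M} (he : Hc e) :
    Good (fun z => gr n f (e.symm z)) e.target := by
  have : Nonempty (Fin n) := ⟨⟨0, c.npos⟩⟩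
  have h1 : P284Z.LPsh (fun z => Sch.S (Cm n) f (e.symm z)) e.target :=
    ⟨fun _ _ => Sch.S_nonneg c.kahler _, fun T => psh_chart (P253.R2.H451.contPsh_Sn c.kahler
      (fun x => Sch.nonneg (c.pos x)) (Sch.homQ ℂ) (((all c).a.sec_zero f).1 hf)
      (Real.exp_pos _)) he⟩
  exact ⟨(h1.pow 2).congr fun z _ => (S_sq c hf _).symm, sm (all c).b d hf e he⟩

/-- **Row GB.** -/
theorem gb (c : Ctx n μ) (d : DJ n M) : GB n M := by
  have a := (all c).a
  have b := (all c).b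
  refine ⟨⟨81, by norm_num, fun f x B hf h => ?_⟩, fun _ => sm b d, fun L f δ hf hδ => ?_⟩
  · have he := a.chart x
    have hz := mem_chart_target (Cm n) x
    refine hq_le (b.wpos _ he _ hz) (by positivity) fun u => ?_
    have h1 := Wro.grad_le c a b hf h he (mem_chart_source _ x) u
    have g2 := (MC.psd (b.wpos _ he _ hz).isHermitian).1 (b.wpos _ he _ hz).posSemidef u
    rw [← Real.sq_sqrt g2, show 81 * B ^ 2 = (9 * B) ^ 2 by ring, ← mul_pow]
    exact pow_le_pow_left₀ (norm_nonneg _) ((congrArg norm (fd hf he hz u)).ge.trans h1) 2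
  · have h1 : ∀ e : Chart n M, Hc e →
        Good (fun z => δ + ∑ i, gr n (f i) (e.symm z)) e.target := fun e he =>
      (good_const hδ.le _).add (good_sum _ fun i _ => good c d (hf i) he)
    have h2 : ∀ x, 0 < δ + ∑ i, gr n (f i) x := fun x =>
      add_pos_of_pos_of_nonneg hδ (Finset.sum_nonneg fun i _ => d.gr_nonneg _ _)
    exact ⟨fun e he z hz => ((h1 e he).2 z hz).log (h2 _).ne', fun e he z hz =>
      (h1 e he).psd e.open_target hz (h2 _)⟩

end Vale.Agent.P253W.T
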