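import Vale.Agent.P253W.T.Basic
import Vale.Agent.P253Y.T3.Main

/-!
# P253W, block T, row JETS: consequences of the peak sections
-/

open scoped Manifold ContDiff Bundle ENNReal Topology ComplexConjugate ComplexOrder
open Bundle IsManifold MeasureTheory Set Metric Filter Vale.Agent.P253.Mfd Vale.Agent.P253Z
open Vale.Agent.P272.K (Cm dz dzb cHess jacM Chart)
open Vale.Agent.P253Z.T2 (Pz Phi)

set_option linter.unusedSectionVars false

noncomputable section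

namespace Vale.Agent.P253W.T

section

variable {n : ℕ} {M : Type} [MetricSpace M] [ChartedSpace (Cm n) M]
  [RiemannianBundle (fun x : M => TangentSpace 𝓘(ℝ, Cm n) x)] {o : M} {G : Gauge n o}

theorem hs_of (h : G.JETS) : HS n M :=
  ⟨fun x => (h.1 x).imp fun _ h => ⟨fun i => (h.1 i).sec, h.2⟩,
    fun x y hxy => (h.2 x y hxy).imp fun _ h => ⟨h.1.sec, h.2⟩⟩

omit [MetricSpace M] [ChartedSpace (Cm n) M]
  [RiemannianBundle (fun x : M => TangentSpace 𝓘(ℝ, Cm n) x)] in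
theorem phi_mul {s₀ u : M → ℂ} {s : Fin n → M → ℂ} {x : M} (h : u x ≠ 0) :
    Phi (fun y => s₀ y * u y) (fun i y => s i y * u y) x = Phi s₀ s x :=
  funext fun _ => mul_div_mul_right _ _ h

end

variable {n : ℕ} {M : Type} [MetricSpace M] [ChartedSpace (Cm n) M]
  [IsManifold 𝓘(ℂ, Cm n) 1 M] [IsManifold 𝓘(ℝ, Cm n) ∞ M]
  [RiemannianBundle (fun x : M => TangentSpace 𝓘(ℝ, Cm n) x)]
  [IsContMDiffRiemannianBundle 𝓘(ℝ, Cm n) ∞ (Cm n) (fun x : M => TangentSpace 𝓘(ℝ, Cm n) x)]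
  [IsRiemannianManifold 𝓘(ℝ, Cm n) M] [CompleteSpace M] [ConnectedSpace M] [NoncompactSpace M]
  [MeasurableSpace M] [BorelSpace M] {μ : Measure M} {o : M} {G : Gauge n o} {Ω : M → ℂ}

/-- **Row JETS.** -/
theorem jets (c : Ctx n μ) (d : DJ n M) (hO : G.Triv Ω) (h : G.INH μ Ω) : G.JETS := by
  have A := all c
  refine ⟨fun x => ?_, fun x y hxy => ?_⟩
  · obtain ⟨e, he, hx, m, -, s₀, s, h₀, hs, h1, h2⟩ := A.pk3 x
    have g0 := (h m s₀ h₀).1
    have hz : ∀ i, G.Mem fun y => s i y * Ω y ^ m - s i x / s₀ x * (s₀ y * Ω y ^ m) := fun i =>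
      (h m _ (hs i)).1.sub ((Gauge.mem_const _).mul g0)
    refine ⟨_, hz, ?_⟩
    have hw := e.map_source hx
    have h3 := (d.fd _ (fun i => (hz i).sec) e he _ hw).2
    rw [e.left_inv hx] at h3
    refine h3 ?_
    have f1 := (sec0.1 g0.sec e he _ hw).differentiableAt.hasFDerivAt
    have f2 := (VS.Phi_an A.a h₀.1 (fun i => (hs i).1) he hx h1).differentiableAt.hasFDerivAt
    have f3 := f1.smul (f2.sub_const (Phi s₀ s x))
    have f4 : (fun i => s i (e.symm (e x)) / s₀ (e.symm (e x))) - Phi s₀ s x = 0 := by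
      rw [e.left_inv hx]
      exact sub_self _
    rw [f4, ContinuousLinearMap.smulRight_zero, add_zero, e.left_inv hx] at f3
    have f5 : ∀ᶠ w in 𝓝 (e x), s₀ (e.symm w) ≠ 0 := (e.tendsto_symm hx).eventually
      ((T2.et A.a).cont _ _ _ h₀.1 h₀.1 x h1).2
    rw [(f3.congr_of_eventuallyEq (f5.mono fun w hw => funext fun i => by
      simp only [mp, Pi.smul_apply', Pi.smul_apply, Pi.sub_apply, Phi, smul_eq_mul]
      field_simp)).fderiv]
    exact (MulAction.bijective (Units.mk0 _ (mul_ne_zero h1 (pow_ne_zero m (hO.ne x))))).comp h2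
  · obtain ⟨m, -, a, b, ha, -, h1, h2, -⟩ := A.pk2 x y hxy
    refine ⟨_, (h m a ha).1, ?_⟩
    rw [h1, zero_mul]
    exact (mul_ne_zero h2 (pow_ne_zero _ (hO.ne y))).symm

theorem l2r (c : Ctx n μ) (hO : G.Triv Ω) (h : G.INH μ Ω) (r : G.REL) : G.L2R μ Ω := by
  have A := all c
  obtain ⟨e, he, hx, m, hm, s₀, s, h₀, hs, h1, h2⟩ := A.pk3 o
  have hp : ∀ x, Ω x ^ m ≠ 0 := fun x => pow_ne_zero _ (hO.ne x)
  obtain ⟨V, ρ, j, -, -, hρ, -, j1, j2⟩ := (T2.et A.a).inv m s₀ s h₀.1 (fun i => (hs i).1) o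
    ((T2.et A.a).of_chart m s₀ s h₀.1 (fun i => (hs i).1) o e he hx h1 h2)
  refine ⟨m, _, _, hm, (h m s₀ h₀).1, fun h3 => mul_ne_zero h1 (hp o) (congrFun h3 o),
    fun i => (h m _ (hs i)).1, by simpa only [(h m s₀ h₀).2] using h₀.2,
    fun i => by simpa only [(h m _ (hs i)).2] using (hs i).2, fun a ha => ?_⟩
  obtain ⟨R, R0, hR⟩ := r _ a (fun _ => 1) _ (h m s₀ h₀).1 (fun i => (h m _ (hs i)).1) ha
    (Gauge.mem_const 1)
  obtain ⟨z, hz, hz'⟩ := T2.exists_ne (Polynomial.leadingCoeff_ne_zero.2 R0) (Phi s₀ s o) hρ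
  refine ⟨R, R0, ⟨j z, mul_ne_zero (j2 _ (j1 z hz).1).1.1 (hp _), ?_⟩, fun x hx => ?_⟩
  · rwa [phi_mul (u := fun x => Ω x ^ m) (hp _), (j1 z hz).2]
  · simpa using hR x hx one_ne_zero

theorem unia (c : Ctx n μ) (hO : G.Triv Ω) (h : G.INH μ Ω) (r : G.REL) : G.UNIA μ := by
  intro Φ hΦ
  have A := all c
  obtain ⟨F⟩ := A.fr o
  obtain ⟨D⟩ := T2.aff c o F
  have : Nonempty M := ⟨o⟩
  obtain ⟨K, _, _, ⟨ff⟩⟩ := T2.ffe A.a F.Tame (fun _ _ hs => hs.1) (T2.gr_tame A.a F)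
  have hp : ∀ x, Ω x ^ D.m ≠ 0 := fun x => pow_ne_zero _ (hO.ne x)
  refine ⟨o, F, Φ, fun i => ?_⟩
  obtain ⟨R, R0, hR⟩ := r _ _ (fun _ => 1) _ (h _ _ D.h₀).1 (fun i => (h _ _ (D.hs i)).1) (hΦ i)
    (Gauge.mem_const 1)
  obtain ⟨φ, hφ⟩ := P253Y.T3.ratAll c o F D K ff _ R (hΦ i).sec R0 fun x hx => by
    have := hR x (mul_ne_zero hx (hp x)) one_ne_zero
    rwa [phi_mul (u := fun x => Ω x ^ D.m) (hp x), div_one] at this
  obtain ⟨k, a, ha, b, hb, h1, h2⟩ := ff.surj φ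
  exact ⟨k, a, ha, b, hb, h1, fun q hq => (hφ q).2.symm.trans (h2 q hq).2⟩

end Vale.Agent.P253W.T
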