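import Vale.Agent.P253W.T.Basic
import Vale.Agent.P253Z.Main
import Vale.Agent.P299.H720.Montel

/-!
# P253W, block T, row KH: a tame multiple of `dz / Ω`
-/

open scoped Manifold ContDiff Bundle ENNReal Topology ComplexConjugate ComplexOrder
open Bundle IsManifold MeasureTheory Set Metric Filter Vale.Agent.P253.Mfd Vale.Agent.P253Z
open Vale.Agent.P272.K (Cm dz dzb cHess jacM Chart)

noncomputable section

namespace Vale.Agent.P253W.T

namespace Kh

variable {n : ℕ} {M : Type} [MetricSpace M] [ChartedSpace (Cm n) M]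

/-- the theorem of Montel with eventual bounds -/
theorem lim_ev (a : B1a n M) (p : M) (f : ℕ → M → ℂ) (U : Ultrafilter ℕ)
    (hf : ∀ᶠ ν in U, IsSec n 0 (f ν))
    (hb : ∀ r : ℝ, ∃ C : ℝ, ∀ᶠ ν in U, ∀ x ∈ closedBall p r, ‖f ν x‖ ≤ C) :
    ∃ g, IsSec n 0 g ∧ TendstoLocallyUniformly f g U := by
  have h1 : ∀ x : M, P299.H720.LocBdd (U : Filter ℕ) (fun ν z => f ν ((chartAt (Cm n) x).symm z))
      (chartAt (Cm n) x).target := fun x z hz => by
    set e := chartAt (Cm n) x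
    obtain ⟨C, hC⟩ := hb (dist (e.symm z) p + 1)
    obtain ⟨r, hr, h⟩ := Metric.eventually_nhds_iff_ball.1
      ((e.open_target.eventually_mem hz).and
        ((e.continuousAt_symm hz).eventually_mem (ball_mem_nhds _ one_pos)))
    refine ⟨r, hr, C, (hf.and hC).mono fun ν hν => ⟨fun y hy => ?_, fun y hy => hν.2 _ ?_⟩⟩
    · exact (sec0.1 hν.1 e (a.chart x) y (h y hy).1).differentiableAt.differentiableWithinAt
    · rw [mem_closedBall]
      linarith [dist_triangle (e.symm y) (e.symm z) p, mem_ball.1 (h y hy).2]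
  choose G g1 g2 g3 using fun x : M =>
    P299.H720.montel_full U (chartAt (Cm n) x).open_target (h1 x)
  have e1 : ∀ x : M, ∀ z ∈ (chartAt (Cm n) x).target,
      G x z = limUnder (U : Filter ℕ) fun ν => f ν ((chartAt (Cm n) x).symm z) := fun x z hz =>
    (g3 x z hz _ tendsto_const_nhds).limUnder_eq.symm
  refine ⟨fun y => limUnder (U : Filter ℕ) fun ν => f ν y, a.sec_loc _ _ fun x =>
    ⟨_, a.chart x, mem_chart_source _ x, ?_⟩, ?_⟩
  · rw [co0]
    exact (P268.analyticAt_of_differentiableOn (chartAt (Cm n) x).open_target (g1 x)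
      (mem_chart_target _ x)).congr
      (((chartAt (Cm n) x).open_target.eventually_mem (mem_chart_target _ x)).mono (e1 x))
  · rw [← tendstoLocallyUniformlyOn_univ, ← iUnion_source_chartAt (Cm n) M]
    refine tendstoLocallyUniformlyOn_iUnion (fun x => (chartAt (Cm n) x).open_source) fun x => ?_
    refine (((g2 x).comp (chartAt (Cm n) x) (chartAt (Cm n) x).mapsTo
      (chartAt (Cm n) x).continuousOn).congr fun ν y hy => ?_).congr_right fun y hy => ?_
    · exact congrArg (f ν) ((chartAt (Cm n) x).left_inv hy)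
    · rw [Function.comp, e1 x _ ((chartAt (Cm n) x).map_source hy), (chartAt (Cm n) x).left_inv hy]

omit [ChartedSpace (Cm n) M] in
theorem hs_zero (e : Chart n M) (z : Cm n) : hs (fun _ : M => (0 : ℝ)) e z = 0 := by
  simpa [hs] using FRa.cHess_smul 0 (fun _ => 0) z

theorem spsh_zero : SPsh n fun _ : M => (0 : ℝ) :=
  ⟨fun _ _ _ _ => contDiffAt_const, fun e _ z _ => hs_zero e z ▸ Matrix.PosSemidef.zero⟩

variable [RiemannianBundle (fun x : M => TangentSpace 𝓘(ℝ, Cm n) x)]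

theorem nrm_mul (a : B1a n M) (b : B1b n M) (s η : M → ℂ) (x : M) :
    ‖s x * η x‖ ^ 2 = nrm n (-1) s x * nrm n 1 η x := by
  have := (vd_pos a b x).ne'
  simp only [nrm, norm_mul, neg_neg, zpow_one, zpow_neg]
  field_simp

theorem lg_cont (a : B1a n M) (l : LSP n M) {Ω : M → ℂ} (h : IsSec n 1 Ω) (h' : ∀ x, Ω x ≠ 0) :
    Continuous (lg n Ω) := a.sm_cont _ (l.triv Ω h h').1.1

variable [MeasurableSpace M] {μ : Measure M}

/-- sections of `-K` with `L²` bounds -/
theorem secs (a : B1a n M) (b : B1b n M) (r : B2 n M) (hj : HJ n μ) (d : DJ n M) (l : LSP n M)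
    {z : Fin n → M → ℂ} {τ : ℕ → M → ℝ} {ε : ℕ → ℝ} {U : Filter ℕ} {σ L : M → ℝ} {o : M}
    (hz : ∀ i, IsSec n 0 (z i)) (hz' : jac z ≠ 0) (hτ : Alm n τ ε) (hσ : Continuous σ)
    (hU : ∀ ρ : ℝ, TendstoUniformlyOn τ σ U (closedBall o ρ)) (hL : SPsh n L)
    (hS : ∀ e : Chart n M, Hc e → ∀ w ∈ e.target, jac z (e.symm w) ≠ 0 → (hs L e w).PosDef) :
    ∃ (q C : ℝ) (p : M) (J : ℂ) (s : ℕ → M → ℂ), 0 ≤ q ∧ 0 < C ∧ ∀ᶠ ν in U, IsSec n (-1) (s ν) ∧
      L2 n μ (-1) (fun x => τ ν x + q * L x) (s ν) ≤ ENNReal.ofReal C ∧ 1 / 2 ≤ ‖J * s ν p‖ := by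
  obtain ⟨Λ, hΛ, hJ⟩ := hj
  obtain ⟨p, hp⟩ := Function.ne_iff.1 hz'
  obtain ⟨e₀, -, hp0, he₀⟩ := d.chart z hz p hp
  obtain ⟨ρ, hρ, hb⟩ := Metric.isOpen_iff.1 e₀.open_source p hp0
  obtain ⟨e, he, -, -, hsub, hnear⟩ := FRa.exists_chart a p hρ
  obtain ⟨l₀, hl, hlow⟩ := FRa.unif (isCompact_closedBall (0 : Cm n) 2) (H := hs L e)
    (fun j k w hw => (P272.K.C2.contDiffAt_cHess (m := 0) (hL.1 e he w (hsub hw)) (by norm_cast)
      j k).continuousAt.continuousWithinAt)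
    (fun w hw => hS e he w (hsub hw) (he₀ _ (hb (hnear w hw))).2)
  have hq : 0 < Λ / l₀ := div_pos hΛ hl
  obtain ⟨B, hB⟩ := (isCompact_closedBall (0 : Cm n) 2).exists_bound_of_continuousOn
    (f := wt (-1) (fun x => σ x + Λ / l₀ * L x) e) fun w hw => by
      refine ContinuousAt.continuousWithinAt ?_
      exact (continuousAt_const.mul ((b.vd_sm e he w (hsub hw)).continuousAt.log
        (b.vd_pos e he w (hsub hw)).ne')).add ((hσ.add (continuous_const.mul
        (a.sm_cont _ hL.1))).continuousAt.comp (e.continuousAt_symm (hsub hw)))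
  obtain ⟨C, δ, hC, hδ, -, hS⟩ := hJ 1 (B + 1) (1 / 2) (by norm_num)
  have key : ∀ ν, ∃ s : M → ℂ, (∀ x ∈ closedBall o (dist p o + ρ), dist (σ x) (τ ν x) < 1) →
      IsSec n (-1) s ∧ L2 n μ (-1) (fun x => τ ν x + Λ / l₀ * L x) s ≤ ENNReal.ofReal C ∧
        1 / 2 ≤ ‖co (-1) s e 0‖ := by
    intro ν
    by_cases h : ∀ x ∈ closedBall o (dist p o + ρ), dist (σ x) (τ ν x) < 1
    swap
    · exact ⟨0, fun h' => absurd h' h⟩
    obtain ⟨h1, h2⟩ := l.lin (τ ν) L 1 (Λ / l₀) 0 (hτ.sm ν) hL.1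
    simp only [one_mul, add_zero, Complex.ofReal_one, one_smul] at h1 h2
    have h3 : ∀ e' : Chart n M, Hc e' → ∀ w ∈ e'.target,
        th (-1) (fun x => τ ν x + Λ / l₀ * L x) e' w =
          ric e' w + (ric e' w + hs (τ ν) e' w) + ((Λ / l₀ : ℝ) : ℂ) • hs L e' w := by
      intro e' he' w hw
      rw [b.th_eq _ _ h1 e' he' w hw]
      refine (congrArg _ (h2 e' he' w hw)).trans ?_
      push_cast
      module
    refine (hS (-1) _ h1 (fun e' he' w hw => ?_) (fun _ => e) (fun _ _ => 1) (fun _ _ => 1)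
      (fun _ => he) (fun _ => hsub) (fun i j hij => absurd (Subsingleton.elim i j) hij)
      (fun _ w hw => ⟨?_, analyticAt_const, analyticAt_const, one_ne_zero, by simp, ?_⟩)).imp
      fun s ⟨h4, h5, h6⟩ _ => ⟨h4, h5, ?_⟩
    · rw [h3 e' he' w hw]
      exact ((r e' he' w hw).posSemidef.add (hτ.lo ν e' he' w hw)).add
        ((hL.2 e' he' w hw).smul (Complex.zero_le_real.2 hq.le))
    · rw [h3 e he w (hsub hw)]
      convert ((r e he w (hsub hw)).posSemidef.add (hτ.lo ν e he w (hsub hw))).add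
        ((hlow w hw).smul (Complex.zero_le_real.2 hq.le)) using 1
      have : ((Λ / l₀ : ℝ) : ℂ) * l₀ = Λ := by
        rw [← Complex.ofReal_mul, div_mul_cancel₀ _ hl.ne']
      rw [smul_sub, smul_smul, this, add_sub_assoc]
    · have h4 := abs_le.1 (hB w hw)
      have h5 := abs_lt.1 (h (e.symm w) (by
        rw [mem_closedBall]
        linarith [dist_triangle (e.symm w) p o, hnear w hw]))
      simp only [wt] at h4 ⊢
      rw [norm_one, one_pow, Real.log_one, zero_sub, abs_neg, abs_le]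
      constructor <;> linarith [h4.1, h4.2, h5.1, h5.2]
    · have h7 := (h6 0).1 0 (mem_closedBall_self hδ.le)
      have h8 := norm_sub_norm_le (1 : ℂ) (co (-1) s e 0)
      rw [div_one] at h7
      rw [norm_sub_rev, norm_one] at h8
      linarith
  choose s hs using key
  exact ⟨Λ / l₀, C, e.symm 0, _, s, hq.le, hC,
    (Metric.tendstoUniformlyOn_iff.1 (hU _) 1 one_pos).mono hs⟩

end Kh

variable {n : ℕ} {M : Type} [MetricSpace M] [ChartedSpace (Cm n) M]
  [IsManifold 𝓘(ℂ, Cm n) 1 M] [IsManifold 𝓘(ℝ, Cm n) ∞ M]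
  [RiemannianBundle (fun x : M => TangentSpace 𝓘(ℝ, Cm n) x)]
  [IsContMDiffRiemannianBundle 𝓘(ℝ, Cm n) ∞ (Cm n) (fun x : M => TangentSpace 𝓘(ℝ, Cm n) x)]
  [IsRiemannianManifold 𝓘(ℝ, Cm n) M] [CompleteSpace M] [ConnectedSpace M] [NoncompactSpace M]
  [MeasurableSpace M] [BorelSpace M] {μ : Measure M} {o : M} {G : Gauge n o}

open Kh in
theorem kh (c : Ctx n μ) (d : DJ n M) (l : LSP n M) (h1 : G.BRG μ) (h2 : MVU n μ o) : G.KH := by
  intro z τ ε k U Ω hz hτ hk _ hΩ hne hU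
  have := properSpace_riemannian (Cm n) M
  have a := (all c).a
  have b := (all c).b
  have zs : ∀ i, IsSec n 0 (z i) := fun i => (hz.1 i).sec
  obtain ⟨q, C, p, J, s, hq, hC, hs⟩ := secs a b (all c).r (ctx_hj c) d l zs hz.2 hτ
    (lg_cont a l hΩ hne).neg hU (l.sum n z zs) (l.strict z zs)
  have hL := (l.sum n z zs).1
  obtain ⟨k₁, hk₁, hL1⟩ := (Gauge.tame_sum hz.1).sc
  obtain ⟨k₂, hk₂, hL2⟩ := Gauge.tame_iff.1 (Gauge.tame_sum hz.1)
  obtain ⟨L, hLe⟩ : ∃ L : M → ℝ, L = fun x => Real.log (1 + ∑ i, ‖z i x‖ ^ 2) := ⟨_, rfl⟩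
  replace hs : ∀ᶠ ν in U, IsSec n (-1) (s ν) ∧
    L2 n μ (-1) (fun x => τ ν x + q * L x) (s ν) ≤ ENNReal.ofReal C ∧ 1 / 2 ≤ ‖J * s ν p‖ := hLe ▸ hs
  replace hL : Sm n L := hLe ▸ hL
  replace hL1 : ∀ R, 0 < R → ∀ x, L x ≤ k₁ * G.sc R x := hLe ▸ hL1
  replace hL2 : ∀ x, L x ≤ k₂ * G.a x := hLe ▸ hL2
  have mul : ∀ s η : M → ℂ, IsSec n (-1) s → IsSec n 1 η → IsSec n 0 fun x => s x * η x :=
    fun s η h h' => a.sec_mul _ _ _ _ h h'
  obtain ⟨k', hk'⟩ := h1 (|k| + 1 + q * k₁) (by positivity)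
  obtain ⟨C', hC'⟩ := hk' C
  have bF : ∀ᶠ ν in U, IsSec n 0 (fun x => s ν x * jac z x) ∧
      ∀ x, ‖s ν x * jac z x‖ ≤ Real.exp (C' + ⌈k'⌉₊ * G.sc (ν + 2) x) := by
    filter_upwards [hs] with ν ⟨s1, s2, _⟩
    have hR : (2 : ℝ) ≤ ν + 2 := by linarith [Nat.cast_nonneg (α := ℝ) ν]
    refine ⟨mul _ _ s1 (d.sec z zs), fun x => (hC' (ν + 2) _ (fun _ => 0) (fun x => Real.log
      (1 + nrm n 1 (jac z) x * Real.exp (τ ν x)) + q * L x) o hR (mul _ _ s1 (d.sec z zs)) spsh_zero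
      ((a.sm_cont _ (l.log 1 _ _ 1 (d.sec z zs) (hτ.sm ν) one_pos fun e he w hw => ?_).1).add
        (continuous_const.mul (a.sm_cont _ hL))) (mem_closedBall_self zero_le_two)
      (fun y => ⟨?_, ?_⟩) ?_ (le_trans (lintegral_mono fun y => ?_) s2) x).trans ?_⟩
    · simpa using hτ.lo ν e he w hw
    · have := G.sc_pos (ν + 2) y
      positivity
    · have h3 := G.one_le_sc (ν + 2) y
      have h4 := mul_le_mul_of_nonneg_left (hL1 (ν + 2) (by linarith) y) hq
      have h5 : Real.exp (k * G.sc (ν + 2) y) ≤ Real.exp (|k| * G.sc (ν + 2) y) :=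
        Real.exp_le_exp.2 (mul_le_mul_of_nonneg_right (le_abs_self k) (by linarith))
      have h6 : 1 ≤ Real.exp (|k| * G.sc (ν + 2) y) := Real.one_le_exp (by positivity)
      have h7 : Real.log (1 + nrm n 1 (jac z) y * Real.exp (τ ν y)) ≤
          |k| * G.sc (ν + 2) y + 1 := by
        have := mul_nonneg (nrm_nonneg a b 1 (jac z) y) (Real.exp_pos (τ ν y)).le
        rw [Real.log_le_iff_le_exp (by linarith), Real.exp_add]
        nlinarith [hk ν y, Real.add_one_le_exp (1 : ℝ)]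
      nlinarith
    · have := G.A_pos (ν + 2)
      exact neg_nonpos.2 (by positivity)
    · refine ENNReal.ofReal_le_ofReal ?_
      have h3 := nrm_nonneg a b 1 (jac z) y
      have h4 := mul_nonneg h3 (Real.exp_pos (τ ν y)).le
      rw [nrm_mul a b, mul_assoc, zero_sub, neg_add, neg_add, Real.exp_add, Real.exp_add,
        Real.exp_neg, Real.exp_log (by linarith), ← mul_assoc (nrm n 1 _ _)]
      refine mul_le_mul_of_nonneg_left (mul_le_mul_of_nonneg_right ?_ (Real.exp_pos _).le)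
        (nrm_nonneg a b _ _ y)
      rw [Real.exp_neg, ← div_eq_mul_inv, inv_eq_one_div,
        div_le_div_iff₀ (by linarith) (Real.exp_pos _)]
      linarith
    · exact Real.exp_le_exp.2 (add_le_add le_rfl
        (mul_le_mul_of_nonneg_right (Nat.le_ceil k') (G.sc_pos _ x).le))
  obtain ⟨D, hD, hM⟩ := h2
  obtain ⟨k₃, hk₃, hlog⟩ := G.log_le
  have bH : ∀ r : ℝ, ∀ᶠ ν in U, ∀ x ∈ closedBall o r, ‖s ν x * Ω x‖ ≤
      Real.exp ((1 + 2 * (q * k₂) + 2 * n * k₃) * G.a x + D * C) := by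
    intro r
    filter_upwards [hs, Metric.tendstoUniformlyOn_iff.1 (hU (r + 1)) 1 one_pos]
      with ν ⟨s1, s2, _⟩ h3 x hx
    have h4 := l.mul 0 _ (fun _ => 0) (mul _ _ s1 hΩ) spsh_zero.1 fun e _ w _ => by
      simpa [hs_zero] using Matrix.PosSemidef.zero
    simp only [nrm0, Real.exp_zero, mul_one] at h4
    have ha := G.one_le_a x
    have h5 := hM _ x (Real.exp ((1 + 2 * (q * k₂)) * G.a x) * C) h4 (by positivity) (by
      rw [ENNReal.ofReal_mul (Real.exp_pos _).le]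
      refine le_trans ?_ (mul_le_mul_right s2 _)
      rw [L2, ← lintegral_const_mul' _ _ ENNReal.ofReal_ne_top]
      refine le_trans (setLIntegral_mono' measurableSet_ball fun y hy => ?_)
        (setLIntegral_le_lintegral _ _)
      rw [← ENNReal.ofReal_mul (Real.exp_pos _).le, nrm_mul a b, mul_left_comm, ← Real.exp_add,
        ← exp_lg a b (hne y)]
      refine ENNReal.ofReal_le_ofReal (mul_le_mul_of_nonneg_left (Real.exp_le_exp.2 ?_)
        (nrm_nonneg a b _ _ y))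
      have h5 := abs_lt.1 (h3 y (by
        rw [mem_closedBall] at hx ⊢
        linarith [dist_triangle y x o, mem_ball.1 hy]))
      have h6 := mul_le_mul_of_nonneg_left ((hL2 y).trans
        (mul_le_mul_of_nonneg_left (G.a_near (mem_ball.1 hy).le) hk₂)) hq
      nlinarith [h5.1])
    have h6 : (1 + dist x o) ^ (2 * n) ≤ Real.exp (2 * n * k₃ * G.a x) := by
      have h7 := hlog _ (dist_nonneg (x := x) (y := o))
      rw [Real.log_le_iff_le_exp (by positivity)] at h7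
      refine (pow_le_pow_left₀ (by positivity) h7 _).trans_eq ?_
      rw [← Real.exp_nat_mul, Gauge.a]
      push_cast
      ring_nf
    have h7 : D * C ≤ Real.exp (D * C) := by linarith [Real.add_one_le_exp (D * C)]
    have h8 : ‖s ν x * Ω x‖ ^ 2 ≤
        Real.exp ((1 + 2 * (q * k₂) + 2 * n * k₃) * G.a x + D * C) := by
      refine h5.trans ?_
      rw [add_mul _ (2 * n * k₃), Real.exp_add, Real.exp_add, mul_right_comm (Real.exp _),
        mul_left_comm D]
      exact mul_le_mul (mul_le_mul_of_nonneg_left h7 (Real.exp_pos _).le) h6 (by positivity)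
        (by positivity)
    have h9 : 1 ≤ Real.exp ((1 + 2 * (q * k₂) + 2 * n * k₃) * G.a x + D * C) :=
      Real.one_le_exp (by positivity)
    nlinarith [norm_nonneg (s ν x * Ω x)]
  obtain ⟨h, h3, h4⟩ := lim_ev a o (fun ν x => s ν x * Ω x) U
    (hs.mono fun ν hν => mul _ _ hν.1 hΩ) fun r =>
      ⟨Real.exp ((1 + 2 * (q * k₂) + 2 * n * k₃) * G.A r + D * C), (bH r).mono fun ν hν x hx =>
        (hν x hx).trans (Real.exp_le_exp.2 (add_le_add
          (mul_le_mul_of_nonneg_left (G.mono hx) (by positivity)) le_rfl))⟩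
  have h5 : ∀ x, Tendsto (fun ν => s ν x * Ω x) U (𝓝 (h x)) := fun x =>
    h4.tendstoLocallyUniformlyOn.tendsto_at (mem_univ x)
  have h6 := sec_div a (d.sec z zs) hΩ hne
  refine ⟨h, ⟨_, h3, _, fun x => le_of_tendsto (h5 x).norm
    ((bH _).mono fun ν hν => hν x (mem_closedBall.2 le_rfl))⟩, fun h0 => ?_, ⌈k'⌉₊,
    sec_mul h3 h6, fun ν x => s ν x * jac z x, C', bF, ?_⟩
  · have h7 := ((h5 p).const_mul J).norm
    rw [h0, Pi.zero_apply, mul_zero, norm_zero] at h7
    have h8 := norm_pos_iff.2 (hne p)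
    refine (half_pos h8).not_ge (ge_of_tendsto h7 (hs.mono fun ν hν => ?_))
    rw [← mul_assoc, norm_mul]
    nlinarith [hν.2.2]
  · refine ((tendstoLocallyUniformlyOn_iff_tendstoUniformlyOn_of_compact
      (isCompact_closedBall o 2)).1 (h4.mul₀ (G := fun _ x => jac z x / Ω x) (fun _ hu _ =>
        ⟨univ, univ_mem, Eventually.of_forall fun _ _ _ => refl_mem_uniformity hu⟩)
      (sec_cont a h3) (sec_cont a h6)).tendstoLocallyUniformlyOn).congr
      (Eventually.of_forall fun ν x _ => ?_)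
    have := hne x
    simp only [Pi.mul_apply]
    field_simp

end Vale.Agent.P253W.T
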