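import Vale.Agent.P253W.T.Basic
import Vale.Agent.P253Z.B1a
import Vale.Agent.P253Z.B1b

/-!
# P253W, block T, row KPC: discs on which `z` and `|dz|` are bounded converge off a discrete set
-/

set_option linter.all false

open scoped Manifold ContDiff Bundle ENNReal Topology ComplexConjugate ComplexOrder
open Bundle IsManifold MeasureTheory Set Metric Filter Vale.Agent.P253.Mfd Vale.Agent.P253Z
open Vale.Agent.P272.K (Cm dz dzb cHess jacM Chart)

noncomputable section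

namespace Vale.Agent.P253W.T

namespace Kpc

/-- pointwise convergence and a common modulus of continuity give uniform convergence -/
lemma unif {X : Type*} [PseudoMetricSpace X] {l : Filter ℕ} [l.NeBot] {K : Set ℂ}
    (hK : TotallyBounded K) {f : ℕ → ℂ → X} {g : ℂ → X} {C : ℝ}
    (h : ∀ᶠ k in l, ∀ a ∈ K, ∀ b ∈ K, dist (f k a) (f k b) ≤ C * √‖b - a‖)
    (hp : ∀ a ∈ K, Tendsto (fun k => f k a) l (𝓝 (g a))) : TendstoUniformlyOn f g l K := by
  have hg : ∀ a ∈ K, ∀ b ∈ K, dist (g a) (g b) ≤ C * √‖b - a‖ := fun a ha b hb =>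
    le_of_tendsto ((hp a ha).dist (hp b hb)) (h.mono fun k hk => hk a ha b hb)
  rw [Metric.tendstoUniformlyOn_iff]
  intro η hη
  have hc : ContinuousAt (fun s : ℝ => C * √s) 0 := by fun_prop
  obtain ⟨δ, hδ, hd⟩ := Metric.continuousAt_iff.1 hc (η / 3) (by positivity)
  obtain ⟨t, htK, ht, hcov⟩ := finite_approx_of_totallyBounded hK δ hδ
  filter_upwards [h, (eventually_all_finite ht).2 fun y hy =>
    Metric.tendsto_nhds.1 (hp y (htK hy)) (η / 3) (by positivity)] with k hk hk' a ha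
  obtain ⟨y, hy, hay⟩ := mem_iUnion₂.1 (hcov ha)
  have h1 : C * √‖y - a‖ < η / 3 := by
    have := hd (x := ‖y - a‖) (by rwa [dist_zero_right, norm_norm, ← dist_eq_norm, dist_comm])
    simp only [Real.sqrt_zero, mul_zero, dist_zero_right, Real.norm_eq_abs] at this
    exact (le_abs_self _).trans_lt this
  have h2 := hg a ha y (htK hy)
  have h3 := hk a ha y (htK hy)
  have h4 := hk' y hy
  have h5 := dist_triangle4 (g a) (g y) (f k y) (f k a)
  rw [dist_comm (g y), dist_comm (f k y) (f k a)] at h5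
  linarith

lemma cnt {c : ℂ} {ρ : ℝ} {S : Set ℂ} (hS : ∀ r < ρ, (S ∩ closedBall c r).Finite) :
    (S ∩ ball c ρ).Countable := by
  refine (countable_iUnion fun k : ℕ => (hS (ρ - 1 / (k + 1))
    (by have : (0 : ℝ) < 1 / (k + 1) := by positivity
        linarith)).countable).mono fun x hx => ?_
  obtain ⟨k, hk⟩ := exists_nat_one_div_lt (sub_pos.2 (mem_ball.1 hx.2))
  exact mem_iUnion.2 ⟨k, hx.1, mem_closedBall.2 (by linarith)⟩

lemma conn {c : ℂ} {ρ : ℝ} (hρ : 0 < ρ) {S : Set ℂ} (hS : (S ∩ ball c ρ).Countable) :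
    IsPreconnected (ball c ρ \ S) := by
  let e := OpenPartialHomeomorph.univBall c ρ
  have hs : e.source = univ := OpenPartialHomeomorph.univBall_source c ρ
  have ht : e.target = ball c ρ := OpenPartialHomeomorph.univBall_target c hρ
  have h1 : (e.symm '' (S ∩ ball c ρ))ᶜ ⊆ e.source := by rw [hs]; exact subset_univ _
  have h2 := ((hS.image e.symm).isConnected_compl_of_one_lt_rank
    (by simp)).isPreconnected.image e (e.continuousOn.mono h1)
  convert h2 using 1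
  ext x
  constructor
  · rintro ⟨hx, hxS⟩
    refine ⟨e.symm x, ?_, e.right_inv (ht ▸ hx)⟩
    rintro ⟨y, hy, hyx⟩
    exact hxS (e.symm.injOn (show y ∈ e.target from ht ▸ hy.2) (show x ∈ e.target from ht ▸ hx)
      hyx ▸ hy.1)
  · rintro ⟨y, hy, rfl⟩
    have h3 : e y ∈ ball c ρ := ht ▸ e.map_source (hs ▸ mem_univ y)
    exact ⟨h3, fun h => hy ⟨e y, ⟨h, h3⟩, e.left_inv (hs ▸ mem_univ y)⟩⟩

lemma quad {h : ℂ → ℝ} {p : ℂ} (h2 : ContDiffAt ℝ 2 h p) (h0 : ∀ τ, 0 ≤ h τ) (hp : h p = 0) :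
    ∃ C : ℝ, 0 < C ∧ ∀ᶠ τ in 𝓝 p, h τ ≤ (C * ‖τ - p‖) ^ 2 := by
  have h1 : fderiv ℝ h p = 0 :=
    IsLocalMin.fderiv_eq_zero (Eventually.of_forall fun τ => hp ▸ h0 τ)
  have h3 : DifferentiableAt ℝ (fderiv ℝ h) p :=
    (h2.fderiv_right (m := 1) (by norm_num)).differentiableAt (by norm_num)
  obtain ⟨C, hC, hb⟩ := h3.isBigO_sub.exists_pos
  have h4 : ∀ᶠ τ in 𝓝 p, DifferentiableAt ℝ h τ :=
    (h2.eventually (by simp)).mono fun q hq => hq.differentiableAt (by simp)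
  obtain ⟨r, hr, hb'⟩ := Metric.eventually_nhds_iff_ball.1 (hb.bound.and h4)
  refine ⟨C + 1, by linarith, ?_⟩
  filter_upwards [ball_mem_nhds p hr] with τ hτ
  have hsub : closedBall p ‖τ - p‖ ⊆ ball p r := closedBall_subset_ball (mem_ball_iff_norm.1 hτ)
  have h5 := (convex_closedBall p ‖τ - p‖).norm_image_sub_le_of_norm_fderiv_le
    (C := C * ‖τ - p‖) (fun y hy => (hb' y (hsub hy)).2) (fun y hy => by
      have := (hb' y (hsub hy)).1
      rw [h1, sub_zero] at this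
      exact this.trans (mul_le_mul_of_nonneg_left (mem_closedBall_iff_norm.1 hy) hC.le))
    (mem_closedBall_self (norm_nonneg _)) (mem_closedBall_iff_norm.2 le_rfl)
  rw [hp, sub_zero, Real.norm_eq_abs] at h5
  have h6 := sq_nonneg ‖τ - p‖
  nlinarith [le_abs_self (h τ), mul_nonneg (sq_nonneg C) h6, mul_nonneg hC.le h6]

lemma dvg {C D : ℝ} (hC : 0 < C) (h : ∀ η > 0, ∃ φ : ℝ → ℝ, ContinuousOn φ (Icc 0 1) ∧
    (∀ t ∈ Icc (0 : ℝ) 1, (C * t + η)⁻¹ ≤ φ t) ∧ ∫ t in (0 : ℝ)..1, φ t ≤ D) : False := by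
  have hη : 0 < C * Real.exp (-(C * D)) := by positivity
  obtain ⟨φ, h1, h2, h3⟩ := h _ hη
  generalize hη' : C * Real.exp (-(C * D)) = η at *
  have hp : ∀ t ∈ uIcc (0 : ℝ) 1, 0 < C * t + η := fun t ht => by
    rw [uIcc_of_le zero_le_one] at ht
    have := mul_nonneg hC.le ht.1
    linarith
  have hc : ContinuousOn (fun t : ℝ => (C * t + η)⁻¹) (uIcc 0 1) :=
    ContinuousOn.inv₀ (by fun_prop) fun t ht => (hp t ht).ne'
  have h4 : ∫ t in (0 : ℝ)..1, (C * t + η)⁻¹ =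
      Real.log (C * 1 + η) / C - Real.log (C * 0 + η) / C :=
    intervalIntegral.integral_eq_sub_of_hasDerivAt (f := fun t => Real.log (C * t + η) / C)
      (fun t ht => by
        refine (((((hasDerivAt_id' t).const_mul C).add_const η).log
          (hp t ht).ne').div_const C).congr_deriv ?_
        have := (hp t ht).ne'
        field_simp) hc.intervalIntegrable
  have h5 := intervalIntegral.integral_mono_on (μ := volume) zero_le_one hc.intervalIntegrable
    (h1.intervalIntegrable_of_Icc zero_le_one) h2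
  replace h5 := h5.trans h3
  rw [h4, mul_one, mul_zero, zero_add, ← sub_div, div_le_iff₀ hC] at h5
  have h6 : Real.log η = Real.log C - C * D := by
    rw [← hη', Real.log_mul hC.ne' (Real.exp_pos _).ne', Real.log_exp]
    ring
  have h7 := Real.log_lt_log hC (show C < C + η by linarith)
  nlinarith

lemma cauchy {n : ℕ} {F : ℂ → Cm n} {c τ : ℂ} {ρ B ε : ℝ} (hF : DifferentiableOn ℂ F (ball c ρ))
    (hB : ∀ w ∈ ball c ρ, ‖F w‖ ≤ B) (hε : 0 < ε) (h : closedBall τ (2 * ε) ⊆ ball c ρ) :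
    ∀ w ∈ ball τ ε, ‖deriv F w‖ ≤ B / ε := fun w hw => by
  have h1 : closedBall w ε ⊆ ball c ρ :=
    (closedBall_subset_closedBall' (by linarith [mem_ball.1 hw])).trans h
  exact Complex.norm_deriv_le_of_forall_mem_sphere_norm_le hε
    ((hF.mono h1).diffContOnCl_ball subset_rfl) fun y hy => hB y (h1 (sphere_subset_closedBall hy))

lemma small {c τ : ℂ} {ρ : ℝ} (h : τ ∈ ball c ρ) {ε : ℝ} (hε : 0 < ε) :
    ∃ ε', 0 < ε' ∧ ε' ≤ ε ∧ dist τ c + 2 * ε' < ρ :=
  ⟨min ε ((ρ - dist τ c) / 3), lt_min hε (by linarith [mem_ball.1 h]), min_le_left _ _, by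
    linarith [min_le_right ε ((ρ - dist τ c) / 3), mem_ball.1 h]⟩

lemma seg {τ a b : ℂ} {ε : ℝ} (ha : a ∈ ball τ ε) (hb : b ∈ ball τ ε) {t : ℝ}
    (ht : t ∈ Icc (0 : ℝ) 1) : a + t * (b - a) ∈ ball τ ε := by
  simpa using (convex_ball τ ε).add_smul_sub_mem ha hb ht

end Kpc

open Kpc

variable {n : ℕ} {M : Type} [MetricSpace M] [ChartedSpace (Cm n) M]
  [IsManifold 𝓘(ℂ, Cm n) 1 M] [IsManifold 𝓘(ℝ, Cm n) ∞ M]
  [RiemannianBundle (fun x : M => TangentSpace 𝓘(ℝ, Cm n) x)]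
  [IsContMDiffRiemannianBundle 𝓘(ℝ, Cm n) ∞ (Cm n) (fun x : M => TangentSpace 𝓘(ℝ, Cm n) x)]
  [IsRiemannianManifold 𝓘(ℝ, Cm n) M] [CompleteSpace M] [ConnectedSpace M] [NoncompactSpace M]
  [MeasurableSpace M] [BorelSpace M] {μ : Measure M}

/-- row KPC -/
theorem kpc (c : Ctx n μ) (d : DJ n M) (l : LSP n M) (s : DSC n M) (p : DSP n M) (h1 : POT)
    (h2 : NEAR n M) : KPC n M := by
  intro z f U o ρ B τ₀ x hU hz hf hτ₀ hx hj
  have a : B1a n M := b1a
  have b : B1b n M := b1b c.kahler a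
  have : ProperSpace M := properSpace_riemannian (Cm n) M
  have hρ : 0 < ρ := dist_nonneg.trans_lt (mem_ball.1 hτ₀)
  have hsec := d.sec z hz
  obtain ⟨N, hN⟩ : ∃ N, N = nrm n 1 (jac z) := ⟨_, rfl⟩
  have hN0 : ∀ y, 0 ≤ N y := fun y => hN ▸ nrm_nonneg a b 1 _ y
  have hNc : Continuous N := hN ▸ a.sm_cont _ (l.sm 1 _ hsec)
  have hNx : 0 < N x := hN ▸ nrm_pos a b 1 hj
  have hB : 0 ≤ B := by
    obtain ⟨k, hk⟩ := hf.exists
    exact (norm_nonneg _).trans (hk.2 ⟨0, c.npos⟩ τ₀ hτ₀).1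
  have hsum : ∀ y, (∀ i, gr n (z i) y ≤ B) → ∑ i, gr n (z i) y ≤ n * B := fun y hy =>
    (Finset.sum_le_card_nsmul _ _ B fun i _ => hy i).trans_eq (by simp)
  have hsum0 : ∀ y, 0 ≤ ∑ i, gr n (z i) y := fun y => Finset.sum_nonneg fun i _ => d.gr_nonneg _ _
  have hF : ∀ k, HolOn n (f k) (ball o ρ) → DifferentiableOn ℂ (fun τ => mp z (f k τ)) (ball o ρ) :=
    fun k hk => differentiableOn_pi.2 fun i => s.hol _ _ _ (hz i) hk
  have hFB : ∀ y, (∀ i, ‖z i y‖ ≤ B) → ‖mp z y‖ ≤ B := fun y hy =>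
    (pi_norm_le_iff_of_nonneg hB).2 hy
  -- the weights
  have hδ : ∀ k : ℕ, ∃ δ : ℝ, 0 < δ ∧ δ ≤ 1 / (k + 1) ∧ (HolOn n (f k) (ball o ρ) →
      ∀ τ ∈ closedBall o (ρ - 1 / (k + 1)), δ * dens n (f k) τ ≤ 1) := fun k => by
    have hk0 : (0 : ℝ) < 1 / (k + 1) := by positivity
    by_cases hk : HolOn n (f k) (ball o ρ)
    · obtain ⟨A, hA⟩ := (isCompact_closedBall o (ρ - 1 / (k + 1))).exists_bound_of_continuousOn
        ((s.cont _ _ isOpen_ball hk).mono (closedBall_subset_ball (by linarith)))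
      refine ⟨min (1 / (k + 1)) (1 / (|A| + 1)), lt_min hk0 (by positivity), min_le_left _ _,
        fun _ τ hτ => ?_⟩
      have h3 : dens n (f k) τ ≤ |A| + 1 := by
        linarith [le_abs_self (dens n (f k) τ), hA τ hτ, Real.norm_eq_abs (dens n (f k) τ),
          le_abs_self A]
      exact (mul_le_mul (min_le_right _ _) h3 (s.nonneg _ _) (by positivity)).trans_eq
        (one_div_mul_cancel (by positivity))
    · exact ⟨_, hk0, le_rfl, fun h => absurd h hk⟩
  choose δ hδ0 hδ1 hδ2 using hδ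
  have hδ3 : Tendsto (fun k : ℕ => 1 / ((k : ℝ) + 1)) U (𝓝 0) :=
    tendsto_one_div_add_atTop_nhds_zero_nat.mono_left hU
  have hpos : ∀ k y, 0 < δ k + N y := fun k y => add_pos_of_pos_of_nonneg (hδ0 k) (hN0 y)
  have hsub : ∀ (δ : ℝ) (g : ℂ → M) (V : Set ℂ), 0 < δ → IsOpen V → HolOn n g V → ∀ τ ∈ V,
      ContDiffAt ℝ 2 (fun w => Real.log (δ + N (g w))) τ ∧
        0 ≤ Vale.Agent.P272.GJ.ddb (fun w => Real.log (δ + N (g w))) τ := fun δ g V h0 hV hg =>
    hN ▸ p.sub _ g V (l.log1 _ δ hsec h0) hV hg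
  obtain ⟨S, hS, hP⟩ := h1 (fun k τ => Real.log (δ k + N (f k τ))) U o τ₀ ρ
    (max (Real.log (1 + (n * B) ^ n)) (-Real.log (N x / 2))) hτ₀ (by
      filter_upwards [hf, ((hNc.tendsto x).comp hx).eventually (lt_mem_nhds (half_lt_self hNx))]
        with k hk hk'
      refine ⟨fun τ hτ => ⟨(hsub _ _ _ (hδ0 k) isOpen_ball hk.1 τ hτ).1,
        (hsub _ _ _ (hδ0 k) isOpen_ball hk.1 τ hτ).2, le_trans ?_ (le_max_left _ _)⟩, ?_⟩
      · refine Real.log_le_log (hpos _ _) (add_le_add ((hδ1 k).trans ?_) ?_)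
        · rw [div_le_one (by positivity)]
          linarith [Nat.cast_nonneg (α := ℝ) k]
        · rw [hN]
          exact (d.had z _).trans (pow_le_pow_left₀ (hsum0 _) (hsum _ fun i => (hk.2 i τ hτ).2) n)
      · rw [neg_le]
        refine le_trans (neg_le_neg (Real.log_le_log (half_pos hNx) ?_)) (le_max_right _ _)
        linarith [hδ0 k, show N x / 2 < N (f k τ₀) from hk'])
  have hexp : ∀ k y, Real.exp (-Real.log (δ k + N y) / 2) = (√(δ k + N y))⁻¹ := fun k y => by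
    rw [neg_div, Real.exp_neg, ← Real.log_sqrt (hpos k y).le,
      Real.exp_log (Real.sqrt_pos.2 (hpos k y))]
  simp only [hexp] at hP
  have hO : IsOpen (ball o ρ \ S) := Metric.isOpen_iff.2 fun τ hτ =>
    let ⟨ε, _, h3, h4, _⟩ := hP τ hτ; ⟨ε, h3, h4⟩
  have hcont : ∀ k (u w τ : ℂ) ε, HolOn n (f k) (ball o ρ) → ball τ ε ⊆ ball o ρ → u ∈ ball τ ε →
      w ∈ ball τ ε → ContinuousOn (fun t : ℝ => (√(δ k + N (f k (u + t * (w - u)))))⁻¹ * ‖w - u‖)
        (Icc 0 1) := fun k u w τ ε hk h3 hu hw =>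
    (((continuousOn_const.add (hNc.comp_continuousOn (hk.continuousOn.comp (by fun_prop)
      fun t ht => h3 (seg hu hw ht)))).sqrt).inv₀
      fun t _ => (Real.sqrt_pos.2 (hpos _ _)).ne').mul continuousOn_const
  -- the common modulus of continuity
  have hH : ∀ τ ∈ ball o ρ \ S, ∃ ε C : ℝ, 0 < ε ∧ ball τ ε ⊆ ball o ρ \ S ∧ ∀ᶠ k in U,
      ∀ u ∈ ball τ ε, ∀ w ∈ ball τ ε, dist (f k u) (f k w) ≤ C * √‖w - u‖ := fun τ hτ => by
    obtain ⟨ε, C, hε, h3, h4⟩ := hP τ hτ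
    obtain ⟨ε', h5, h6, h7⟩ := small hτ.1 hε
    obtain ⟨C₀, hC₀, h8⟩ := p.fp
    have h9 : closedBall τ (2 * ε') ⊆ ball o ρ := closedBall_subset_ball' (by linarith)
    have h10 : ball τ ε' ⊆ ball o ρ := ((ball_subset_ball h6).trans h3).trans diff_subset
    obtain ⟨A, hA⟩ : ∃ A, A = 1 + C₀ * (B / ε') ^ 2 * (1 + n * B) ^ n := ⟨_, rfl⟩
    refine ⟨ε', √A * C, h5, (ball_subset_ball h6).trans h3, ?_⟩
    filter_upwards [hf, h4, hδ3.eventually (gt_mem_nhds h5)] with k hk hk' hk'' u hu w hw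
    have h11 : ∀ y ∈ ball τ ε', √(dens n (f k) y) ≤ √A * (√(δ k + N (f k y)))⁻¹ := fun y hy => by
      rw [← div_eq_mul_inv, ← Real.sqrt_div' _ (hpos _ _).le]
      refine Real.sqrt_le_sqrt ((le_div_iff₀ (hpos _ _)).2 ?_)
      have e1 := hδ2 k hk.1 y (mem_closedBall.2 (by
        linarith [dist_triangle y τ o, mem_ball.1 hy]))
      have e2 := h8 z (f k) y hz (hk.1.mdifferentiableAt (isOpen_ball.mem_nhds (h10 hy)))
      have e3 := cauchy (hF k hk.1) (fun y hy => hFB _ fun i => (hk.2 i y hy).1) h5 h9 y hy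
      have e4 := hsum _ fun i => (hk.2 i y (h10 hy)).2
      have e5 := hsum0 (f k y)
      have e6 : C₀ * ‖deriv (fun s => mp z (f k s)) y‖ ^ 2 * (1 + ∑ i, gr n (z i) (f k y)) ^ n ≤
          C₀ * (B / ε') ^ 2 * (1 + n * B) ^ n := by gcongr
      rw [← hN] at e2
      rw [hA]
      linarith
    refine (s.len (f k) _ u w isOpen_ball hk.1
      (((convex_ball τ ε').segment_subset hu hw).trans h10)).trans ?_
    have e1 : ContinuousOn (fun t : ℝ => √(dens n (f k) (u + t * (w - u))) * ‖w - u‖) (Icc 0 1) :=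
      ((s.cont _ _ isOpen_ball hk.1).comp (by fun_prop)
        fun t ht => h10 (seg hu hw ht)).sqrt.mul continuousOn_const
    have e2 := hcont k u w τ ε' hk.1 h10 hu hw
    refine (intervalIntegral.integral_mono_on zero_le_one
      (e1.intervalIntegrable_of_Icc zero_le_one)
      ((e2.intervalIntegrable_of_Icc zero_le_one).const_mul √A) fun t ht => ?_).trans ?_
    · rw [← mul_assoc]
      exact mul_le_mul_of_nonneg_right (h11 _ (seg hu hw ht)) (norm_nonneg _)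
    · rw [intervalIntegral.integral_const_mul, mul_assoc]
      exact mul_le_mul_of_nonneg_left (hk' u (ball_subset_ball h6 hu) w (ball_subset_ball h6 hw))
        (Real.sqrt_nonneg _)
  -- a base point
  have hbase : ∃ τ ∈ ball o ρ \ S, ∃ y, Tendsto (fun k => f k τ) U (𝓝 y) := by
    obtain ⟨ε, h5, h6, h7⟩ := small hτ₀ (one_half_pos (α := ℝ))
    have h9 : closedBall τ₀ (2 * ε) ⊆ ball o ρ := closedBall_subset_ball' (by linarith)
    have h10 : ball τ₀ ε ⊆ ball o ρ :=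
      (ball_subset_closedBall.trans (closedBall_subset_closedBall (by linarith))).trans h9
    have h11 : ∀ τ ∈ ball τ₀ ε, Tendsto (fun k => mp z (f k τ)) U
        (𝓝 (limUnder U fun k => mp z (f k τ))) := fun τ hτ => by
      obtain ⟨y, -, hy⟩ := (isCompact_closedBall (0 : Cm n) B).ultrafilter_le_nhds
        (U.map fun k => mp z (f k τ)) (le_principal_iff.2 (hf.mono fun k hk =>
          mem_closedBall_zero_iff.2 (hFB _ fun i => (hk.2 i τ (h10 hτ)).1)))
      exact tendsto_nhds_limUnder ⟨y, hy⟩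
    have h12 : TendstoUniformlyOn (fun k τ => mp z (f k τ))
        (fun τ => limUnder U fun k => mp z (f k τ)) U (ball τ₀ ε) := by
      refine unif (C := B / ε) ((isCompact_closedBall τ₀ ε).totallyBounded.subset
        ball_subset_closedBall) (hf.mono fun k hk u hu w hw => ?_) h11
      have e1 := (convex_ball τ₀ ε).norm_image_sub_le_of_norm_deriv_le
        (fun y hy => (hF k hk.1).differentiableAt (isOpen_ball.mem_nhds (h10 hy)))
        (cauchy (hF k hk.1) (fun y hy => hFB _ fun i => (hk.2 i y hy).1) h5 h9) hu hw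
      rw [dist_comm, dist_eq_norm]
      refine e1.trans (mul_le_mul_of_nonneg_left ?_ (by positivity))
      have e2 : ‖w - u‖ ≤ 1 := by
        rw [← dist_eq_norm]
        linarith [dist_triangle_right w u τ₀, mem_ball.1 hu, mem_ball.1 hw]
      exact Real.le_sqrt_of_sq_le (by nlinarith [norm_nonneg (w - u)])
    have h13 : ∀ᶠ k in U, ContinuousOn (f k) (ball τ₀ ε) :=
      hf.mono fun k hk => hk.1.continuousOn.mono h10
    obtain ⟨ε', e, h14, -, -, -, h15⟩ := h2 z f U (ball τ₀ ε) τ₀ x _ inferInstance hz hj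
      (convex_ball _ _) (mem_ball_self h5) h13
      (h12.continuousOn (h13.mono fun k hk => (mp_cont a hz).comp_continuousOn hk).frequently) h12
      fun η hη => ⟨τ₀, ⟨mem_ball_self h5, mem_ball_self hη⟩, Metric.tendsto_nhds.1 hx η hη⟩
    obtain ⟨τ, hτ, hτS⟩ := (infinite_of_mem_nhds τ₀ (inter_mem (ball_mem_nhds τ₀ h5)
      (ball_mem_nhds τ₀ h14))).exists_notMem_finite (hS (dist τ₀ o + ε) (by linarith))
    refine ⟨τ, ⟨h10 hτ.1, fun h => hτS ⟨h, mem_closedBall.2 ?_⟩⟩, _, h15.tendsto_at hτ⟩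
    linarith [dist_triangle τ τ₀ o, mem_ball.1 hτ.1]
  -- convergence everywhere
  have hlim : ∀ τ ∈ ball o ρ \ S, ∃ y, Tendsto (fun k => f k τ) U (𝓝 y) := by
    obtain ⟨τ₁, h3, h4⟩ := hbase
    intro τ hτ
    refine (conn hρ (cnt hS)).induction₂' (fun u w => (∃ y, Tendsto (fun k => f k u) U (𝓝 y)) →
      ∃ y, Tendsto (fun k => f k w) U (𝓝 y)) (fun u hu => ?_) (fun _ _ _ _ _ _ h h' => h' ∘ h)
      h3 hτ h4
    obtain ⟨ε, C, hε, -, h5⟩ := hH u hu
    have h6 : ∀ u' ∈ ball u ε, ∀ w ∈ ball u ε, (∃ y, Tendsto (fun k => f k u') U (𝓝 y)) →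
        ∃ y, Tendsto (fun k => f k w) U (𝓝 y) := by
      rintro u' hu' w hw ⟨y, hy⟩
      obtain ⟨y', -, hy'⟩ := (isCompact_closedBall y (C * √‖u' - w‖ + 1)).ultrafilter_le_nhds
        (U.map fun k => f k w) (le_principal_iff.2
          ((h5.and (Metric.tendsto_nhds.1 hy 1 one_pos)).mono fun k hk => mem_closedBall.2 (by
            linarith [dist_triangle (f k w) (f k u') y, hk.1 w hw u' hu', hk.2])))
      exact ⟨y', hy'⟩
    filter_upwards [mem_nhdsWithin_of_mem_nhds (ball_mem_nhds u hε)] with w hw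
    exact ⟨h6 u (mem_ball_self hε) w hw, h6 w hw u (mem_ball_self hε)⟩
  have : Nonempty M := ⟨x⟩
  obtain ⟨g, hg⟩ : ∃ g : ℂ → M, ∀ τ ∈ ball o ρ \ S, Tendsto (fun k => f k τ) U (𝓝 (g τ)) :=
    ⟨fun τ => limUnder U fun k => f k τ, fun τ hτ => tendsto_nhds_limUnder (hlim τ hτ)⟩
  have hloc : TendstoLocallyUniformlyOn f g U (ball o ρ \ S) :=
    tendstoLocallyUniformlyOn_of_forall_exists_nhds fun τ hτ => by
      obtain ⟨ε, C, hε, h3, h4⟩ := hH τ hτ
      exact ⟨_, mem_nhdsWithin_of_mem_nhds (ball_mem_nhds τ hε), unif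
        ((isCompact_closedBall τ ε).totallyBounded.subset ball_subset_closedBall) h4
        fun u hu => hg u (h3 hu)⟩
  have hhol := (s.lim f g U _ inferInstance hO (hf.mono fun k hk => hk.1.mono diff_subset) hloc).1
  refine ⟨S, g, hS, hhol, fun τ hτ h0 => ?_, hloc⟩
  obtain ⟨ε, C, hε, h3, h4⟩ := hP τ hτ
  obtain ⟨C', hC', h5⟩ := quad (h := fun w => N (g w)) (p := τ) (by
    have e1 := ((hsub 1 g _ one_pos hO hhol τ hτ).1.exp).sub (contDiffAt_const (c := (1 : ℝ)))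
    refine e1.congr_of_eventuallyEq (Eventually.of_forall fun w => ?_)
    beta_reduce
    rw [Real.exp_log (by linarith [hN0 (g w)])]
    ring) (fun w => hN0 _) (by simp [hN, nrm, h0])
  obtain ⟨r, hr, h6⟩ := Metric.eventually_nhds_iff_ball.1 (h5.and (ball_mem_nhds τ hε))
  have h7 : τ + (r / 2 : ℝ) ∈ ball τ r := by
    rw [mem_ball_iff_norm, add_sub_cancel_left, Complex.norm_real, Real.norm_of_nonneg (by positivity)]
    linarith
  have h8 : closedBall τ (r / 2) ⊆ ball o ρ \ S := fun w hw =>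
    h3 (h6 w (closedBall_subset_ball (by linarith) hw)).2
  have h9 := (tendstoLocallyUniformlyOn_iff_forall_isCompact hO).1 hloc _ h8
    (isCompact_closedBall _ _)
  have h10 := ((isCompact_closedBall τ (r / 2)).image_of_continuousOn
    (hhol.continuousOn.mono h8)).cthickening (r := 1)
  have h11 := (h10.uniformContinuousOn_of_continuous hNc.continuousOn).comp_tendstoUniformlyOn_eventually
    ((Metric.tendstoUniformlyOn_iff.1 h9 1 one_pos).mono fun k hk w hw =>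
      mem_cthickening_of_dist_le _ _ _ _ (mem_image_of_mem g hw)
        ((dist_comm _ _).trans_le (hk w hw).le))
    (fun w hw => self_subset_cthickening _ (mem_image_of_mem g hw)) h9
  have hn : ‖τ + (r / 2 : ℝ) - τ‖ = r / 2 := by
    rw [add_sub_cancel_left, Complex.norm_real, Real.norm_of_nonneg (by positivity)]
  refine dvg (D := C * √‖τ + (r / 2 : ℝ) - τ‖) hC' fun η hη => ?_
  have hη' : 0 < (η * (r / 2)) ^ 2 / 2 := by positivity
  obtain ⟨k, hk1, hk2, hk3, hk4⟩ := (hf.and (h4.and ((hδ3.eventually (gt_mem_nhds hη')).and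
    (Metric.tendstoUniformlyOn_iff.1 h11 _ hη')))).exists
  refine ⟨_, hcont k τ _ τ ε hk1.1 (h3.trans diff_subset) (mem_ball_self hε) (h6 _ h7).2,
    fun t ht => ?_, hk2 τ (mem_ball_self hε) _ (h6 _ h7).2⟩
  have e0 : ‖τ + t * (τ + (r / 2 : ℝ) - τ) - τ‖ = t * (r / 2) := by
    rw [add_sub_cancel_left, norm_mul, hn, Complex.norm_real, Real.norm_of_nonneg ht.1]
  have e1 := (h6 _ (seg (mem_ball_self hr) h7 ht)).1
  have e2 := hk4 _ (mem_closedBall_iff_norm.2 (e0.trans_le (by nlinarith [ht.2])))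
  rw [e0] at e1
  rw [Real.dist_eq, abs_sub_comm] at e2
  have e3 : 0 ≤ C' * t := mul_nonneg hC'.le ht.1
  have e4 : √(δ k + N (f k (τ + t * (τ + (r / 2 : ℝ) - τ)))) ≤ (C' * t + η) * (r / 2) := by
    refine Real.sqrt_le_iff.2 ⟨by positivity, ?_⟩
    have e5 : 0 ≤ C' * t * η * (r / 2) ^ 2 := by positivity
    nlinarith [hδ1 k, le_abs_self (N (f k (τ + t * (τ + (r / 2 : ℝ) - τ))) -
      N (g (τ + t * (τ + (r / 2 : ℝ) - τ))))]
  rw [hn, ← div_eq_inv_mul, le_div_iff₀ (Real.sqrt_pos.2 (hpos _ _)), inv_mul_le_iff₀ (by positivity)]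
  exact e4

end Vale.Agent.P253W.T
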