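import Vale.Agent.P253W.T.Basic
import Vale.Agent.P253Z.B1a

/-!
# P253W, row T.KPP: discs of bounded area which converge on the circle converge
-/

open scoped Manifold ContDiff Bundle ENNReal Topology
open Bundle IsManifold MeasureTheory Set Metric Filter Vale.Agent.P253.Mfd Vale.Agent.P253Z
open Vale.Agent.P272.K (Cm Chart)

set_option linter.unusedSectionVars false

noncomputable section

namespace Vale.Agent.P253W.T

namespace Kpp

/-- uniform convergence on the circle extends to the disc -/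
theorem uc {E : Type} [NormedAddCommGroup E] [NormedSpace ℂ E] [CompleteSpace E]
    {F : ℕ → ℂ → E} {F₀ : ℂ → E} {l : Filter ℕ} [l.NeBot] {c : ℂ} {ρ : ℝ} (hρ : 0 < ρ)
    (hd : ∀ᶠ k in l, ContinuousOn (F k) (closedBall c ρ) ∧ DifferentiableOn ℂ (F k) (ball c ρ))
    (h : TendstoUniformlyOn F F₀ l (sphere c ρ)) :
    ∃ G : ℂ → E, ContinuousOn G (closedBall c ρ) ∧ DifferentiableOn ℂ G (ball c ρ) ∧
      TendstoUniformlyOn F G l (closedBall c ρ) := by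
  have h1 : UniformCauchySeqOn F l (closedBall c ρ) := fun u hu => by
    obtain ⟨ε, hε, hu'⟩ := uniformity_basis_dist_le.mem_iff.1 hu
    filter_upwards [h.uniformCauchySeqOn _ (uniformity_basis_dist_le.mem_of_mem hε),
      hd.prod_mk hd] with m h2 h3 x hx
    refine hu' ?_
    have h4 : DiffContOnCl ℂ (F m.1 - F m.2) (ball c ρ) :=
      (DiffContOnCl.mk_ball h3.1.2 h3.1.1).sub (DiffContOnCl.mk_ball h3.2.2 h3.2.1)
    rw [mem_ofPred_eq, dist_eq_norm]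
    refine Complex.norm_le_of_forall_mem_frontier_norm_le isBounded_ball h4 (fun z hz => ?_)
      (closure_ball c hρ.ne' ▸ hx)
    rw [frontier_ball c hρ.ne'] at hz
    exact (dist_eq_norm _ _).symm.trans_le (h2 z hz)
  have h2 : ∀ x, ∃ y, x ∈ closedBall c ρ → Tendsto (fun k => F k x) l (𝓝 y) := fun x => by
    by_cases hx : x ∈ closedBall c ρ
    · exact (CompleteSpace.complete (h1.cauchy_map hx)).imp fun y hy _ => hy
    · exact ⟨0, fun h => absurd h hx⟩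
  choose G hG using h2
  have h3 := h1.tendstoUniformlyOn_of_tendsto hG
  exact ⟨G, h3.continuousOn (hd.mono fun _ h => h.1).frequently,
    (h3.mono ball_subset_closedBall).tendstoLocallyUniformlyOn.differentiableOn
      (hd.mono fun _ h => h.2) isOpen_ball, h3⟩

/-- from local limits to a limit -/
theorem glue {M : Type} [MetricSpace M] {f : ℕ → ℂ → M} {l : Filter ℕ} [l.NeBot] {K : Set ℂ}
    (hK : IsCompact K) (h : ∀ τ ∈ K, ∃ (ε : ℝ) (g : ℂ → M), 0 < ε ∧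
      TendstoUniformlyOn f g l (K ∩ ball τ ε)) : ∃ g, TendstoUniformlyOn f g l K := by
  have h1 : ∀ τ, ∃ x, τ ∈ K → Tendsto (fun k => f k τ) l (𝓝 x) := fun τ => by
    by_cases hτ : τ ∈ K
    · obtain ⟨ε, g, hε, hg⟩ := h τ hτ
      exact ⟨g τ, fun _ => hg.tendsto_at ⟨hτ, mem_ball_self hε⟩⟩
    · exact ⟨f 0 τ, fun h => absurd h hτ⟩
  choose g hg using h1
  refine ⟨g, (tendstoLocallyUniformlyOn_iff_tendstoUniformlyOn_of_compact hK).1
    fun u hu τ hτ => ?_⟩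
  obtain ⟨ε, G, hε, hG⟩ := h τ hτ
  exact ⟨_, inter_mem_nhdsWithin K (ball_mem_nhds τ hε), hG.congr_right
    (fun x hx => tendsto_nhds_unique (hG.tendsto_at hx) (hg x hx.1)) u hu⟩

variable {n : ℕ} {M : Type} [MetricSpace M] [ChartedSpace (Cm n) M]
  [IsManifold 𝓘(ℂ, Cm n) 1 M] [IsManifold 𝓘(ℝ, Cm n) ∞ M]
  [RiemannianBundle (fun x : M => TangentSpace 𝓘(ℝ, Cm n) x)]
  [IsContMDiffRiemannianBundle 𝓘(ℝ, Cm n) ∞ (Cm n) (fun x : M => TangentSpace 𝓘(ℝ, Cm n) x)]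
  [IsRiemannianManifold 𝓘(ℝ, Cm n) M] [CompleteSpace M] [ConnectedSpace M] [NoncompactSpace M]
  [MeasurableSpace M] [BorelSpace M] {μ : Measure M}

/-- the hypotheses -/
structure H (n : ℕ) {M : Type} [MetricSpace M] [ChartedSpace (Cm n) M]
    [RiemannianBundle (fun x : M => TangentSpace 𝓘(ℝ, Cm n) x)] (f : ℕ → ℂ → M) (l : Filter ℕ)
    (c : ℂ) (ρ : ℝ) (g₀ : ℂ → M) : Prop where
  ne : l.NeBot
  le : l ≤ atTop
  pos : 0 < ρ
  hol : ∀ᶠ k in l, ContinuousOn (f k) (closedBall c ρ) ∧ HolOn n (f k) (ball c ρ)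
  lim : TendstoUniformlyOn f g₀ l (sphere c ρ)
  area : ∀ r < ρ, ∃ C : ℝ, ∀ᶠ k in l,
    ∫⁻ τ in ball c r, ENNReal.ofReal (dens n (f k) τ) ≤ ENNReal.ofReal C

variable {f : ℕ → ℂ → M} {l l' : Filter ℕ} {c : ℂ} {ρ : ℝ} {g₀ : ℂ → M}

theorem H.mono (h : H n f l c ρ g₀) [hn : l'.NeBot] (hl : l' ≤ l) : H n f l' c ρ g₀ :=
  ⟨hn, hl.trans h.le, h.pos, hl h.hol, fun u hu => hl (h.lim u hu),
    fun r hr => (h.area r hr).imp fun _ h => hl h⟩

theorem H.cpt (h : H n f l c ρ g₀) : ∃ K : Set M, IsCompact K ∧ (∀ τ ∈ sphere c ρ, g₀ τ ∈ K) ∧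
    ∀ᶠ k in l, ∀ τ ∈ sphere c ρ, f k τ ∈ K := by
  have := properSpace_riemannian (Cm n) M
  have := h.ne
  have h1 : ContinuousOn g₀ (sphere c ρ) :=
    h.lim.continuousOn (h.hol.mono fun _ h => h.1.mono sphere_subset_closedBall).frequently
  obtain ⟨R, hR⟩ := ((isCompact_sphere c ρ).image_of_continuousOn h1).isBounded.subset_closedBall
    (g₀ c)
  refine ⟨closedBall (g₀ c) (R + 1), isCompact_closedBall _ _, fun τ hτ =>
    closedBall_subset_closedBall (by linarith) (hR (mem_image_of_mem _ hτ)), ?_⟩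
  filter_upwards [Metric.tendstoUniformlyOn_iff.1 h.lim 1 one_pos] with k hk τ hτ
  have h2 : dist (g₀ τ) (g₀ c) ≤ R := hR (mem_image_of_mem _ hτ)
  rw [mem_closedBall]
  linarith [dist_triangle_left (f k τ) (g₀ c) (g₀ τ), hk τ hτ]

theorem H.fun (h : H n f l c ρ g₀) (s : DSC n M) {L : ℕ} {z : Fin L → M → ℂ}
    (hz : ∀ i, IsSec n 0 (z i)) : ∃ F : ℂ → Cm L, ContinuousOn F (closedBall c ρ) ∧
      DifferentiableOn ℂ F (ball c ρ) ∧
      TendstoUniformlyOn (fun k τ => mp z (f k τ)) F l (closedBall c ρ) := by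
  have := h.ne
  obtain ⟨K, hK, h1, h2⟩ := h.cpt
  have hc := mp_cont b1a hz
  exact uc h.pos (h.hol.mono fun k hk => ⟨hc.comp_continuousOn hk.1,
    differentiableOn_pi.2 fun i => s.hol _ _ _ (hz i) hk.2⟩)
    ((hK.uniformContinuousOn_of_continuous hc.continuousOn).comp_tendstoUniformlyOn_eventually
      h2 h1 h.lim)

theorem H.near (h : H n f l c ρ g₀) (s : DSC n M) (hs : HS n M) (h1 : NEAR n M) {τ₁ : ℂ}
    (hτ : τ₁ ∈ closedBall c ρ) {x : M}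
    (hx : ∀ ε > 0, ∃ τ ∈ closedBall c ρ ∩ ball τ₁ ε, ∀ᶠ k in l, dist (f k τ) x < ε) :
    ∃ (ε : ℝ) (g : ℂ → M), 0 < ε ∧ TendstoUniformlyOn f g l (closedBall c ρ ∩ ball τ₁ ε) ∧
      ∃ z : Fin n → M → ℂ, (∀ i, IsSec n 0 (z i)) ∧
        ∀ τ ∈ closedBall c ρ ∩ ball τ₁ ε, jac z (g τ) ≠ 0 := by
  obtain ⟨z, hz, hj⟩ := hs.1 x
  obtain ⟨F, c1, -, c3⟩ := h.fun s hz
  obtain ⟨ε, e, hε, -, h2, h3, h4⟩ := h1 z f l _ τ₁ x F h.ne hz hj (convex_closedBall c ρ) hτ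
    (h.hol.mono fun _ h => h.1) c1 c3 hx
  exact ⟨ε, _, hε, h4, z, hz, fun τ hτ => (h2 _ (e.map_target (h3 hτ))).2⟩

theorem pt {τ₁ : ℂ} (hτ : τ₁ ∈ closedBall c ρ) {x : M} (h : Tendsto (fun k => f k τ₁) l (𝓝 x)) :
    ∀ ε > 0, ∃ τ ∈ closedBall c ρ ∩ ball τ₁ ε, ∀ᶠ k in l, dist (f k τ) x < ε := fun ε hε =>
  ⟨τ₁, ⟨hτ, mem_ball_self hε⟩, Metric.tendsto_nhds.1 h ε hε⟩

theorem H.bd (h : H n f l c ρ g₀) (d : DJ n M) (g : GB n M) (p₀ : LSP n M) (s : DSC n M)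
    (p : DSP n M) {z : Fin n → M → ℂ} (hz : ∀ i, IsSec n 0 (z i)) : ∃ B : ℝ, ∀ᶠ k in l, ∀ i,
      ∀ τ ∈ ball c ρ, ‖z i (f k τ)‖ ≤ B ∧ gr n (z i) (f k τ) ≤ B := by
  obtain ⟨K, hK, -, h2⟩ := h.cpt
  obtain ⟨F, c1, -, c3⟩ := h.fun s hz
  obtain ⟨B₀, h0⟩ := (isCompact_closedBall c ρ).exists_bound_of_continuousOn c1
  have hu := p₀.cont _ (g.psh n z 1 hz one_pos)
  obtain ⟨B₁, h1⟩ := hK.exists_bound_of_continuousOn hu.1.continuousOn
  refine ⟨max (B₀ + 1) (Real.exp B₁), ?_⟩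
  filter_upwards [h.hol, h2, Metric.tendstoUniformlyOn_iff.1 c3 1 one_pos] with k a1 a2 a3 i τ hτ
  have hτ' := ball_subset_closedBall hτ
  refine ⟨le_max_of_le_left ?_, le_max_of_le_right ?_⟩
  · have h3 := norm_le_pi_norm (mp z (f k τ)) i
    have h4 := a3 τ hτ'
    rw [dist_eq_norm'] at h4
    have h5 := norm_sub_norm_le (mp z (f k τ)) (F τ)
    change ‖mp z (f k τ) i‖ ≤ _
    linarith [h0 τ hτ']
  · have h3 := p.max _ (f k) c ρ B₁ hu h.pos a1.1 a1.2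
      (fun w hw => (le_abs_self _).trans (h1 _ (a2 w hw))) τ hτ'
    have h4 := Finset.single_le_sum (f := fun i => gr n (z i) (f k τ))
      (fun j _ => d.gr_nonneg _ _) (Finset.mem_univ i)
    have h5 := d.gr_nonneg (z i) (f k τ)
    rw [Real.log_le_iff_le_exp (by linarith)] at h3
    linarith

/-- the area of the limit -/
theorem H.fin (h : H n f l c ρ g₀) (s : DSC n M) {g : ℂ → M} {V : Set ℂ} (hV : IsOpen V) {r : ℝ}
    (hr : r < ρ) (hs : V ⊆ ball c r) (hg : TendstoLocallyUniformlyOn f g l V) :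
    ∫⁻ τ in V, ENNReal.ofReal (dens n g τ) < ⊤ := by
  obtain ⟨C, hC⟩ := h.area r hr
  obtain ⟨σ, -, h2, h3⟩ := s.seq f g l V _ h.ne h.le hV (h.hol.and hC) hg
  have h4 : ∀ k, HolOn n (f (σ k)) V := fun k =>
    (h2 k).1.2.mono (hs.trans (ball_subset_ball hr.le))
  have h5 := (s.lim _ g atTop V inferInstance hV (Eventually.of_forall h4) h3).2
  calc ∫⁻ τ in V, ENNReal.ofReal (dens n g τ)
      = ∫⁻ τ in V, liminf (fun k => ENNReal.ofReal (dens n (f (σ k)) τ)) atTop :=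
        setLIntegral_congr_fun hV.measurableSet fun τ hτ =>
          (ENNReal.tendsto_ofReal (h5 τ hτ)).liminf_eq.symm
    _ ≤ liminf (fun k => ∫⁻ τ in V, ENNReal.ofReal (dens n (f (σ k)) τ)) atTop :=
        lintegral_liminf_le' fun k =>
          ((s.cont _ V hV (h4 k)).aemeasurable hV.measurableSet).ennreal_ofReal
    _ ≤ ENNReal.ofReal C := liminf_le_of_frequently_le' (Eventually.of_forall fun k =>
        (lintegral_mono_set hs).trans (h2 k).2).frequently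
    _ < ⊤ := ENNReal.ofReal_lt_top

theorem H.loc {U : Ultrafilter ℕ} (h : H n f U c ρ g₀) (d : DJ n M) (g : GB n M) (p₀ : LSP n M)
    (s : DSC n M) (p : DSP n M) (hs : HS n M) (h1 : NEAR n M) (h2 : KPC n M) (h3 : SOP n M) :
    ∃ G, TendstoUniformlyOn f G U (closedBall c ρ) := by
  have a : B1a n M := b1a
  have hb : c + ρ ∈ sphere c ρ := by simp [h.pos.le]
  obtain ⟨ε, G₀, hε, b1, z, hz, b2⟩ := h.near s hs h1 (sphere_subset_closedBall hb)
    (pt (sphere_subset_closedBall hb) (h.lim.tendsto_at hb))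
  obtain ⟨τ₀, b3, b4⟩ := Metric.mem_closure_iff.1
    (closure_ball c h.pos.ne' ▸ sphere_subset_closedBall hb) ε hε
  have b5 : τ₀ ∈ closedBall c ρ ∩ ball (c + ρ) ε := ⟨ball_subset_closedBall b3, mem_ball'.2 b4⟩
  obtain ⟨B, hB⟩ := h.bd d g p₀ s p hz
  obtain ⟨S, G, c1, c2, c3, c4⟩ := h2 z f U c ρ B τ₀ _ h.le hz
    ((h.hol.mono fun _ h => h.2).and hB) b3 (b1.tendsto_at b5) (b2 _ b5)
  obtain ⟨F, -, f2, f3⟩ := h.fun s hz
  refine glue (isCompact_closedBall c ρ) fun τ₁ hτ => ?_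
  suffices H : ∃ x, ∀ ε > 0, ∃ τ ∈ closedBall c ρ ∩ ball τ₁ ε, ∀ᶠ k in U, dist (f k τ) x < ε by
    obtain ⟨x, hx⟩ := H
    obtain ⟨ε, G, hε, h4, -⟩ := h.near s hs h1 hτ hx
    exact ⟨ε, G, hε, h4⟩
  rcases (mem_closedBall.1 hτ).eq_or_lt with h4 | h4
  · exact ⟨_, pt hτ (h.lim.tendsto_at h4)⟩
  obtain ⟨r, r1, r2⟩ := exists_between h4
  have o : IsOpen (ball c r \ ((S ∩ closedBall c r) \ {τ₁})) :=
    isOpen_ball.sdiff ((c1 r r2).subset sdiff_subset).isClosed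
  obtain ⟨δ, hδ, h5⟩ := Metric.isOpen_iff.1 o τ₁ ⟨r1, fun h => h.2 rfl⟩
  have h6 : ball τ₁ δ \ {τ₁} ⊆ ball c r := fun τ hτ => (h5 hτ.1).1
  have h7 : ball τ₁ δ \ {τ₁} ⊆ ball c ρ \ S := fun τ hτ => ⟨ball_subset_ball r2.le (h6 hτ),
    fun h => (h5 hτ.1).2 ⟨⟨h, ball_subset_closedBall (h6 hτ)⟩, hτ.2⟩⟩
  obtain ⟨x, hx⟩ := h3 z G F τ₁ δ B hδ hz (c2.mono h7)
    (f2.mono fun τ hτ => ball_subset_ball r2.le (h5 hτ).1) (fun τ hτ => by
      have h8 := c4.tendsto_at (h7 hτ)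
      refine ⟨tendsto_nhds_unique (((mp_cont a hz).tendsto _).comp h8)
        (f3.tendsto_at (ball_subset_closedBall (h7 hτ).1)), c3 τ (h7 hτ), fun i => ?_⟩
      exact le_of_tendsto (((a.sm_cont _ (g.sm _ (hz i))).tendsto _).comp h8)
        (hB.mono fun k hk => (hk i τ (h7 hτ).1).2))
    (h.fin s (isOpen_ball.sdiff isClosed_singleton) r2 h6 (c4.mono h7))
  refine ⟨x, fun ε hε => ?_⟩
  obtain ⟨τ, t1, t2, t3⟩ :=
    ((mapClusterPt_iff_frequently.1 hx _ (ball_mem_nhds x hε)).and_eventually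
      (inter_mem (sdiff_mem_nhdsWithin_compl (ball_mem_nhds τ₁ hδ) {τ₁})
        (mem_nhdsWithin_of_mem_nhds (ball_mem_nhds τ₁ hε)))).exists
  exact ⟨τ, ⟨ball_subset_closedBall (h7 t2).1, t3⟩,
    (c4.tendsto_at (h7 t2)).eventually (isOpen_ball.mem_nhds t1)⟩

end Kpp

open Kpp

variable {n : ℕ} {M : Type} [MetricSpace M] [ChartedSpace (Cm n) M]
  [IsManifold 𝓘(ℂ, Cm n) 1 M] [IsManifold 𝓘(ℝ, Cm n) ∞ M]
  [RiemannianBundle (fun x : M => TangentSpace 𝓘(ℝ, Cm n) x)]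
  [IsContMDiffRiemannianBundle 𝓘(ℝ, Cm n) ∞ (Cm n) (fun x : M => TangentSpace 𝓘(ℝ, Cm n) x)]
  [IsRiemannianManifold 𝓘(ℝ, Cm n) M] [CompleteSpace M] [ConnectedSpace M] [NoncompactSpace M]
  [MeasurableSpace M] [BorelSpace M] {μ : Measure M}

theorem kpp (_c : Ctx n μ) (d : DJ n M) (g : GB n M) (l : LSP n M) (s : DSC n M) (p : DSP n M)
    (hs : HS n M) (h1 : NEAR n M) (h2 : KPC n M) (h3 : SOP n M) : KPP n M := by
  intro f L c ρ g₀ a1 a2 a3 a4 a5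
  rcases L.eq_or_neBot with rfl | hL
  · exact ⟨g₀, fun u _ => eventually_bot, fun h => absurd rfl h.ne⟩
  have h : H n f L c ρ g₀ := ⟨hL, a1, a2, a3, a4, a5⟩
  obtain ⟨G, hG⟩ := (h.mono (Ultrafilter.of_le L)).loc d g l s p hs h1 h2 h3
  have key : TendstoUniformlyOn f G L (closedBall c ρ) := fun u hu => by
    refine mem_iff_ultrafilter.2 fun U hU => ?_
    obtain ⟨G', hG'⟩ := (h.mono hU).loc d g l s p hs h1 h2 h3
    refine hG'.congr_right (fun τ hτ => ?_) u hu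
    by_contra hne
    obtain ⟨a, ha, h4⟩ := hs.2 _ _ hne
    obtain ⟨F, -, -, f3⟩ := h.fun s (z := fun _ : Fin 1 => a) fun _ => ha
    have hc := mp_cont b1a (z := fun _ : Fin 1 => a) fun _ => ha
    exact h4 (congrFun ((tendsto_nhds_unique ((hc.tendsto _).comp (hG'.tendsto_at hτ))
      ((f3.tendsto_at hτ).mono_left hU)).trans (tendsto_nhds_unique ((hc.tendsto _).comp
        (hG.tendsto_at hτ)) ((f3.tendsto_at hτ).mono_left (Ultrafilter.of_le L))).symm) 0)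
  exact ⟨G, key, fun _ => ⟨key.continuousOn (a3.mono fun _ h => h.1).frequently,
    (s.lim f G L _ hL isOpen_ball (a3.mono fun _ h => h.2)
      (key.mono ball_subset_closedBall).tendstoLocallyUniformlyOn).1⟩⟩

end Vale.Agent.P253W.T
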