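import Vale.Agent.P253W.T.Basic
import Vale.Agent.P253W.Defs
import Vale.Agent.P272.K.C2.Wirt

/-!
# P253W, block T, row KPW: normal families of discs in terms of the flow
-/

open scoped Manifold ContDiff Bundle ENNReal Topology ComplexConjugate Matrix
open Bundle IsManifold MeasureTheory Set Metric Filter Vale.Agent.P253Z
open Vale.Agent.P272.K (Cm Chart)

noncomputable section

namespace Vale.Agent.P253W.T

variable {n : ℕ} {M : Type} [MetricSpace M] [ChartedSpace (Cm n) M]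
  [RiemannianBundle (fun x : M => TangentSpace 𝓘(ℝ, Cm n) x)]

namespace KpwA

theorem gx_zero {F : Flow n M} (hF : F.Is) (x : M) : F.gx 0 x = hm (pc n x) (pc n x x) := by
  have h : hs (F.ψ 0) (pc n x) (pc n x x) = 0 := by
    simp only [hs, hF.zero]
    exact Vale.Agent.P272.K.C2.cHess_const 0
  rw [Flow.gx, Flow.g, h, sub_zero]

theorem nv_zero (a : B1a n M) (b : B1b n M) {F : Flow n M} (hF : F.Is) (f : ℂ → M) (τ : ℂ) :
    F.nv 0 (f τ) (d1 n f τ) = dens n f τ := by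
  rw [Flow.nv, gx_zero hF, dens, b.quad _ (a.chart _) _ (mem_chart_target _ _), qf, d1]
  congr 1
  simp only [dotProduct, Matrix.mulVec, Finset.mul_sum, Pi.star_apply, Complex.star_def]
  exact Finset.sum_congr rfl fun j _ => Finset.sum_congr rfl fun k _ => by ring

/-- isolated points -/
theorem exists_rad {S : Set ℂ} {R : ℝ} (hS : ∀ r < R, (S ∩ closedBall 0 r).Finite) {τ : ℂ}
    (hτ : τ ∈ ball (0 : ℂ) R) :
    ∃ ρ : ℝ, 0 < ρ ∧ ball τ ρ ⊆ ball 0 R ∧ ∀ w ∈ ball τ ρ, w ≠ τ → w ∉ S := by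
  rw [mem_ball_zero_iff] at hτ
  obtain ⟨r, h1, h2⟩ := exists_between hτ
  have h3 : IsClosed ((S ∩ closedBall 0 r) \ {τ}) := ((hS r h2).subset sdiff_subset).isClosed
  have h4 : ((S ∩ closedBall 0 r) \ {τ})ᶜ ∩ ball 0 r ∈ 𝓝 τ :=
    inter_mem (h3.isOpen_compl.mem_nhds fun h => h.2 rfl)
      (isOpen_ball.mem_nhds (mem_ball_zero_iff.2 h1))
  obtain ⟨ρ, hρ, h5⟩ := Metric.mem_nhds_iff.1 h4
  exact ⟨ρ, hρ, fun w hw => ball_subset_ball h2.le (h5 hw).2,
    fun w hw hne h => (h5 hw).1 ⟨⟨h, ball_subset_closedBall (h5 hw).2⟩, hne⟩⟩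

end KpwA

open KpwA

/-- **KPA** -/
theorem kpa (a : B1a n M) (b : B1b n M) (F : Flow n M) (hF : F.Is) (h : KPP n M) : F.KPA := by
  classical
  intro f g r r' R C hr hr' hR hf hg hC
  have h1 : closedBall (0 : ℂ) r ⊆ ball 0 R := closedBall_subset_ball (hr'.trans hR)
  obtain ⟨g₁, hg₁, -⟩ := h f atTop 0 r g le_rfl hr
    (Eventually.of_forall fun k => ⟨(hf k).continuousOn.mono h1,
      (hf k).mono (ball_subset_closedBall.trans h1)⟩)
    (hg.mono fun τ hτ => by
      rw [mem_sphere_zero_iff_norm] at hτ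
      exact ⟨hτ.ge, hτ.le.trans hr'.le⟩)
    fun s hs => ⟨C, Eventually.of_forall fun k => by
      refine le_trans ?_ (hC k)
      simp only [Flow.ar, nv_zero a b hF]
      exact lintegral_mono_set (ball_subset_ball hs.le)⟩
  refine ⟨fun τ => if ‖τ‖ ≤ r then g₁ τ else g τ, fun u hu => ?_⟩
  filter_upwards [hg₁ u hu, hg u hu] with k k1 k2 τ hτ
  by_cases h2 : ‖τ‖ ≤ r
  · rw [if_pos h2]
    exact k1 τ (mem_closedBall_zero_iff.2 h2)
  · rw [if_neg h2]
    exact k2 τ ⟨(not_le.1 h2).le, mem_closedBall_zero_iff.1 hτ⟩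

/-- **KPW** -/
theorem kpw (_ : B1a n M) (_ : B1b n M) (F : Flow n M) (hF : F.Is) (s : DSC n M) (h : KPC n M)
    (e : KPE n M) : F.KPW := by
  intro f x z R C hR hf hx hz hj hC
  obtain ⟨S, g, hS, -, -, hg⟩ := h z f (hyperfilter ℕ) 0 R C 0 x Nat.hyperfilter_le_atTop hz
    (Eventually.of_forall fun k => ⟨hf k, fun i τ hτ => ⟨(hC k i τ hτ).1, by
      have h1 := (hC k i τ hτ).2
      rw [Flow.H, gx_zero hF] at h1
      exact h1⟩⟩)
    (mem_ball_self hR) (hx.mono_left Nat.hyperfilter_le_atTop)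
    fun h0 => hj (by rw [Flow.jc, div_eq_zero_iff]; exact Or.inl h0)
  have hU : IsOpen (ball (0 : ℂ) R \ S) := isOpen_iff_mem_nhds.2 fun τ hτ => by
    obtain ⟨ρ, hρ, h1, h2⟩ := exists_rad hS hτ.1
    refine mem_of_superset (ball_mem_nhds τ hρ) fun w hw => ⟨h1 hw, ?_⟩
    by_cases h3 : w = τ
    · rw [h3]; exact hτ.2
    · exact h2 w hw h3
  obtain ⟨σ, hσ, -, hl⟩ := s.seq f g (hyperfilter ℕ) _ (fun _ => True) inferInstance
    Nat.hyperfilter_le_atTop hU (Eventually.of_forall fun _ => trivial) hg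
  refine ⟨σ, fun τ => haveI : Nonempty M := ⟨x⟩; limUnder atTop fun k => f (σ k) τ, hσ,
    tendstoLocallyUniformlyOn_of_forall_exists_nhds fun τ hτ => ?_⟩
  obtain ⟨ρ, hρ, h1, h2⟩ := exists_rad hS hτ
  have h3 : IsCompact ((fun w => w + τ) '' ann (ρ / 4) (ρ / 2)) := by
    refine IsCompact.image ?_ (by fun_prop)
    refine (isCompact_closedBall (0 : ℂ) (ρ / 2)).of_isClosed_subset ?_
      fun w hw => mem_closedBall_zero_iff.2 hw.2
    exact (isClosed_le continuous_const continuous_norm).inter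
      (isClosed_le continuous_norm continuous_const)
  have h4 : (fun w => w + τ) '' ann (ρ / 4) (ρ / 2) ⊆ ball 0 R \ S := by
    rintro _ ⟨w, hw, rfl⟩
    have h5 : w + τ ∈ ball τ ρ := by
      rw [mem_ball, dist_eq_norm, add_sub_cancel_right]
      linarith [hw.2]
    refine ⟨h1 h5, h2 _ h5 fun h6 => ?_⟩
    have h7 := hw.1
    rw [add_eq_right.1 h6, norm_zero] at h7
    linarith
  have h5 := ((tendstoLocallyUniformlyOn_iff_tendstoUniformlyOn_of_compact h3).1
    (hl.mono h4)).comp fun w => w + τ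
  obtain ⟨G, hG⟩ := e (fun k w => f (σ k) (w + τ)) (fun w => g (w + τ)) (ρ / 4) (ρ / 2) ρ
    (by positivity) (by linarith) (by linarith)
    (fun k => (hf (σ k)).comp (differentiableOn_id.add_const τ).mdifferentiableOn fun w hw =>
      h1 (by rwa [mem_ball, dist_eq_norm, add_sub_cancel_right, ← mem_ball_zero_iff]))
    (h5.mono (subset_preimage_image _ _))
  have h6 : TendstoUniformlyOn (fun k => f (σ k)) (fun w => G (w - τ)) atTop
      (closedBall τ (ρ / 2)) := by
    refine ((hG.comp fun w => w - τ).mono fun w hw => ?_).congr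
      (Eventually.of_forall fun k w _ => ?_)
    · rwa [mem_preimage, mem_closedBall_zero_iff, ← dist_eq_norm]
    · simp
  exact ⟨_, mem_nhdsWithin_of_mem_nhds (closedBall_mem_nhds τ (half_pos hρ)),
    h6.congr_right fun w hw => ((h6.tendsto_at hw).limUnder_eq).symm⟩

end Vale.Agent.P253W.T
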