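import Vale.Agent.P253W.T.Basic
import Vale.Agent.P253Z.Main
import Vale.Agent.P253Z.T2.OT
import Vale.Agent.P253Z.T2.TAU

/-!
# P253W, row T.LOGA: tame plurisubharmonic functions are bounded by tame holomorphic functions
-/

open scoped Manifold ContDiff Bundle ENNReal Topology ComplexOrder
open Bundle IsManifold MeasureTheory Set Metric Filter Vale.Agent.P253.Mfd Vale.Agent.P253Z
open Vale.Agent.P272.K (Cm Chart)
open Vale.Agent.P253Z.T2.Tau (ev_bd L2_ne L2_smul sm_of ex_V)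

set_option linter.unusedSectionVars false

noncomputable section

namespace Vale.Agent.P253W.T

variable {n : ℕ} {M : Type} [MetricSpace M] [ChartedSpace (Cm n) M]
  [IsManifold 𝓘(ℂ, Cm n) 1 M] [IsManifold 𝓘(ℝ, Cm n) ∞ M]
  [RiemannianBundle (fun x : M => TangentSpace 𝓘(ℝ, Cm n) x)]
  [IsContMDiffRiemannianBundle 𝓘(ℝ, Cm n) ∞ (Cm n) (fun x : M => TangentSpace 𝓘(ℝ, Cm n) x)]
  [IsRiemannianManifold 𝓘(ℝ, Cm n) M] [CompleteSpace M] [ConnectedSpace M] [NoncompactSpace M]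
  [MeasurableSpace M] [BorelSpace M] {μ : Measure M}

namespace Loga

/-- `log (1 + |z|²)` -/
def LL (z : Fin n → M → ℂ) (x : M) : ℝ := Real.log (1 + ∑ i, ‖z i x‖ ^ 2)

/-- the weight -/
def ps (z : Fin n → M → ℂ) (φ : M → ℝ) (x : M) : ℝ := 1 * φ x + (n + 2) * LL z x + 0

theorem exp_LL (z : Fin n → M → ℂ) (x : M) : Real.exp (LL z x) = 1 + ∑ i, ‖z i x‖ ^ 2 :=
  Real.exp_log (by positivity)

theorem LL_nonneg (z : Fin n → M → ℂ) (x : M) : 0 ≤ LL z x :=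
  Real.log_nonneg (le_add_of_nonneg_right (by positivity))

theorem exp_LL_le (z : Fin n → M → ℂ) (x : M) :
    Real.exp (LL z x) ≤ (n + 1) * (1 + ‖mp z x‖) ^ 2 := by
  have h : ∑ i, ‖z i x‖ ^ 2 ≤ n * ‖mp z x‖ ^ 2 :=
    (Finset.sum_le_card_nsmul _ _ (‖mp z x‖ ^ 2) fun i _ =>
      pow_le_pow_left₀ (norm_nonneg _) (norm_le_pi_norm (mp z x) i) 2).trans_eq (by simp)
  have h1 := norm_nonneg (mp z x)
  have h2 : (0 : ℝ) ≤ n := Nat.cast_nonneg n
  rw [exp_LL]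
  nlinarith [mul_nonneg h2 h1]

/-- the extension from a point -/
theorem ext (c : Ctx n μ) (d : DJ n M) (l : LSP n M) {z : Fin n → M → ℂ}
    (hz : ∀ i, IsSec n 0 (z i)) : ∃ C : ℝ, 0 ≤ C ∧ ∀ (φ : M → ℝ) (V : Submodule ℂ (M → ℂ)),
      SPsh n φ → (∀ s, s ∈ V ↔ IsSec n 1 s ∧ L2 n μ 1 (ps z φ) s < ⊤) → Module.Finite ℂ V →
      ∀ x, jac z x ≠ 0 → ∃ s ∈ V, ‖jac z x‖ ≤ 2 * ‖s x‖ ∧
        (L2 n μ 1 (ps z φ) s).toReal ≤ C * Real.exp (-φ x) * (1 + ‖mp z x‖) ^ (2 * n) := by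
  have A := all c
  obtain ⟨C, hC, h⟩ := T2.ot2 c.npos A.a A.b A.v (ctx_hor c)
  have hL : SPsh n (LL z) := l.sum n z hz
  refine ⟨C * (2 * (n + 1)) ^ n, by positivity, fun φ V hφ hV hf x hx => ?_⟩
  obtain ⟨e, he, hxe, h1⟩ := d.chart z hz x hx
  obtain ⟨p1, p2⟩ := l.lin φ (LL z) 1 (n + 2) 0 hφ.1 hL.1
  obtain ⟨k1, k2⟩ := l.lin (LL z) (LL z) 1 0 (Real.log 2 + LL z x) hL.1 hL.1
  have t1 : ∀ e : Chart n M, Hc e → ∀ w ∈ e.target, th (1 - (0 : ℕ))
      (fun y => 1 * LL z y + 0 * LL z y + (Real.log 2 + LL z x)) e w = hs (LL z) e w :=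
    fun e he w hw => by
      rw [A.b.th_eq _ _ k1 e he w hw]
      refine Eq.trans (by simp [hs]) ((k2 e he w hw).trans (by simp))
  have t2 : ∀ e : Chart n M, Hc e → ∀ w ∈ e.target, th 1 (ps z φ) e w =
      hs φ e w + ((n + 2 : ℝ) : ℂ) • hs (LL z) e w := fun e he w hw => by
    rw [A.b.th_eq _ (ps z φ) p1 e he w hw]
    refine Eq.trans (by simp [hs, ps]) ((p2 e he w hw).trans (by simp))
  obtain ⟨s, s1, s2, s3⟩ := h 1 0 (ps z φ) _ (fun i y => z i y + -z i x) V p1 k1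
    (fun i => sec_add (hz i) (sec_const _)) (fun y => by
      have h2 : ∑ i, nrm n (-(0 : ℕ)) (fun y => z i y + -z i x) y ≤
          ∑ i, (2 * ‖z i y‖ ^ 2 + 2 * ‖z i x‖ ^ 2) := Finset.sum_le_sum fun i _ => by
        refine (nrm0 _ _).trans_le ?_
        have h3 := pow_le_pow_left₀ (norm_nonneg _) (norm_add_le (z i y) (-z i x)) 2
        rw [norm_neg] at h3
        nlinarith [sq_nonneg (‖z i y‖ - ‖z i x‖)]
      have h3 : 0 ≤ ∑ i, ‖z i y‖ ^ 2 := by positivity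
      have h4 : 0 ≤ ∑ i, ‖z i x‖ ^ 2 := by positivity
      rw [one_mul, zero_mul, add_zero, Real.exp_add, Real.exp_add, Real.exp_log two_pos, exp_LL,
        exp_LL]
      rw [Finset.sum_add_distrib, ← Finset.mul_sum, ← Finset.mul_sum] at h2
      nlinarith [mul_nonneg h3 h4])
    (fun e he w hw => t1 e he w hw ▸ hL.2 e he w hw)
    (fun e he w hw => by rw [t1 e he w hw, t2 e he w hw, add_sub_cancel_right]; exact hφ.2 e he w hw)
    hV hf e he (e x) (e.map_source hxe) (fun _ => 1) one_ne_zero analyticAt_const (by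
      filter_upwards [e.open_target.mem_nhds (e.map_source hxe)] with w hw i
      have h2 := congrFun (h1 _ (e.map_target hw)).1 i
      rw [e.right_inv hw] at h2
      rw [one_mul, h2, (h1 x hxe).1, sub_eq_add_neg]
      exact congrFun (co0 _ e) w)
  refine ⟨s, (hV s).2 ⟨s1, s3.trans_lt ENNReal.ofReal_lt_top⟩, ?_, ?_⟩
  · have h2 := d.co z hz e he _ (e.map_source hxe)
    rw [funext (d.one z e he (fun y hy => (h1 y hy).1) _ (e.map_source hxe)),
      show (Matrix.of fun i : Fin n => (Pi.single i 1 : Cm n)) = 1 from Matrix.ext fun i j => by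
        simp [Matrix.one_apply, Pi.single_apply, eq_comm], Matrix.det_one] at h2
    have h3 := congrArg norm h2
    simp only [co, e.left_inv hxe, norm_mul, norm_one] at h3 s2
    nlinarith [norm_nonneg (jac z x), norm_nonneg (s x)]
  · refine ENNReal.toReal_le_of_le_ofReal (by positivity) (s3.trans (ENNReal.ofReal_le_ofReal ?_))
    have h2 := pow_le_pow_left₀ (Real.exp_pos _).le (exp_LL_le z x) n
    have h3 : Real.exp (-wt 1 (ps z φ) e (e x) + n * wt (1 - (0 : ℕ))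
        (fun y => 1 * LL z y + 0 * LL z y + (Real.log 2 + LL z x)) e (e x)) ≤
        Real.exp (-φ x) * (Real.exp (Real.log 2) ^ n * Real.exp (LL z x) ^ n) := by
      rw [← mul_pow, ← Real.exp_add, ← Real.exp_nat_mul, ← Real.exp_add]
      simp only [wt, ps, e.left_inv hxe]
      push_cast
      exact Real.exp_le_exp.2 (by nlinarith [LL_nonneg z x])
    rw [norm_one, one_pow, div_one, mul_assoc, mul_assoc]
    refine mul_le_mul_of_nonneg_left (h3.trans ?_) hC.le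
    rw [Real.exp_log two_pos]
    refine (mul_le_mul_of_nonneg_left (mul_le_mul_of_nonneg_left h2 (by positivity))
      (Real.exp_pos _).le).trans_eq ?_
    rw [mul_pow, mul_pow, pow_mul]
    ring

theorem span_bd {L : ℕ} {g : Fin L → M → ℂ} {f : M → ℂ} (hf : f ∈ Submodule.span ℂ (range g)) :
    ∃ D : ℝ, 0 ≤ D ∧ ∀ x, ‖f x‖ ≤ D * √(∑ i, ‖g i x‖ ^ 2) := by
  obtain ⟨a, rfl⟩ := (Submodule.mem_span_range_iff_exists_fun ℂ).1 hf
  refine ⟨∑ i, ‖a i‖, by positivity, fun x => ?_⟩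
  rw [Finset.sum_apply, Finset.sum_mul]
  refine norm_sum_le_of_le _ fun i _ => ?_
  rw [Pi.smul_apply, norm_smul]
  exact mul_le_mul_of_nonneg_left (Real.le_sqrt_of_sq_le (Finset.single_le_sum
    (f := fun i => ‖g i x‖ ^ 2) (fun _ _ => by positivity) (Finset.mem_univ i))) (norm_nonneg _)

end Loga

open Loga

theorem loga (c : Ctx n μ) (d : DJ n M) (l : LSP n M) {o : M} {G : Gauge n o} {Ω : M → ℂ}
    (hO : G.Triv Ω) (h1 : G.BERG μ) (h2 : G.FIN) (_h3 : MVU n μ o) : G.LOGA Ω := by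
  intro z hz k
  have A := all c
  have hz' := fun i => (hz i).sec
  obtain ⟨kL, hkL⟩ := Gauge.tame_sum hz
  obtain ⟨k', h4⟩ := h1 _ (l.triv Ω hO.sec hO.ne).1 hO.tame (k + (n + 2) * kL)
  obtain ⟨L, g, hg, h5⟩ := h2 k'
  obtain ⟨C, hC, h6⟩ := ext c d l hz'
  refine ⟨L, 2 * n, g, hg, fun φ hφ hk => ?_⟩
  have cψ : Continuous (ps z φ) :=
    A.a.sm_cont _ (l.lin φ (LL z) 1 (n + 2) 0 hφ.1 (l.sum n z hz').1).1
  obtain ⟨V, hV⟩ := ex_V A.v 1 cψ
  have h7 : ∀ s ∈ V, (fun x => s x / Ω x) ∈ Submodule.span ℂ (range g) := fun s hs =>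
    h5 _ (h4 _ _ (sec_div A.a ((hV s).1 hs).1 hO.sec hO.ne) cψ
      ((hk.add (hkL.mul (q := n + 2) (by positivity))).of_le fun x => by simp [ps, LL])
      (lt_of_eq_of_lt (lintegral_congr fun x => by
        rw [sub_eq_add_neg, Real.exp_add, exp_lg A.a A.b (hO.ne x), ← mul_assoc,
          nrm_div (hO.ne x)]) ((hV s).1 hs).2))
  have hf : Module.Finite ℂ V := by
    have := FiniteDimensional.span_of_finite ℂ (finite_range g)
    refine Submodule.finiteDimensional_of_le (S₂ := (Submodule.span ℂ (range g)).map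
      (LinearMap.mulRight ℂ Ω)) fun s hs => ⟨_, h7 s hs, funext fun x => ?_⟩
    exact div_mul_cancel₀ _ (hO.ne x)
  obtain ⟨r, B, C₁, C1, hB⟩ := ev_bd (fun h : V => (L2 n μ 1 (ps z φ) h).toReal)
    (fun h h' => ENNReal.toReal_pos (L2_ne A.a A.b A.v cψ ((hV h).1 h.2).1
      fun e' => h' (Subtype.ext e')) ((hV h).1 h.2).2.ne)
    (fun c h => by
      rw [Submodule.coe_smul, L2_smul, ENNReal.toReal_mul, ENNReal.toReal_ofReal (sq_nonneg _)])
    fun h h' => by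
      have g1 := ((hV h).1 h.2).2.ne
      have g2 := ((hV h').1 h'.2).2.ne
      refine (ENNReal.toReal_mono (by finiteness) (A.v.add _ _ h h' cψ (sm_of ((hV h).1 h.2).1)
        (sm_of ((hV h').1 h'.2).1))).trans_eq ?_
      rw [ENNReal.toReal_add (by finiteness) (by finiteness), ENNReal.toReal_mul,
        ENNReal.toReal_mul, ENNReal.toReal_ofNat]
  choose D D0 hD using fun i => span_bd (h7 _ (B i).2)
  have D1 : 0 ≤ ∑ i, D i := Finset.sum_nonneg fun i _ => D0 i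
  refine ⟨4 * C₁ * (∑ i, D i) ^ 2 * C, fun x => ?_⟩
  have h8 : 0 ≤ ∑ i, ‖g i x‖ ^ 2 := by positivity
  by_cases hx : jac z x = 0
  · rw [hx, zero_div, norm_zero, zero_pow two_ne_zero, mul_zero]
    positivity
  obtain ⟨s, s1, s2, s3⟩ := h6 φ V hφ hV hf x hx
  have h9 := hB (((Ω x)⁻¹ • LinearMap.proj x) ∘ₗ V.subtype) ((∑ i, D i) * √(∑ i, ‖g i x‖ ^ 2))
    (fun i => by
      refine le_trans (le_of_eq ?_) ((hD i x).trans (mul_le_mul_of_nonneg_right
        (Finset.single_le_sum (fun i _ => D0 i) (Finset.mem_univ i)) (Real.sqrt_nonneg _)))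
      rw [div_eq_inv_mul]
      rfl) ⟨s, s1⟩
  change ‖(Ω x)⁻¹ * s x‖ ^ 2 ≤ _ * (L2 n μ 1 (ps z φ) s).toReal at h9
  rw [mul_pow, Real.sq_sqrt h8] at h9
  have h10 : ‖jac z x / Ω x‖ ^ 2 ≤ 4 * ‖(Ω x)⁻¹ * s x‖ ^ 2 := by
    rw [div_eq_inv_mul, norm_mul, norm_mul]
    calc _ ≤ (‖(Ω x)⁻¹‖ * (2 * ‖s x‖)) ^ 2 := by gcongr
      _ = _ := by ring
  have h11 := h9.trans (mul_le_mul_of_nonneg_left s3 (by positivity))
  calc _ ≤ Real.exp (φ x) * (4 * (C₁ * ((∑ i, D i) ^ 2 * ∑ i, ‖g i x‖ ^ 2) *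
        (C * Real.exp (-φ x) * (1 + ‖mp z x‖) ^ (2 * n)))) :=
        mul_le_mul_of_nonneg_left (h10.trans (by linarith)) (Real.exp_pos _).le
    _ = _ := by
        rw [Real.exp_neg]
        field_simp

end Vale.Agent.P253W.T
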