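import Vale.Agent.P253W.T.Basic
import Vale.Agent.P253Z.T2.LSE.Good
import Vale.Agent.P253Z.HJ.Mod
import Vale.Agent.P253Z.FR.A
import Vale.Agent.P272.K.C2.PosLin
import Vale.Agent.P253.R2.H618.Exh2

/-!
# P253W, block T, row LSP: plurisubharmonic functions made of sections
-/

open scoped Manifold ContDiff Bundle Topology ComplexConjugate ComplexOrder
open Bundle IsManifold Set Metric Filter Vale.Agent.P253.Mfd Vale.Agent.P253Z
open Vale.Agent.P272.K (Cm dz dzb cHess jacM Chart)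
open Vale.Agent.P272.K.C2
open Vale.Agent.P253.R2.H451 (ContPsh)
open Vale.Agent.P253.R2.H618 (FourGe fourGe_of_C2 harmW_disc four_submean leviForm)
open Vale.Agent.P253Z.T2
open Vale.Agent.P253Z.HJ (nsq two_le)

noncomputable section

namespace Vale.Agent.P253W.T

variable {n : ℕ}

namespace Lsp

theorem psd_le {A : Mx n} (hA : A.PosSemidef) {T : ℝ} (hT : A.trace.re ≤ T) :
    ((T : ℂ) • (1 : Mx n) - A).PosSemidef := by
  have h3 : (((T - A.trace.re : ℝ) : ℂ) • (1 : Mx n)).PosSemidef :=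
    Matrix.PosSemidef.one.smul (by exact_mod_cast sub_nonneg.2 hT)
  have h4 : (A.trace.re : ℂ) = A.trace :=
    Complex.ext rfl (by rw [Complex.ofReal_im]; exact (Complex.le_def.1 hA.trace_nonneg).2)
  have h6 := h3.add (trace_smul_one_sub_posSemidef hA)
  rwa [Complex.ofReal_sub, h4, sub_smul, sub_add_sub_cancel] at h6

theorem pb_eq (S H : Mx n) : pb S H = S.transpose * H * S.transpose.conjTranspose := rfl

theorem pb_psd {S H : Mx n} (h : H.PosSemidef) : (pb S H).PosSemidef :=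
  h.mul_mul_conjTranspose_same S.transpose

theorem pb_pos {S H : Mx n} (h : H.PosDef) (hS : S.det ≠ 0) : (pb S H).PosDef :=
  h.mul_mul_conjTranspose_same (B := S.transpose) (Matrix.vecMul_injective_of_isUnit
    ((Matrix.isUnit_iff_isUnit_det _).2 (by rw [Matrix.det_transpose]; exact hS.isUnit)))

theorem pb_sub (S A B : Mx n) (c : ℂ) : pb S (c • A - B) = c • pb S A - pb S B := by
  simp only [pb, Matrix.mul_sub, Matrix.sub_mul, Matrix.mul_smul, Matrix.smul_mul]

/-- `log |f|²` is pluriharmonic -/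
theorem hess_log {f : Cm n → ℂ} {U : Set (Cm n)} (hU : IsOpen U)
    (h : ∀ z ∈ U, AnalyticAt ℂ f z ∧ f z ≠ 0) {z : Cm n} (hz : z ∈ U) :
    cHess (fun y => Real.log (‖f y‖ ^ 2)) z = 0 := by
  have g := good_sq hU fun z hz => (h z hz).1
  have p : 0 < ‖f z‖ ^ 2 := pow_pos (norm_pos_iff.2 (h z hz).2) 2
  have h1 := g.psd hU hz p
  have h2 := (good_sq (f := fun y => (f y)⁻¹) hU fun z hz => (h z hz).1.inv (h z hz).2).psd hU hz
    (pow_pos (norm_pos_iff.2 (inv_ne_zero (h z hz).2)) 2)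
  simp only [norm_inv, inv_pow, Real.log_inv] at h2
  rw [cHess_neg (((g.2 z hz).log p.ne').of_le two_le)] at h2
  exact h1.trace_eq_zero_iff.1 (le_antisymm (by simpa using h2.trace_nonneg) h1.trace_nonneg)

/-- `log (1 + |z|²)` is strictly plurisubharmonic -/
theorem fs_pos (z : Cm n) : (cHess (fun y : Cm n => Real.log (nsq y + 1)) z).PosDef := by
  have s0 := HJ.nsq_nonneg z
  have p : 0 < nsq z + 1 := by linarith
  have h1 := HJ.rad_psd (α := nsq z / (nsq z + 1) ^ 2) (β := -(1 / (nsq z + 1) ^ 2)) z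
    (by positivity) (le_of_eq (by ring))
  have h2 : (((1 / (nsq z + 1) ^ 2 : ℝ) : ℂ) • (1 : Mx n)).PosDef :=
    Matrix.PosDef.one.smul (by exact_mod_cast (show 0 < 1 / (nsq z + 1) ^ 2 by positivity))
  convert h2.add_posSemidef h1 using 1
  ext j k
  have q : ((nsq z : ℂ) + 1) ≠ 0 := by exact_mod_cast p.ne'
  rw [cHess_log (u := fun y => nsq y + 1) ((HJ.contDiff_nsq.add contDiff_const).contDiffAt.of_le
    two_le) p, HJ.cHess_nsq, HJ.dz_nsq, HJ.dzb_nsq]
  simp only [Matrix.add_apply, Matrix.smul_apply, Matrix.of_apply, smul_eq_mul]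
  push_cast
  field_simp
  ring

variable {M : Type} [MetricSpace M] [ChartedSpace (Cm n) M]
  [RiemannianBundle (fun x : M => TangentSpace 𝓘(ℝ, Cm n) x)] {u v ψ F : M → ℝ} {s : M → ℂ}
  {e : Chart n M} {k : ℤ} {δ : ℝ}

theorem cont [IsManifold 𝓘(ℂ, Cm n) 1 M] [IsManifold 𝓘(ℝ, Cm n) ∞ M] (a : B1a n M)
    (h : SPsh n u) : ContPsh (Cm n) u := by
  have hc := a.sm_cont u h.1
  refine ⟨hc, fun f c r hr hf hf' => four_submean (u := fun z => u (f z)) hr
    (hc.comp_continuousOn hf) fun z₀ hz₀ η hη => ?_⟩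
  have he := a.chart (f z₀)
  have hs := mem_chart_source (Cm n) (f z₀)
  have h1 : FourGe (E := Cm n) u (f z₀) 0 := fourGe_of_C2 fun e he hx =>
    ⟨fun z hz => ((h.1 e he z hz).of_le two_le).contDiffWithinAt, fun v => by
      have := (P284Z.cHess_psd_iff ((h.1 e he _ (e.map_source hx)).of_le two_le)).1
        (h.2 e he _ (e.map_source hx)) v
      rw [mul_zero, zero_mul]
      exact this⟩
  refine (h1 _ he hs _ _ (harmW_disc isOpen_ball hf' hz₀ he hs) η hη).mono fun t ht => ?_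
  linarith

omit [RiemannianBundle (fun x : M => TangentSpace 𝓘(ℝ, Cm n) x)] in
theorem of_good (h : ∀ e : Chart n M, Hc e → Good (fun z => F (e.symm z)) e.target) :
    SPsh n F ∧ (0 < δ → SPsh n fun x => Real.log (δ + F x)) :=
  ⟨⟨fun e he => (h e he).2, fun e he z hz => (h e he).1.psh.cHess_psd
    (e.open_target.mem_nhds hz) (((h e he).2 z hz).of_le two_le)⟩, fun hδ =>
    ⟨fun e he z hz => (contDiffAt_const.add ((h e he).2 z hz)).log
      (add_pos_of_pos_of_nonneg hδ ((h e he).nonneg hz)).ne', fun e he _ hz =>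
      ((good_const hδ.le _).add (h e he)).psd e.open_target hz
        (add_pos_of_pos_of_nonneg hδ ((h e he).nonneg hz))⟩⟩

theorem lv_sm (b : B1b n M) (he : Hc e) {z : Cm n} (hz : z ∈ e.target) :
    ContDiffAt ℝ ∞ (fun y => -Real.log (vd e y)) z :=
  ((b.vd_sm e he z hz).log (b.vd_pos e he z hz).ne').neg

theorem good (b : B1b n M) (hs' : IsSec n k s) (hψ : Sm n ψ) (he : Hc e)
    (h : ∀ z ∈ e.target, ((k : ℂ) • ric e z + hs ψ e z).PosSemidef) :
    Good (fun z => nrm n k s (e.symm z) * Real.exp (ψ (e.symm z))) e.target := by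
  refine ((good_sq e.open_target (hs' e he)).mul (good_exp
    (φ := fun y => k * -Real.log (vd e y) + ψ (e.symm y)) fun z hz =>
      ⟨(contDiffAt_const.mul (lv_sm b he hz)).add (hψ e he z hz), ?_⟩)).congr e.open_target
    fun z hz => ?_
  · rw [cHess_add ((contDiffAt_const.mul (lv_sm b he hz)).of_le two_le)
      ((hψ e he z hz).of_le two_le), FRa.cHess_smul]
    exact h z hz
  · rw [b.nrm_eq k s e he z hz, Real.exp_add, mul_assoc, ← Real.rpow_intCast,
      Real.rpow_def_of_pos (b.vd_pos e he z hz)]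
    congr 3
    push_cast
    ring

theorem sm (b : B1b n M) (hs' : IsSec n k s) : Sm n (nrm n k s) := fun e he z hz => by
  refine (((((hs' e he z hz).contDiffAt (n := ∞)).restrict_scalars ℝ).norm_sq ℂ).mul
    (contDiffAt_const.mul (lv_sm b he hz) : ContDiffAt ℝ ∞ (fun y => (k : ℝ) * _) z).exp
    ).congr_of_eventuallyEq ?_
  filter_upwards [e.open_target.mem_nhds hz] with y hy
  rw [b.nrm_eq k s e he y hy, ← Real.rpow_intCast, Real.rpow_def_of_pos (b.vd_pos e he y hy)]
  congr 2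
  push_cast
  ring

omit [RiemannianBundle (fun x : M => TangentSpace 𝓘(ℝ, Cm n) x)] in
theorem sum {L : ℕ} {a : Fin L → M → ℂ} (h : ∀ i, IsSec n 0 (a i)) :
    SPsh n fun x => Real.log (1 + ∑ i, ‖a i x‖ ^ 2) :=
  (of_good (F := fun x => ∑ i, ‖a i x‖ ^ 2) fun e he => good_sum _ fun i _ =>
    good_sq e.open_target (sec0.1 (h i) e he)).2 one_pos

theorem triv (a : B1a n M) (b : B1b n M) {Ω : M → ℂ} (h : IsSec n 1 Ω) (h0 : ∀ x, Ω x ≠ 0)
    (he : Hc e) {z : Cm n} (hz : z ∈ e.target) : hs (lg n Ω) e z = ric e z := by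
  have ne : ∀ y ∈ e.target, co 1 Ω e y ≠ 0 := fun y hy => mul_ne_zero (zpow_ne_zero _
    (a.jac_ne _ _ he (a.chart _) _ (e.map_target hy) (mem_chart_source _ _))) (h0 _)
  have p : ∀ y ∈ e.target, ‖co 1 Ω e y‖ ^ 2 ≠ 0 := fun y hy =>
    pow_ne_zero 2 (norm_ne_zero_iff.2 (ne y hy))
  rw [hs, cHess_congr (v := fun y => Real.log (‖co 1 Ω e y‖ ^ 2) + -Real.log (vd e y)),
    cHess_add ((((good_sq e.open_target (h e he)).2 z hz).log (p z hz)).of_le two_le)
      ((lv_sm b he hz).of_le two_le),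
    hess_log e.open_target (fun y hy => ⟨h e he y hy, ne y hy⟩) hz, zero_add, ric]
  filter_upwards [e.open_target.mem_nhds hz] with y hy
  rw [lg, b.nrm_eq 1 Ω e he y hy, zpow_neg, zpow_one,
    Real.log_mul (p y hy) (inv_ne_zero (b.vd_pos e he y hy).ne'), Real.log_inv]

theorem hs_ch (b : B1b n M) (hu : Sm n u) {e' : Chart n M} (he : Hc e) (he' : Hc e') {x : M}
    (hx : x ∈ e.source) (hx' : x ∈ e'.source) :
    hs u e (e x) = pb (jacM e e' x) (hs u e' (e' x)) := by
  have := b.th_ch 1 u hu e e' he he' x hx hx'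
  rw [b.th_eq 1 u hu e he _ (e.map_source hx), b.th_eq 1 u hu e' he' _ (e'.map_source hx')] at this
  simpa [hs] using this

theorem strict (a : B1a n M) (b : B1b n M) (d : DJ n M) {z : Fin n → M → ℂ}
    (h : ∀ i, IsSec n 0 (z i)) (he : Hc e) {w : Cm n} (hw : w ∈ e.target)
    (h0 : jac z (e.symm w) ≠ 0) :
    (hs (fun x => Real.log (1 + ∑ i, ‖z i x‖ ^ 2)) e w).PosDef := by
  obtain ⟨e', he', hx, h1⟩ := d.chart z h _ h0
  have := hs_ch b (sum h).1 he he' (e.map_target hw) hx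
  rw [e.right_inv hw] at this
  rw [this]
  refine pb_pos ?_ (a.jac_ne _ _ he he' _ (e.map_target hw) hx)
  rw [hs, cHess_congr (v := fun y => Real.log (nsq y + 1))]
  · exact fs_pos _
  · filter_upwards [e'.open_target.mem_nhds (e'.map_source hx)] with y hy
    have := (h1 _ (e'.map_target hy)).1
    rw [e'.right_inv hy] at this
    rw [add_comm, nsq]
    congr 2
    exact Finset.sum_congr rfl fun i _ => by rw [congrFun this i, mp]

theorem ricb (a : B1a n M) (b : B1b n M) (r : B2 n M) {K : Set M} (hK : IsCompact K) :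
    ∃ N : ℝ, 0 ≤ N ∧ ∀ e : Chart n M, Hc e → ∀ z ∈ e.target,
      e.symm z ∈ K → ((N : ℂ) • hm e z - ric e z).PosSemidef := by
  have up : ∀ {N N' : ℝ} {e : Chart n M} {z}, Hc e → z ∈ e.target → N ≤ N' →
      ((N : ℂ) • hm e z - ric e z).PosSemidef → ((N' : ℂ) • hm e z - ric e z).PosSemidef :=
    fun {N N' e z} he hz l h => by
      have := ((b.wpos e he z hz).posSemidef.smul (a := ((N' - N : ℝ) : ℂ))
        (by exact_mod_cast sub_nonneg.2 l)).add h
      rwa [Complex.ofReal_sub, sub_smul, sub_add_sub_cancel] at this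
  refine hK.induction_on (p := fun S => ∃ N : ℝ, 0 ≤ N ∧ ∀ e : Chart n M, Hc e → ∀ z ∈ e.target,
    e.symm z ∈ S → ((N : ℂ) • hm e z - ric e z).PosSemidef) ⟨0, le_rfl, fun _ _ _ _ h => h.elim⟩
    (fun S T l ⟨N, h0, h⟩ => ⟨N, h0, fun e he z hz m => h e he z hz (l m)⟩)
    (fun S T ⟨N, h0, h⟩ ⟨N', _, h'⟩ => ⟨max N N', le_max_of_le_left h0, fun e he z hz m =>
      m.elim (fun m => up he hz (le_max_left _ _) (h e he z hz m))
        fun m => up he hz (le_max_right _ _) (h' e he z hz m)⟩) fun x _ => ?_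
  set e₀ := pc n x
  have h₀ : Hc e₀ := a.chart x
  have hx : x ∈ e₀.source := mem_chart_source _ x
  obtain ⟨ρ, hρ, hB⟩ := nhds_basis_closedBall.mem_iff.1
    (e₀.open_target.mem_nhds (e₀.map_source hx))
  obtain ⟨l, l0, hl⟩ := FRa.unif (isCompact_closedBall (e₀ x) ρ) (H := hm e₀)
    (fun j k z hz => (b.wsm e₀ h₀ z (hB hz) j k).continuousAt.continuousWithinAt)
    fun z hz => b.wpos e₀ h₀ z (hB hz)
  obtain ⟨T, hT⟩ := (isCompact_closedBall (e₀ x) ρ).exists_bound_of_continuousOn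
    (f := fun z => (ric e₀ z).trace) (continuousOn_finsetSum _ fun i _ z hz =>
      (contDiffAt_cHess (m := 0) ((lv_sm b h₀ (hB hz)).of_le two_le) (by norm_num) i
        i).continuousAt.continuousWithinAt)
  have T0 : 0 ≤ T := (norm_nonneg _).trans (hT _ (mem_closedBall_self hρ.le))
  refine ⟨e₀.source ∩ e₀ ⁻¹' ball (e₀ x) ρ, mem_nhdsWithin_of_mem_nhds
    ((e₀.isOpen_inter_preimage isOpen_ball).mem_nhds ⟨hx, mem_ball_self hρ⟩), T / l,
    by positivity, fun e he z hz m => ?_⟩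
  have hy := ball_subset_closedBall m.2
  have e1 := b.wch e e₀ he h₀ _ (e.map_target hz) m.1
  have e2 := b.ric_ch e e₀ he h₀ _ (e.map_target hz) m.1
  rw [e.right_inv hz] at e1 e2
  rw [e1, e2, ← pb_sub]
  refine pb_psd ?_
  have := ((hl _ hy).smul (a := ((T / l : ℝ) : ℂ)) (by exact_mod_cast div_nonneg T0 l0.le)).add
    (psd_le (r e₀ h₀ _ (hB hy)).posSemidef ((Complex.re_le_norm _).trans (hT _ hy)))
  rwa [smul_sub, smul_smul, ← Complex.ofReal_mul, div_mul_cancel₀ _ l0.ne',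
    sub_add_sub_cancel] at this

end Lsp

variable {M : Type} [MetricSpace M] [ChartedSpace (Cm n) M]
  [IsManifold 𝓘(ℂ, Cm n) 1 M] [IsManifold 𝓘(ℝ, Cm n) ∞ M]
  [RiemannianBundle (fun x : M => TangentSpace 𝓘(ℝ, Cm n) x)]

open Lsp in
theorem lsp (a : B1a n M) (b : B1b n M) (r : B2 n M) (d : DJ n M) : LSP n M where
  cont _ h := cont a h
  sm _ _ h := sm b h
  log _ _ _ _ h hψ hδ k := (of_good fun e he => good b h hψ he (k e he)).2 hδ
  mul _ _ _ h hψ k := (of_good (δ := 1) fun e he => good b h hψ he (k e he)).1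
  log0 g _ h hδ := (of_good (F := fun x => ‖g x‖ ^ 2) fun e he =>
    good_sq e.open_target (sec0.1 h e he)).2 hδ
  log1 η _ h hδ := (of_good (F := nrm n 1 η) fun e he =>
    ((good_sq e.open_target (h e he)).mul (good_vd b r he 1)).congr e.open_target fun z hz => by
      rw [b.nrm_eq 1 η e he z hz, zpow_neg, zpow_one, pow_one]).2 hδ
  triv Ω h h0 := ⟨⟨fun e he z hz => (sm b h e he z hz).log (nrm_pos a b 1 (h0 _)).ne',
    fun e he z hz => triv a b h h0 he hz ▸ (r e he z hz).posSemidef⟩,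
    fun _ he _ hz => triv a b h h0 he hz⟩
  sum _ _ h := sum h
  strict _ h _ he _ hw h0 := strict a b d h he hw h0
  lin u v p q c hu hv := ⟨fun e he z hz => ((contDiffAt_const.mul (hu e he z hz)).add
    (contDiffAt_const.mul (hv e he z hz))).add contDiffAt_const, fun e he z hz => by
      have h1 := (contDiffAt_const (c := p).mul (hu e he z hz)).of_le two_le
      have h2 := (contDiffAt_const (c := q).mul (hv e he z hz)).of_le two_le
      rw [hs, cHess_add (h1.add h2) contDiffAt_const, cHess_add h1 h2, cHess_const, add_zero,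
        FRa.cHess_smul, FRa.cHess_smul, hs, hs]⟩
  ricb _ hK := ricb a b r hK

end Vale.Agent.P253W.T
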