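import Vale.Agent.P253W.T.Defs

/-!
# P253W, block T: discs stay in a chart given by holomorphic functions
-/

open scoped Manifold ContDiff Bundle Topology
open Bundle Set Metric Filter Vale.Agent.P253.Mfd Vale.Agent.P253Z
open Vale.Agent.P272.K (Cm Chart)

noncomputable section

namespace Vale.Agent.P253W.T

variable {n : ℕ} {M : Type} [MetricSpace M] [ChartedSpace (Cm n) M]
  [RiemannianBundle (fun x : M => TangentSpace 𝓘(ℝ, Cm n) x)]

theorem near (d : DJ n M) : NEAR n M := by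
  intro z f l K τ₀ x₀ F hl hz hj hK h₀ hf hF hT hx
  obtain ⟨e, he, hs, hez⟩ := d.chart z hz x₀ hj
  obtain ⟨ρ, hρ, hsub⟩ := nhds_basis_closedBall.mem_iff.1
    (e.open_target.mem_nhds (e.map_source hs))
  have hV : ∀ r > 0, ∃ δ > 0, ∀ y, dist y x₀ < δ → y ∈ e.source ∧ e y ∈ ball (e x₀) r :=
    fun r hr => Metric.eventually_nhds_iff.1 ((e.open_source.eventually_mem hs).and
      ((e.continuousAt hs).eventually (ball_mem_nhds _ hr)))
  have hF0 : F τ₀ = e x₀ := by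
    refine eq_of_forall_dist_le fun r hr => ?_
    obtain ⟨δ, hδ, h1⟩ := hV (r / 3) (by positivity)
    obtain ⟨δ', hδ', h2⟩ := Metric.continuousWithinAt_iff.1 (hF τ₀ h₀) (r / 3) (by positivity)
    obtain ⟨τ, hτ, h3⟩ := hx (min δ δ') (by positivity)
    obtain ⟨k, h4, h5⟩ := (h3.and (Metric.tendstoUniformlyOn_iff.1 hT (r / 3)
      (by positivity))).exists
    obtain ⟨h6, h7⟩ := h1 _ (h4.trans_le (min_le_left _ _))
    have h8 := h2 hτ.1 ((mem_ball.1 hτ.2).trans_le (min_le_right _ _))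
    have h9 := h5 τ hτ.1
    rw [← (hez _ h6).1] at h9
    have := dist_triangle4 (F τ₀) (F τ) (e (f k τ)) (e x₀)
    rw [dist_comm (F τ₀) (F τ)] at this
    linarith [mem_ball.1 h7]
  obtain ⟨ε, hε, hFε⟩ := Metric.continuousWithinAt_iff.1 (hF τ₀ h₀) (ρ / 4) (by positivity)
  rw [hF0] at hFε
  have hFb : ∀ τ ∈ K ∩ ball τ₀ ε, F τ ∈ closedBall (e x₀) ρ := fun τ hτ =>
    mem_closedBall.2 ((hFε hτ.1 hτ.2).le.trans (by linarith))
  obtain ⟨δ, hδ, hδV⟩ := hV ρ hρ
  obtain ⟨τ₁, hτ₁, h1⟩ := hx (min δ ε) (by positivity)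
  have hτ₁' : τ₁ ∈ K ∩ ball τ₀ ε := ⟨hτ₁.1, ball_subset_ball (min_le_right _ _) hτ₁.2⟩
  have hsub' : closedBall (e x₀) (ρ / 2) ⊆ e.target :=
    (closedBall_subset_closedBall (by linarith)).trans hsub
  have hC : IsClosed (e.symm '' closedBall (e x₀) (ρ / 2)) :=
    ((isCompact_closedBall _ _).image_of_continuousOn (e.continuousOn_symm.mono hsub')).isClosed
  have key : ∀ᶠ k in l, ∀ τ ∈ K ∩ ball τ₀ ε,
      f k τ ∈ e.source ∧ e (f k τ) ∈ closedBall (e x₀) ρ := by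
    filter_upwards [hf, h1, Metric.tendstoUniformlyOn_iff.1 hT (ρ / 4) (by positivity)]
      with k h2 h3 h4 τ hτ
    have h5 : IsPreconnected (f k '' (K ∩ ball τ₀ ε)) :=
      (hK.inter (convex_ball _ _)).isPreconnected.image _ (h2.mono inter_subset_left)
    by_contra hc
    obtain ⟨_, ⟨s, hs', rfl⟩, h6, h7⟩ := h5 (e.source ∩ e ⁻¹' ball (e x₀) ρ)
      (e.symm '' closedBall (e x₀) (ρ / 2))ᶜ (e.isOpen_inter_preimage isOpen_ball) hC.isOpen_compl
      (fun y _ => by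
        by_cases hy : y ∈ e.symm '' closedBall (e x₀) (ρ / 2)
        · obtain ⟨w, hw, rfl⟩ := hy
          refine Or.inl ⟨e.map_target (hsub' hw), ?_⟩
          rw [mem_preimage, e.right_inv (hsub' hw)]
          exact closedBall_subset_ball (by linarith) hw
        · exact Or.inr hy)
      ⟨_, mem_image_of_mem _ hτ₁', hδV _ (h3.trans_le (min_le_left _ _))⟩
      ⟨_, mem_image_of_mem _ hτ, by
        rintro ⟨w, hw, h6⟩
        refine hc ?_
        rw [← h6, e.right_inv (hsub' hw)]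
        exact ⟨e.map_target (hsub' hw), closedBall_subset_closedBall (by linarith) hw⟩⟩
    refine h7 ⟨e (f k s), ?_, e.left_inv h6.1⟩
    have h8 := h4 s hs'.1
    have h9 := hFε hs'.1 hs'.2
    rw [← (hez _ h6.1).1, dist_comm] at h8
    exact mem_closedBall.2 (by linarith [dist_triangle (e (f k s)) (F s) (e x₀)])
  refine ⟨ε, e, hε, he, hez, fun τ hτ => hsub (hFb τ hτ),
    Metric.tendstoUniformlyOn_iff.2 fun η hη => ?_⟩
  obtain ⟨θ, hθ, hu⟩ := Metric.uniformContinuousOn_iff.1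
    ((isCompact_closedBall (e x₀) ρ).uniformContinuousOn_of_continuous
      (e.continuousOn_symm.mono hsub)) η hη
  filter_upwards [key, Metric.tendstoUniformlyOn_iff.1 hT θ hθ] with k h2 h3 τ hτ
  have h4 := hu _ (hFb τ hτ) _ (h2 τ hτ).2 (by rw [(hez _ (h2 τ hτ).1).1]; exact h3 τ hτ.1)
  rwa [e.left_inv (h2 τ hτ).1] at h4

end Vale.Agent.P253W.T
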