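import Vale.Agent.P253W.T.Basic
import Vale.Agent.P253Z.B1a
import Vale.Agent.P253Z.B1b
import Vale.Agent.P253Z.B2

/-!
# P253W, block T: normalisation of the weights
-/

open scoped Manifold ContDiff Bundle ENNReal Topology ComplexConjugate ComplexOrder
open Bundle IsManifold MeasureTheory Set Metric Filter Vale.Agent.P253.Mfd Vale.Agent.P253Z
open Vale.Agent.P272.K (Cm dz dzb cHess jacM Chart)
open Vale.Agent.P253.R2.H451 (ContPsh)

noncomputable section

namespace Vale.Agent.P253W.T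

namespace Nrm

variable {n : ℕ} {M : Type} [MetricSpace M] [ChartedSpace (Cm n) M]

theorem pmax {u : M → ℝ} (h : ContPsh (Cm n) u) : ContPsh (Cm n) fun x => max (u x) 0 := by
  have c0 : Continuous fun x => max (u x) 0 := h.1.max continuous_const
  refine ⟨c0, fun f c r hr hf hf' => ?_⟩
  have i : ∀ w : M → ℝ, Continuous w → CircleIntegrable (fun z => w (f z)) c r := fun w hw =>
    ((hw.comp_continuousOn hf).mono sphere_subset_closedBall).circleIntegrable hr.le
  exact max_le ((h.2 f c r hr hf hf').trans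
    (Real.circleAverage_mono (i u h.1) (i _ c0) fun _ _ => le_max_left _ _))
    ((Real.circleAverage_const (0 : ℝ) c r).symm.trans_le (Real.circleAverage_mono
      (i (fun _ => 0) continuous_const) (i _ c0) fun _ _ => le_max_right _ _))

theorem one_add {s : ℝ} (hs : 0 ≤ s) : 1 + Real.exp s ≤ Real.exp (s + 1) := by
  rw [Real.exp_add]
  nlinarith [Real.add_one_le_exp 1, Real.one_le_exp hs]

variable [RiemannianBundle (fun x : M => TangentSpace 𝓘(ℝ, Cm n) x)] [MeasurableSpace M]
  {μ : Measure M} {o : M} [ProperSpace M]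

/-- an upper bound for `u` from an upper bound for `P exp u` -/
theorem ql (a : B1a n M) (h : QL0 n μ o) {R D N : ℝ} (hR : 2 ≤ R) (hD : 0 ≤ D) (hN : 0 ≤ N) :
    ∃ B : ℝ, ∀ (u P : M → ℝ) (y : M), Sm n u →
      (∀ δ, 0 < δ → SPsh n fun x => Real.log (δ + P x)) → y ∈ closedBall o 2 →
      (∀ x ∈ closedBall o (2 * R), HK.Lo n u N x) → (∀ x, 0 ≤ P x) →
      (∀ x, P x ≤ Real.exp (D * (1 + dist x o))) →
      (∀ x, P x * Real.exp (u x) ≤ Real.exp (D * (1 + dist x o))) → Real.exp (-D) ≤ P y →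
      ∀ x ∈ ball o R, u x ≤ B := by
  obtain ⟨C, -, h⟩ := h
  refine ⟨C * (D * (1 + 2 * R) + 1 + N * R ^ 2), fun u P y hu hP hy lo p0 p1 p2 p3 => ?_⟩
  obtain ⟨B, hB⟩ := (isCompact_closedBall o (2 * R)).exists_bound_of_continuousOn
    (a.sm_cont u hu).continuousOn
  have B0 : 0 ≤ B := (norm_nonneg _).trans (hB o (mem_closedBall_self (by linarith)))
  have hδ := Real.exp_pos (-B)
  have hδ1 : Real.exp (-B) ≤ 1 := Real.exp_le_one_iff.2 (by linarith)
  refine h u _ (fun _ => 0) R (D * (1 + 2 * R) + 1) N y hu (hP _ hδ) continuous_const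
    (fun _ => le_rfl) hR (by positivity) hN hy lo (fun x => ?_) ?_ (by simp) fun x hx => ?_
  · have t1 := one_le_tw (o := o) (x := x) (R := R)
    have t2 := (div_le_iff₀ (by linarith : 0 < R)).1 (div_le_tw (o := o) (x := x) (R := R))
    have e := one_add (s := D * (1 + dist x o)) (by positivity)
    have p := p0 x
    rw [Real.log_le_iff_le_exp (by positivity)]
    refine le_trans (by linarith [p1 x]) (e.trans (Real.exp_le_exp.2 ?_))
    have : 1 + dist x o ≤ (1 + 2 * R) * tw o R x := by nlinarith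
    nlinarith [mul_le_mul_of_nonneg_left this hD]
  · have p := p0 y
    rw [Real.le_log_iff_exp_le (by positivity)]
    refine (Real.exp_le_exp.2 ?_).trans (p3.trans (by linarith))
    nlinarith [mul_nonneg hD (by linarith : 0 ≤ R)]
  · have p := p0 x
    have e1 : Real.exp (u x) * Real.exp (-B) ≤ 1 := by
      rw [← Real.exp_add, Real.exp_le_one_iff]
      linarith [(abs_le.1 (hB x (ball_subset_closedBall hx))).2]
    have e2 := (p2 x).trans (Real.exp_le_exp.2 (mul_le_mul_of_nonneg_left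
      (add_le_add_right (mem_ball.1 hx).le 1) hD))
    have e3 := one_add (s := D * (1 + 2 * R)) (by positivity)
    have e4 : u x + Real.log (Real.exp (-B) + P x) ≤ D * (1 + 2 * R) + 1 := by
      rw [← Real.exp_le_exp, Real.exp_add, Real.exp_log (by positivity), mul_add]
      linarith
    linarith [le_max_left (-Real.log (Real.exp (-B) + P x)) 0]

theorem nrm' (a : B1a n M) (b : B1b n M) (r : B2 n M) (l : LSP n M) (h : QL0 n μ o)
    (G : Gauge n o) : G.NRM := by
  intro η σ ε k hη h0 al s0 hk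
  have n0 := nrm_nonneg a b 1 η
  obtain ⟨y₀, hy₀, h0⟩ := exists_ne a hη h0 o
  have c0 := nrm_pos a b 1 h0
  choose y hy hm using fun ν => (isCompact_closedBall o (3 / 2)).exists_isMaxOn
    ⟨o, mem_closedBall_self (by norm_num)⟩
    (((a.sm_cont _ (l.sm 1 η hη)).mul (a.sm_cont _ (al.sm ν)).rexp).continuousOn)
  have m0 : ∀ ν, nrm n 1 η y₀ ≤ nrm n 1 η (y ν) * Real.exp (σ ν (y ν)) := fun ν =>
    (le_mul_of_one_le_right c0.le (Real.one_le_exp (s0 ν y₀))).trans
      (hm ν (closedBall_subset_closedBall (by norm_num) hy₀))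
  obtain ⟨τ, e1, e2, e3⟩ : ∃ τ : ℕ → M → ℝ, (∀ ν, Sm n (τ ν)) ∧
      (∀ ν, ∀ e : Chart n M, Hc e → ∀ z ∈ e.target, hs (τ ν) e z = hs (σ ν) e z) ∧
      ∀ ν x, nrm n 1 η x * Real.exp (τ ν x) =
        nrm n 1 η x * Real.exp (σ ν x) / (2 * (nrm n 1 η (y ν) * Real.exp (σ ν (y ν)))) := by
    have k := fun ν => l.lin (σ ν) (σ ν) 1 0
      (-Real.log (2 * (nrm n 1 η (y ν) * Real.exp (σ ν (y ν))))) (al.sm ν) (al.sm ν)
    refine ⟨_, fun ν => (k ν).1, fun ν e he z hz => by simpa using (k ν).2 e he z hz,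
      fun ν x => ?_⟩
    have := c0.trans_le (m0 ν)
    rw [one_mul, zero_mul, add_zero, ← sub_eq_add_neg, Real.exp_sub, Real.exp_log (by positivity),
      mul_div_assoc]
  have at' : Alm n τ ε := ⟨e1, fun ν e he z hz => e2 ν e he z hz ▸ al.lo ν e he z hz,
    fun ν e he z hz => e2 ν e he z hz ▸ al.up ν e he z hz, al.eps⟩
  set L := |Real.log (nrm n 1 η y₀)|
  have L0 : 0 ≤ L := abs_nonneg _
  have k0 := abs_nonneg k
  have hL : Real.exp (-L) ≤ nrm n 1 η y₀ := by
    rw [← Real.le_log_iff_exp_le c0]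
    exact neg_abs_le _
  have hk' : ∀ ν x, nrm n 1 η x * Real.exp (τ ν x) ≤ Real.exp ((|k| + L) * G.sc (ν + 2) x) := by
    intro ν x
    have s1 := G.one_le_sc (ν + 2) x
    have := c0.trans_le (m0 ν)
    have e : Real.exp (k * G.sc (ν + 2) x) ≤
        Real.exp ((|k| + L) * G.sc (ν + 2) x) * Real.exp (-L) := by
      rw [← Real.exp_add]
      exact Real.exp_le_exp.2 (by nlinarith [le_abs_self k])
    rw [e3, div_le_iff₀ (by positivity)]
    exact (hk ν x).trans (e.trans (mul_le_mul_of_nonneg_left (by linarith [m0 ν])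
      (Real.exp_pos _).le))
  have ps : ∀ ν δ, 0 < δ → SPsh n fun x => Real.log (δ + nrm n 1 η x * Real.exp (τ ν x)) :=
    fun ν δ hδ => l.log 1 η _ δ hη (e1 ν) hδ fun e he z hz => by simpa using at'.lo ν e he z hz
  have p0 : ∀ ν x, 0 ≤ nrm n 1 η x * Real.exp (τ ν x) := fun ν x =>
    mul_nonneg (n0 x) (Real.exp_pos _).le
  obtain ⟨C, C0, hC⟩ := G.dom
  have A2 := G.A_pos 2
  set D := C * (|k| + L + 1) + |k| * G.A 2 + L + 1
  have d0 : 0 ≤ C * (|k| + L + 1) := by positivity
  have d1 : 0 ≤ |k| * G.A 2 := by positivity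
  have b1 : ∀ ν x, nrm n 1 η x * Real.exp (τ ν x) ≤ Real.exp (D * (1 + dist x o)) := by
    intro ν x
    have := hC (ν + 2) _ (|k| + L + 1) (by simp) (pmax (l.cont _ (ps ν _ one_half_pos)))
      (fun x => le_max_right _ _) (fun x hx => max_eq_right (Real.log_nonpos
        (by linarith [p0 ν x]) (by
          have := c0.trans_le (m0 ν)
          have e : nrm n 1 η x * Real.exp (σ ν x) ≤ nrm n 1 η (y ν) * Real.exp (σ ν (y ν)) :=
            hm ν hx
          rw [e3, ← le_sub_iff_add_le', div_le_iff₀ (by positivity)]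
          linarith))) (by positivity) (fun x => ?_) x
    · have p := p0 ν x
      have := (le_max_left _ _).trans this
      rw [Real.log_le_iff_le_exp (by positivity)] at this
      refine le_trans (by linarith) (this.trans (Real.exp_le_exp.2 ?_))
      exact mul_le_mul_of_nonneg_right (by linarith) (by positivity)
    · have s1 := G.one_le_sc (ν + 2) x
      have p := p0 ν x
      refine max_le ?_ (mul_nonneg (by positivity) (G.sc_pos (ν + 2) x).le)
      rw [Real.log_le_iff_le_exp (by positivity)]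
      have e := one_add (s := (|k| + L) * G.sc (ν + 2) x) (by positivity)
      refine le_trans (by linarith [hk' ν x]) (e.trans (Real.exp_le_exp.2 ?_))
      change _ ≤ (|k| + L + 1) * G.sc (ν + 2) x
      linarith
  have b2 : ∀ x, nrm n 1 η x ≤ Real.exp (D * (1 + dist x o)) := fun x => by
    refine (le_mul_of_one_le_right (n0 x) (Real.one_le_exp (s0 0 x))).trans
      ((hk 0 x).trans (Real.exp_le_exp.2 ?_))
    have t := tw_le_lin (o := o) (x := x) (R := 2) one_le_two
    have t0 := tw_pos (o := o) (x := x) (R := 2)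
    simp only [Gauge.sc, Nat.cast_zero, zero_add]
    calc k * (G.A 2 * tw o 2 x) ≤ |k| * G.A 2 * tw o 2 x := by
          rw [mul_assoc]
          exact mul_le_mul_of_nonneg_right (le_abs_self k) (by positivity)
      _ ≤ _ := mul_le_mul (by linarith) t t0.le (by linarith)
  refine ⟨τ, |k| + L, at', hk', fun ρ => ?_⟩
  have hR : 2 ≤ max (ρ + 1) 2 := le_max_right _ _
  obtain ⟨N, N0, hN⟩ := l.ricb _ (isCompact_closedBall o (2 * max (ρ + 1) 2))
  obtain ⟨E, hE⟩ := al.eps.bddAbove_range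
  obtain ⟨B₁, h1⟩ := ql a h hR (D := D) (by linarith) N0
  obtain ⟨B₂, h2⟩ := ql a h hR (D := D) (by linarith) (abs_nonneg E)
  refine ⟨max B₁ B₂, fun ν x hx => ?_⟩
  have hx' : x ∈ ball o (max (ρ + 1) 2) :=
    closedBall_subset_ball (lt_max_of_lt_left (lt_add_one ρ)) hx
  have k := l.lin (τ ν) (τ ν) (-1) 0 0 (e1 ν) (e1 ν)
  have u1 := h1 (τ ν) _ y₀ (e1 ν) (fun δ hδ => l.log1 η δ hη hδ)
    (closedBall_subset_closedBall one_le_two hy₀) (fun x hx => by
      have t := mem_chart_target (Cm n) x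
      have := (at'.lo ν _ (a.chart x) _ t).add
        (hN _ (a.chart x) _ t (by rwa [(chartAt (Cm n) x).left_inv (mem_chart_source _ x)]))
      rw [add_comm (ric _ _), add_assoc, add_sub_cancel] at this
      exact this) n0 b2 (b1 ν) ((Real.exp_le_exp.2 (by linarith)).trans hL) x hx'
  have u2 := h2 _ _ (y ν) k.1 (ps ν) (closedBall_subset_closedBall (by norm_num) (hy ν))
    (fun x _ => by
      have t := mem_chart_target (Cm n) x
      have := ((at'.up ν _ (a.chart x) _ t).add (r _ (a.chart x) _ t).posSemidef).add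
        ((b.wpos _ (a.chart x) _ t).posSemidef.smul (a := ((|E| - ε ν : ℝ) : ℂ))
          (Complex.zero_le_real.2 (by linarith [hE ⟨ν, rfl⟩, le_abs_self E])))
      rw [HK.Lo, k.2 _ (a.chart x) _ t]
      convert this using 1
      push_cast
      module) (p0 ν) (b1 ν) (fun x => by
        rw [mul_assoc, ← Real.exp_add]
        simpa using b2 x) (by
        have := c0.trans_le (m0 ν)
        rw [e3, div_mul_cancel_right₀ this.ne', Real.exp_neg]
        exact inv_anti₀ two_pos (le_trans (by linarith) (Real.add_one_le_exp D))) x hx'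
  exact abs_le.2 ⟨by linarith [le_max_right B₁ B₂], u1.trans (le_max_left _ _)⟩

end Nrm

variable {n : ℕ} {M : Type} [MetricSpace M] [ChartedSpace (Cm n) M]
  [IsManifold 𝓘(ℂ, Cm n) 1 M] [IsManifold 𝓘(ℝ, Cm n) ∞ M]
  [RiemannianBundle (fun x : M => TangentSpace 𝓘(ℝ, Cm n) x)]
  [IsContMDiffRiemannianBundle 𝓘(ℝ, Cm n) ∞ (Cm n) (fun x : M => TangentSpace 𝓘(ℝ, Cm n) x)]
  [IsRiemannianManifold 𝓘(ℝ, Cm n) M] [CompleteSpace M] [ConnectedSpace M] [NoncompactSpace M]
  [MeasurableSpace M] [BorelSpace M] {μ : Measure M} {o : M}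

set_option linter.unusedSectionVars false in
/-- **NRM** -/
theorem nrmm (c : Ctx n μ) (l : LSP n M) (h : QL0 n μ o) (G : Gauge n o) : G.NRM :=
  have := properSpace_riemannian (Cm n) M
  Nrm.nrm' b1a (b1b c.kahler b1a) (b2 c.kahler c.pos c.npos b1a (b1b c.kahler b1a)) l h G

end Vale.Agent.P253W.T
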