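import Vale.Agent.P253W.T.Defs
import Vale.Agent.P253Z.HJ.Mod
import Vale.Agent.P284Y.O.Pot
import Vale.Agent.P284Z.F0.Reg
import Vale.Agent.P284Z.F0.Levi

/-!
# P253W, block T: limits of almost pluriharmonic functions
-/

open scoped ContDiff Topology ComplexOrder
open MeasureTheory Set Metric Filter
open Vale.Agent.P272.K (Cm cHess)
open Vale.Agent.P272.K.C2 (cHess_sub cHess_neg cHess_const_mul)
open Vale.Agent.P284Z (Psh)
open Vale.Agent.P253Z.HJ (nsq)

noncomputable section

namespace Vale.Agent.P253W.T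

namespace Plh

/-- uniform convergence of almost Lipschitz functions along an ultrafilter -/
theorem unif {X : Type} [PseudoMetricSpace X] {K : Set X} (hK : IsCompact K) {H : ℕ → X → ℝ}
    {U : Ultrafilter ℕ} {δ : ℕ → ℝ} {B L : ℝ} (hL : 0 ≤ L) (hδ : Tendsto δ U (𝓝 0))
    (h : ∀ᶠ ν in U, ∀ y ∈ K, |H ν y| ≤ B ∧ ∀ y' ∈ K, |H ν y - H ν y'| ≤ L * dist y y' + δ ν) :
    ∃ G, TendstoUniformlyOn H G U K := by
  have h1 : ∀ y ∈ K, ∃ g, Tendsto (fun ν => H ν y) U (𝓝 g) := fun y hy => by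
    obtain ⟨g, -, hg⟩ := (isCompact_Icc (a := -B) (b := B)).ultrafilter_le_nhds
      (U.map fun ν => H ν y) (le_principal_iff.2 (h.mono fun ν hν => abs_le.1 (hν y hy).1))
    exact ⟨g, hg⟩
  choose! G hG using h1
  have h2 : ∀ y ∈ K, ∀ y' ∈ K, |G y - G y'| ≤ L * dist y y' := fun y hy y' hy' => by
    have := le_of_tendsto_of_tendsto ((hG y hy).sub (hG y' hy')).abs (hδ.const_add (L * dist y y'))
      (h.mono fun ν hν => (hν y hy).2 y' hy')
    rwa [add_zero] at this
  refine ⟨G, Metric.tendstoUniformlyOn_iff.2 fun η hη => ?_⟩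
  obtain ⟨t, ht, hf, hc⟩ := hK.finite_cover_balls (e := η / 4 / (L + 1)) (by positivity)
  filter_upwards [h, hδ.eventually (gt_mem_nhds (by positivity : 0 < η / 4)),
    (eventually_all_finite hf).2 fun x hx =>
      Metric.tendsto_nhds.1 (hG x (ht hx)) (η / 4) (by positivity)] with ν h3 h4 h5 y hy
  obtain ⟨x, hx, hyx⟩ := mem_iUnion₂.1 (hc hy)
  have h6 : L * dist y x ≤ η / 4 := by
    have := (lt_div_iff₀ (by positivity)).1 (mem_ball.1 hyx)
    nlinarith [dist_nonneg (x := y) (y := x)]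
  have h7 := abs_le.1 ((h3 y hy).2 x (ht hx))
  have h8 := abs_le.1 (h2 y hy x (ht hx))
  have h9 := abs_lt.1 (h5 x hx)
  rw [Real.dist_eq, abs_lt]
  constructor <;> linarith [h7.1, h7.2, h8.1, h8.2, h9.1, h9.2]

variable {n : ℕ} {V : Set (Cm n)} {k u G : Cm n → ℝ} {s : ℝ} {y : Cm n}

theorem psh_unif {f : ℕ → Cm n → ℝ} {l : Filter ℕ} [l.NeBot]
    (hf : ∀ᶠ ν in l, Psh (f ν) V ∧ ContinuousOn (f ν) V) (h : TendstoUniformlyOn f G l V) :
    Psh G V ∧ ContinuousOn G V := by
  have hG := h.continuousOn (hf.mono fun _ h => h.2).frequently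
  refine ⟨⟨hG.upperSemicontinuousOn, fun z w hw => le_of_forall_pos_le_add fun η hη => ?_⟩, hG⟩
  obtain ⟨ν, h1, h2⟩ := (hf.and (Metric.tendstoUniformlyOn_iff.1 h (η / 2) (by positivity))).exists
  have hm : MapsTo (fun ζ : ℂ => z + ζ • w) (sphere 0 |1|) V := fun ζ hζ =>
    hw ζ (le_of_eq (by simpa using hζ))
  have hi : ∀ {g : Cm n → ℝ}, ContinuousOn g V → CircleIntegrable (fun ζ : ℂ => g (z + ζ • w)) 0 1 :=
    fun hg => (hg.comp (by fun_prop) hm).circleIntegrable'
  have h3 := Real.circleAverage_mono (f₂ := fun ζ : ℂ => G (z + ζ • w) + η / 2) (hi h1.2)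
    ((hi hG).add (circleIntegrable_const _ _ _)) fun ζ hζ => by
      linarith [(abs_lt.1 (h2 _ (hm hζ))).1]
  rw [Real.circleAverage_fun_add (hi hG) (circleIntegrable_const _ _ _),
    Real.circleAverage_const] at h3
  have h4 := abs_lt.1 (h2 z (by simpa using hw 0 (by simp)))
  linarith [h1.1.2 z w hw, h4.2]

/-- rotation invariant kernels -/
structure Ker (k : Cm n → ℝ) (s : ℝ) : Prop where
  sm : ContDiff ℝ ∞ k
  cs : HasCompactSupport k
  nn : ∀ w, 0 ≤ k w
  zero : ∀ w, s < ‖w‖ → k w = 0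
  rot : ∀ a : ℂ, ‖a‖ = 1 → ∀ w, k (a • w) = k w
  one : ∫ w, k w = 1

theorem exists_ker (hs : 0 < s) : ∃ k : Cm n → ℝ, Ker k s := by
  obtain ⟨k, k1, k2, k3, k4, k5, k6⟩ := P284Z.exists_kernel (volume : Measure (Cm n)) hs
  exact ⟨k, k1, k2, k3, k4, k5, k6⟩

theorem Ker.intg (hk : Ker k s) : Integrable k :=
  hk.sm.continuous.integrable_of_hasCompactSupport hk.cs

theorem Ker.int (hk : Ker k s) (hu : ContinuousOn u V) (hy : closedBall y s ⊆ V) :
    Integrable fun w => k w * u (y + w) := by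
  have h : IntegrableOn (fun w => k w * u (y + w)) (closedBall 0 s) :=
    (hk.sm.continuous.continuousOn.mul (hu.comp (by fun_prop) fun w hw =>
      hy (by simpa using hw))).integrableOn_compact (isCompact_closedBall _ _)
  refine (integrableOn_iff_integrable_of_support_subset fun w hw => ?_).1 h
  by_contra h1
  exact hw (by simp [hk.zero w (by simpa using h1)])

theorem Ker.le (hk : Ker k s) (hV : IsOpen V) (h : Psh u V) {b : ℝ} (hb : ∀ z ∈ V, b ≤ u z)
    (hy : closedBall y s ⊆ V) : u y ≤ ∫ w, k w * u (y + w) := by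
  have := P284Z.Z.BP.kernel (μ := volume) ⟨hV, h, b, hb⟩ hy hk.intg hk.nn hk.zero hk.rot
  rwa [hk.one, mul_one] at this

theorem Ker.conv (hk : Ker k s) (hV : IsOpen V) (hμ : volume V ≠ ⊤) : ∃ L, 0 ≤ L ∧
    ∀ (u : Cm n → ℝ) (B : ℝ), ContinuousOn u V → (∀ z ∈ V, |u z| ≤ B) → ∃ v : Cm n → ℝ,
      ContDiff ℝ ∞ v ∧ (∀ y y', |v y - v y'| ≤ L * B * dist y y') ∧
      ∀ y, closedBall y s ⊆ V → v y = ∫ w, k w * u (y + w) := by
  obtain ⟨L, hL⟩ := ContDiff.lipschitzWith_of_hasCompactSupport hk.cs hk.sm (by simp)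
  obtain ⟨A, hA⟩ := hk.sm.continuous.bounded_above_of_compact_support hk.cs
  refine ⟨L * volume.real V, by positivity, fun u B hu hB => ?_⟩
  have hi : IntegrableOn u V := (integrableOn_const (C := B) hμ).mono'
    (hu.aestronglyMeasurable hV.measurableSet) (ae_restrict_of_forall_mem hV.measurableSet hB)
  have hs : ∀ w, k (-w) = k w := fun w => by simpa using hk.rot (-1) (by simp) w
  refine ⟨fun y => ∫ t in V, u t * k (y - t), ?_, fun y y' => ?_, fun y hy => ?_⟩
  · convert hk.cs.contDiff_convolution_right (ContinuousLinearMap.mul ℝ ℝ)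
      ((integrable_indicator_iff hV.measurableSet).2 hi).locallyIntegrable hk.sm using 2 with y
    rw [convolution_mul, ← integral_indicator hV.measurableSet]
    exact integral_congr_ae (Eventually.of_forall fun t => indicator_mul_left ..)
  · have h1 : ∀ y, IntegrableOn (fun t => u t * k (y - t)) V := fun y => hi.mul_bdd (c := A)
      (hk.sm.continuous.comp (by fun_prop)).aestronglyMeasurable (Eventually.of_forall fun _ => hA _)
    rw [← integral_sub (h1 y) (h1 y'), ← Real.norm_eq_abs]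
    refine le_of_le_of_eq (norm_setIntegral_le_of_norm_le_const (C := B * (L * dist y y'))
      hμ.lt_top fun t ht => ?_) ?_
    swap
    · ring
    rw [← mul_sub, norm_mul]
    refine mul_le_mul (hB t ht) ?_ (norm_nonneg _) ((abs_nonneg _).trans (hB t ht))
    have := hL.dist_le_mul (y - t) (y' - t)
    rwa [dist_sub_right] at this
  · beta_reduce
    rw [setIntegral_eq_integral_of_forall_compl_eq_zero fun t ht => ?_,
      ← integral_add_left_eq_self _ y]
    · refine integral_congr_ae (Eventually.of_forall fun w => ?_)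
      simp [hs, mul_comm]
    · rw [hk.zero, mul_zero]
      by_contra h
      exact ht (hy (by rwa [mem_closedBall', dist_eq_norm, ← not_lt]))

/-- continuous pluriharmonic functions are smooth -/
theorem weyl {c : Cm n} {ρ B : ℝ} (hρ : 0 < ρ) (hG : ContinuousOn G (ball c ρ))
    (hB : ∀ z ∈ ball c ρ, |G z| ≤ B) (h1 : Psh G (ball c ρ)) (h2 : Psh (fun z => -G z) (ball c ρ)) :
    ∀ᶠ y in 𝓝 c, ContDiffAt ℝ ∞ G y ∧ cHess G y = 0 := by
  obtain ⟨k, hk⟩ := exists_ker (n := n) (s := ρ / 4) (by positivity)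
  obtain ⟨L, -, h⟩ := hk.conv (isOpen_ball (x := c) (ε := ρ)) measure_ball_lt_top.ne
  obtain ⟨v, v1, -, v2⟩ := h G B hG hB
  have h3 : ∀ y ∈ ball c (ρ / 2), G y = v y := fun y hy => by
    have hs : closedBall y (ρ / 4) ⊆ ball c ρ :=
      closedBall_subset_ball' (by linarith [mem_ball.1 hy])
    have h4 := hk.le isOpen_ball h1 (fun z hz => (abs_le.1 (hB z hz)).1) hs
    have h5 := hk.le isOpen_ball h2 (fun z hz => neg_le_neg (abs_le.1 (hB z hz)).2) hs
    simp only [mul_neg, integral_neg] at h5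
    rw [v2 y hs]
    linarith
  filter_upwards [ball_mem_nhds c (half_pos hρ)] with y hy
  have h4 : ContDiffAt ℝ ∞ G y := v1.contDiffAt.congr_of_eventuallyEq
    (eventually_of_mem (isOpen_ball.mem_nhds hy) h3)
  have h5 := h4.of_le P253Z.HJ.two_le
  have h6 := isOpen_ball.mem_nhds (ball_subset_ball (half_le_self hρ.le) hy)
  have h7 := h1.cHess_psd h6 h5
  have h8 := h2.cHess_psd h6 h5.neg
  rw [cHess_neg h5] at h8
  refine ⟨h4, Matrix.ext_of_mulVec_single fun i => ?_⟩
  rw [Matrix.zero_mulVec, ← h7.dotProduct_mulVec_zero_iff]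
  have h9 := h8.dotProduct_mulVec_nonneg (Pi.single i 1)
  rw [Matrix.neg_mulVec, dotProduct_neg, neg_nonneg] at h9
  exact le_antisymm h9 (h7.dotProduct_mulVec_nonneg _)

end Plh

open Plh in
theorem plh (n : ℕ) : PLH n := by
  intro H ε U c ρ B hρ hε h
  have hN : ContDiff ℝ ∞ (nsq (n := n)) := P253Z.HJ.contDiff_nsq
  obtain ⟨C, hC⟩ := (isCompact_closedBall c ρ).exists_bound_of_continuousOn
    hN.continuous.continuousOn
  have hC' : ∀ ν, ∀ z ∈ ball c ρ, |ε ν * nsq z| ≤ |ε ν| * C := fun ν z hz => by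
    rw [abs_mul]
    exact mul_le_mul_of_nonneg_left (hC z (ball_subset_closedBall hz)) (abs_nonneg _)
  have h1 : ∀ᶠ ν in U, (Psh (H ν) (ball c ρ) ∧ ContinuousOn (H ν) (ball c ρ)) ∧
      Psh (fun z => ε ν * nsq z - H ν z) (ball c ρ) ∧
      ContinuousOn (fun z => ε ν * nsq z - H ν z) (ball c ρ) := h.mono fun ν hν => by
    have h2 : ContinuousOn (H ν) (ball c ρ) := fun z hz =>
      (hν z hz).1.continuousAt.continuousWithinAt
    refine ⟨⟨P284Z.psh_of_cHess fun z hz => ⟨(hν z hz).1, (hν z hz).2.2.1⟩, h2⟩,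
      P284Z.psh_of_cHess fun z hz => ?_, (continuous_const.mul hN.continuous).continuousOn.sub h2⟩
    have h3 := hN.contDiffAt (x := z).of_le P253Z.HJ.two_le
    have h4 : cHess nsq z = 1 := by simpa using P253Z.HJ.cHess_nsq 0 z
    refine ⟨(contDiffAt_const.mul h3).sub (hν z hz).1, ?_⟩
    rw [cHess_sub (contDiffAt_const.mul h3) (hν z hz).1, cHess_const_mul _ h3, h4]
    exact (hν z hz).2.2.2
  have hδ : Tendsto (fun ν => |ε ν| * C) U (𝓝 0) := by simpa using hε.abs.mul_const C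
  obtain ⟨k, hk⟩ := exists_ker (n := n) (s := ρ / 2) (by positivity)
  obtain ⟨L, hL, hv⟩ := hk.conv (isOpen_ball (x := c) (ε := ρ)) measure_ball_lt_top.ne
  have hB : 0 ≤ B := by
    obtain ⟨ν, hν⟩ := h.exists
    exact (abs_nonneg _).trans (hν c (mem_ball_self hρ)).2.1
  have hs : closedBall c (ρ / 4) ⊆ ball c ρ := closedBall_subset_ball (by linarith)
  obtain ⟨G, hG⟩ := unif (isCompact_closedBall c (ρ / 4)) (H := H) (U := U) (B := B) (L := L * B)
    (δ := fun ν => 2 * (|ε ν| * C)) (by positivity) (by simpa using hδ.const_mul 2) (by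
      filter_upwards [h, h1] with ν h2 h3
      obtain ⟨v, -, v1, v2⟩ := hv _ B h3.1.2 fun z hz => (h2 z hz).2.1
      have h4 : ∀ y ∈ closedBall c (ρ / 4), H ν y ≤ v y ∧ v y ≤ H ν y + 2 * (|ε ν| * C) :=
        fun y hy => by
          have h5 : closedBall y (ρ / 2) ⊆ ball c ρ :=
            closedBall_subset_ball' (by linarith [mem_closedBall.1 hy])
          have h6 := hk.le isOpen_ball h3.2.1 (b := -(|ε ν| * C) - B) (fun z hz =>
            sub_le_sub (abs_le.1 (hC' ν z hz)).1 (abs_le.1 (h2 z hz).2.1).2) h5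
          have h7 := hk.int h3.1.2 h5
          have h8 := integral_mono (hk.int h3.2.2 h5) ((hk.intg.mul_const (|ε ν| * C)).sub h7)
            fun w => by
              rcases lt_or_ge (ρ / 2) ‖w‖ with hw | hw
              · simp [hk.zero w hw]
              · have := mul_le_mul_of_nonneg_left
                  (abs_le.1 (hC' ν (y + w) (h5 (by simpa using hw)))).2 (hk.nn w)
                simp only [Pi.sub_apply]
                linarith
          rw [integral_sub' (hk.intg.mul_const _) h7, integral_mul_const, hk.one] at h8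
          rw [v2 y h5]
          exact ⟨hk.le isOpen_ball h3.1.1 (fun z hz => (abs_le.1 (h2 z hz).2.1).1) h5,
            by linarith [(abs_le.1 (hC' ν y (hs hy))).1]⟩
      refine fun y hy => ⟨(h2 y (hs hy)).2.1, fun y' hy' => abs_le.2 ?_⟩
      have h5 := abs_le.1 (v1 y y')
      constructor <;> linarith [h4 y hy, h4 y' hy', h5.1, h5.2])
  have hs' : ball c (ρ / 4) ⊆ ball c ρ := ball_subset_closedBall.trans hs
  have hG' := hG.mono ball_subset_closedBall
  obtain ⟨g1, g2⟩ := psh_unif (h1.mono fun ν hν => ⟨hν.1.1.mono hs', hν.1.2.mono hs'⟩) hG'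
  obtain ⟨g3, -⟩ := psh_unif (G := fun z => -G z)
    (h1.mono fun ν hν => ⟨hν.2.1.mono hs', hν.2.2.mono hs'⟩)
    (Metric.tendstoUniformlyOn_iff.2 fun η hη => by
      filter_upwards [Metric.tendstoUniformlyOn_iff.1 hG' (η / 2) (by positivity),
        hδ.eventually (gt_mem_nhds (half_pos hη))] with ν h2 h3 z hz
      have h4 := abs_lt.1 (h2 z hz)
      have h5 := abs_le.1 (hC' ν z (hs' hz))
      rw [Real.dist_eq, abs_lt]
      constructor <;> linarith [h4.1, h4.2, h5.1, h5.2])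
  obtain ⟨g, g4, g5⟩ := P284Y.O.plh_re (weyl (B := B) (by positivity) g2 (fun z hz =>
    le_of_tendsto (hG'.tendsto_at hz).abs (h.mono fun ν hν => (hν z (hs' hz)).2.1)) g1 g3)
  obtain ⟨r, hr, g6⟩ := Metric.eventually_nhds_iff_ball.1 (g4.eventually_analyticAt.and
    (g5.and (ball_mem_nhds c (by positivity : 0 < ρ / 4))))
  exact ⟨r, g, hr, fun z hz => (g6 z hz).1,
    (hG'.mono fun z hz => (g6 z hz).2.2).congr_right fun z hz => (g6 z hz).2.1⟩

end Vale.Agent.P253W.T
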