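import Vale.Agent.P253W.T.Defs

/-!
# P253W, block T, row POT1: the `L¹` norm and the mass of subharmonic functions
-/

open scoped ENNReal Topology Real
open MeasureTheory Set Metric Filter Vale.Agent.P272.GJ

noncomputable section

namespace Vale.Agent.P253W.T

namespace Pot1

variable {v : ℂ → ℝ} {p : ℂ} {s B : ℝ}

theorem ddb_tr (v : ℂ → ℝ) (p z : ℂ) : ddb (fun w => v (w + p)) z = ddb v (z + p) := by
  have h : ∀ u : ℂ, fderiv ℝ (fun w => fderiv ℝ v (w + p) u) z =
      fderiv ℝ (fun w => fderiv ℝ v w u) (z + p) := fun u =>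
    fderiv_comp_add_right (f := fun w => fderiv ℝ v w u) p
  simp only [ddb, fderiv_comp_add_right, h]

theorem int_tr (f : ℂ → ℝ) (p : ℂ) (s : ℝ) :
    ∫ z in ball p s, f z = ∫ z in ball (0 : ℂ) s, f (z + p) := by
  rw [← (measurePreserving_add_right volume p).setIntegral_preimage_emb
    (measurableEmbedding_addRight p)]
  congr 2
  ext z
  simp [dist_eq_norm]

theorem cont_ddb {S : Set ℂ} (h : ∀ z ∈ S, ContDiffAt ℝ 2 v z) : ContinuousOn (ddb v) S :=
  fun z hz => by
    have h1 : ∀ u : ℂ, ContinuousAt (fun w => fderiv ℝ (fun w => fderiv ℝ v w u) w u) z :=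
      fun u => ((((h z hz).fderiv_right (m := 1) le_rfl).clm_apply contDiffAt_const).fderiv_right
        (m := 0) le_rfl).continuousAt.clm_apply continuousAt_const
    exact (((h1 1).add (h1 Complex.I)).div_const 4).continuousWithinAt

theorem green_le (hs : 0 < s) (h : ∀ z ∈ closedBall (0 : ℂ) s, ContDiffAt ℝ 2 v z ∧ 0 ≤ ddb v z) :
    v 0 ≤ Real.circleAverage v 0 s := by
  rw [← sub_nonneg, ← green_jensen hs fun z hz => (h z hz).1]
  exact setIntegral_nonneg measurableSet_ball fun z hz =>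
    mul_nonneg (Gr_nonneg hz) (h z (ball_subset_closedBall hz)).2

/-- the mean over a disc -/
theorem disc0 (h : ∀ z ∈ closedBall (0 : ℂ) s, ContDiffAt ℝ 2 v z ∧ 0 ≤ ddb v z) :
    0 ≤ ∫ z in ball (0 : ℂ) s, (v z - v 0) := by
  have h0 := contOn_pt_prod (contOn0 fun z hz => (h z hz).1)
  have hπ : -π ≤ π := by linarith [Real.pi_pos]
  rw [setIntegral_ball_polar, Measure.volume_eq_prod, setIntegral_prod]
  · refine setIntegral_nonneg measurableSet_Ioo fun t ht => ?_
    have h1 := green_le ht.1 fun z hz => h z (closedBall_subset_closedBall ht.2.le hz)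
    have c0 : Continuous fun θ => v (pt t θ) := continuousOn_univ.1
      ((contOn0 fun z hz => (h z hz).1).comp (by unfold pt; fun_prop)
        fun θ _ => pt_mem ht.1.le ht.2.le θ)
    rw [circleAverage_eq_pi, smul_eq_mul, le_inv_mul_iff₀ (by positivity)] at h1
    simp only [smul_eq_mul]
    rw [integral_const_mul, ← integral_Ioc_eq_integral_Ioo, ← intervalIntegral.integral_of_le hπ,
      intervalIntegral.integral_sub (c0.intervalIntegrable _ _) intervalIntegrable_const,
      intervalIntegral.integral_const, smul_eq_mul]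
    exact mul_nonneg ht.1.le (by linarith)
  · exact ((continuousOn_fst.smul (h0.sub continuousOn_const)).integrableOn_compact
      (isCompact_Icc.prod isCompact_Icc)).mono_set
      (prod_mono Ioo_subset_Icc_self Ioo_subset_Icc_self)

/-- the mass -/
theorem mass0 (hs : 0 < s)
    (h : ∀ z ∈ closedBall (0 : ℂ) (2 * s), ContDiffAt ℝ 2 v z ∧ 0 ≤ ddb v z ∧ v z ≤ B) :
    ∫ z in ball (0 : ℂ) s, ddb v z ≤ 4 * (B - v 0) := by
  have h2 : 0 < 2 * s := by positivity
  have hc := contOn_ddb fun z hz => (h z hz).1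
  have hsub : ball (0 : ℂ) s ⊆ ball 0 (2 * s) := ball_subset_ball (by linarith)
  have hi := integrableOn_Gr_mul h2 hc
  have h3 : Real.circleAverage v 0 (2 * s) ≤ B :=
    Real.circleAverage_mono_on_of_le_circle
      (((contOn0 fun z hz => (h z hz).1).mono (by
        rw [abs_of_pos h2]; exact sphere_subset_closedBall)).circleIntegrable')
      fun z hz => (h z (by rw [abs_of_pos h2] at hz; exact sphere_subset_closedBall hz)).2.2
  have h4 : ∫ z in ball (0 : ℂ) s, 4⁻¹ * ddb v z ≤ ∫ z in ball (0 : ℂ) s, Gr (2 * s) z * ddb v z := by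
    refine setIntegral_mono_on_ae (((hc.integrableOn_compact (isCompact_closedBall _ _)).mono_set
      (hsub.trans ball_subset_closedBall)).const_mul _) (hi.mono_set hsub) measurableSet_ball ?_
    filter_upwards [compl_mem_ae_iff.2 (measure_singleton (0 : ℂ))] with z hz0 hz
    refine mul_le_mul_of_nonneg_right ?_ (h z (ball_subset_closedBall (hsub hz))).2.1
    have h5 : Real.log 2 ≤ Real.log (2 * s / ‖z‖) := Real.log_le_log two_pos (by
      rw [le_div_iff₀ (norm_pos_iff.2 hz0)]
      linarith [mem_ball_zero_iff.1 hz])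
    have h6 : (2 : ℝ)⁻¹ ≤ 2 / π := by
      rw [le_div_iff₀ Real.pi_pos]
      linarith [Real.pi_le_four]
    rw [Gr]
    nlinarith [Real.log_two_gt_d9]
  have h5 := setIntegral_mono_set hi (ae_restrict_of_forall_mem measurableSet_ball fun z hz =>
    mul_nonneg (Gr_nonneg hz) (h z (ball_subset_closedBall hz)).2.1) hsub.eventuallyLE
  rw [green_jensen h2 fun z hz => (h z hz).1] at h5
  rw [integral_const_mul] at h4
  linarith

/-- the integrand -/
def g (B : ℝ) (v : ℂ → ℝ) (z : ℂ) : ℝ := B - v z + ddb v z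

theorem cont_g {S : Set ℂ} (h : ∀ z ∈ S, ContDiffAt ℝ 2 v z) : ContinuousOn (g B v) S :=
  (continuousOn_const.sub fun z hz => (h z hz).continuousAt.continuousWithinAt).add (cont_ddb h)

theorem loc (hs : 0 < s)
    (h : ∀ z ∈ closedBall p (2 * s), ContDiffAt ℝ 2 v z ∧ 0 ≤ ddb v z ∧ v z ≤ B) :
    ∫⁻ z in ball p s, ENNReal.ofReal (g B v z) ≤
      (volume (ball (0 : ℂ) s) + 4) * ENNReal.ofReal (B - v p) := by
  have hsub : closedBall p s ⊆ closedBall p (2 * s) := closedBall_subset_closedBall (by linarith)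
  have h1 : ∀ z ∈ closedBall (0 : ℂ) (2 * s), ContDiffAt ℝ 2 (fun w => v (w + p)) z ∧
      0 ≤ ddb (fun w => v (w + p)) z ∧ v (z + p) ≤ B := fun z hz => by
    have := h (z + p) (by simpa [dist_eq_norm] using hz)
    exact ⟨this.1.comp z (by fun_prop), by rw [ddb_tr]; exact this.2.1, this.2.2⟩
  have h2 := mass0 hs h1
  have h3 := disc0 (s := s) fun z hz => (h1 z (closedBall_subset_closedBall (by linarith) hz)).imp
    id And.left
  simp only [ddb_tr, zero_add] at h2 h3
  rw [← int_tr] at h2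
  rw [← int_tr fun z => v z - v p] at h3
  have i0 : ∀ {f : ℂ → ℝ}, ContinuousOn f (closedBall p s) → IntegrableOn f (ball p s) :=
    fun hf => (hf.integrableOn_compact (isCompact_closedBall _ _)).mono_set ball_subset_closedBall
  have c1 : ContinuousOn v (closedBall p s) := fun z hz =>
    (h z (hsub hz)).1.continuousAt.continuousWithinAt
  have c2 := cont_ddb fun z hz => (h z (hsub hz)).1
  have h4 : ∫ z in ball p s, g B v z = (∫ _ in ball p s, (B - v p)) -
      (∫ z in ball p s, (v z - v p)) + ∫ z in ball p s, ddb v z := by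
    have c3 : ContinuousOn (fun z => v z - v p) (closedBall p s) := c1.sub continuousOn_const
    have c4 : ContinuousOn (fun z => B - v p - (v z - v p)) (closedBall p s) :=
      continuousOn_const.sub c3
    rw [← integral_sub (i0 continuousOn_const) (i0 c3), ← integral_add (i0 c4) (i0 c2)]
    exact integral_congr_ae (Eventually.of_forall fun z => by simp only [g]; ring)
  rw [← ofReal_integral_eq_lintegral_ofReal (i0 (cont_g fun z hz => (h z (hsub hz)).1))
    (ae_restrict_of_forall_mem measurableSet_ball fun z hz => by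
      have := h z (hsub (ball_subset_closedBall hz))
      exact add_nonneg (sub_nonneg.2 this.2.2) this.2.1), ← Measure.addHaar_ball_center volume p,
    ← ofReal_measureReal measure_ball_lt_top.ne, ← ENNReal.ofReal_ofNat,
    ← ENNReal.ofReal_add measureReal_nonneg (by norm_num), ← ENNReal.ofReal_mul (by positivity)]
  refine ENNReal.ofReal_le_ofReal ?_
  rw [h4, setIntegral_const, smul_eq_mul]
  linarith

theorem sum_le {S : Set ℂ} {T : Finset ℂ} {ε : ℝ} {f : ℂ → ℝ} (hS : IsCompact S)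
    (hf : ContinuousOn f S) (h0 : ∀ z ∈ S, 0 ≤ f z) (hT : ∀ x ∈ T, closedBall x ε ⊆ S)
    (hd : ∀ x ∈ T, ∀ y ∈ T, x ≠ y → ε + ε < dist x y)
    (h1 : ∀ x ∈ T, 1 ≤ ∫ z in closedBall x ε, f z) : (T.card : ℝ) ≤ ∫ z in S, f z := by
  have hi := hf.integrableOn_compact (μ := volume) hS
  refine le_trans ?_ (setIntegral_mono_set hi (ae_restrict_of_forall_mem hS.measurableSet h0)
    (iUnion₂_subset hT).eventuallyLE)
  rw [integral_biUnion_finset T (fun _ _ => measurableSet_closedBall)
    (fun x hx y hy h => closedBall_disjoint_closedBall (hd x hx y hy h))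
    fun x hx => hi.mono_set (hT x hx)]
  simpa using Finset.sum_le_sum h1

end Pot1

open Pot1

theorem pot1 : POT1 := by
  intro c τ₀ ρ r B h₀ hr
  let P : Set ℂ → Prop := fun S => ∃ C < ⊤, ∀ v : ℂ → ℝ,
    (∀ τ ∈ ball c ρ, ContDiffAt ℝ 2 v τ ∧ 0 ≤ ddb v τ ∧ v τ ≤ B) → -B ≤ v τ₀ →
      ∫⁻ z in S, ENNReal.ofReal (g B v z) ≤ C
  have hδ : ∀ τ ∈ ball c ρ, ∃ δ > 0, closedBall τ (8 * δ) ⊆ ball c ρ := fun τ hτ => by
    obtain ⟨δ, h1, h2⟩ := nhds_basis_closedBall.mem_iff.1 (isOpen_ball.mem_nhds hτ)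
    exact ⟨δ / 8, by positivity, by rwa [mul_div_cancel₀ _ (by norm_num)]⟩
  have hK : ∀ s : ℝ, volume (ball (0 : ℂ) s) + 4 < ⊤ := fun s =>
    ENNReal.add_lt_top.2 ⟨measure_ball_lt_top, by simp⟩
  have key : ball c ρ ⊆ {τ | ∃ t ∈ 𝓝 τ, P t} := by
    refine (convex_ball c ρ).isPreconnected.subset_of_closure_inter_subset
      (isOpen_iff_mem_nhds.2 fun τ ⟨t, ht, h⟩ => (eventually_mem_nhds_iff.2 ht).mono
        fun _ h' => ⟨t, h', h⟩) ?_ fun τ ⟨h1, h2⟩ => ?_
    · obtain ⟨δ, h3, h4⟩ := hδ τ₀ h₀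
      refine ⟨τ₀, h₀, _, ball_mem_nhds τ₀ h3, _, ENNReal.mul_lt_top (hK δ)
        (ENNReal.ofReal_lt_top (r := B + B)), fun v hv hv' => (loc h3 fun z hz =>
          hv z (h4 (closedBall_subset_closedBall (by linarith) hz))).trans ?_⟩
      gcongr
      linarith
    · obtain ⟨δ, h3, h4⟩ := hδ τ h2
      obtain ⟨τ₁, ⟨t, ht, C, hC, h⟩, h5⟩ := Metric.mem_closure_iff.1 h1 δ h3
      obtain ⟨ε, h6, h7⟩ := Metric.mem_nhds_iff.1 (inter_mem ht (ball_mem_nhds τ₁ h3))
      have h8 := (measure_ball_pos volume τ₁ h6).ne'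
      have h9 : ∀ q ∈ ball τ₁ ε, dist q τ < 2 * δ := fun q hq => by
        linarith [dist_triangle_right q τ τ₁, mem_ball.1 (h7 hq).2]
      refine ⟨_, ball_mem_nhds τ h3, _, ENNReal.mul_lt_top (hK (3 * δ))
        (ENNReal.div_lt_top hC.ne h8), fun v hv hv' => ?_⟩
      obtain ⟨q, hq, h10⟩ := exists_le_setLAverage (f := fun z => ENNReal.ofReal (g B v z)) h8
        measure_ball_lt_top.ne ((cont_g fun z hz => (hv z (h4 (mem_closedBall.2 (by
          linarith [h9 z hz])))).1).aemeasurable measurableSet_ball).ennreal_ofReal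
      rw [setLAverage_eq] at h10
      refine (lintegral_mono_set (ball_subset_ball' (y := q) (ε₂ := 3 * δ) (by
        linarith [h9 q hq, dist_comm q τ]))).trans ((loc (by positivity) fun z hz =>
          hv z (h4 (closedBall_subset_closedBall' (by linarith [h9 q hq]) hz))).trans ?_)
      gcongr
      exact (ENNReal.ofReal_le_ofReal (le_add_of_nonneg_right (hv q (h4 (mem_closedBall.2 (by
        linarith [h9 q hq])))).2.1)).trans (h10.trans (ENNReal.div_le_div_right
          ((lintegral_mono_set fun z hz => (h7 hz).1).trans (h v hv hv')) _))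
  have hsub := closedBall_subset_ball (x := c) hr
  obtain ⟨C, hC, h⟩ : P (closedBall c r) := (isCompact_closedBall c r).induction_on
    ⟨0, by simp, fun v _ _ => by simp⟩
    (fun s t hst ⟨C, hC, h⟩ => ⟨C, hC, fun v hv hv' => (lintegral_mono_set hst).trans (h v hv hv')⟩)
    (fun s t ⟨C, hC, h⟩ ⟨C', hC', h'⟩ => ⟨C + C', ENNReal.add_lt_top.2 ⟨hC, hC'⟩, fun v hv hv' =>
      (lintegral_union_le _ _ _).trans (add_le_add (h v hv hv') (h' v hv hv'))⟩)
    fun x hx => (key (hsub hx)).imp fun t ht => ⟨mem_nhdsWithin_of_mem_nhds ht.1, ht.2⟩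
  refine ⟨volume.real (closedBall c r) * |B| + C.toReal, fun v hv hv' => ?_⟩
  have i0 : ∀ {f : ℂ → ℝ}, ContinuousOn f (closedBall c r) → IntegrableOn f (closedBall c r) :=
    fun hf => hf.integrableOn_compact (isCompact_closedBall _ _)
  have c1 := cont_g (B := B) fun z hz => (hv z (hsub hz)).1
  have h1 : ∫ z in closedBall c r, (|B| + g B v z) ≤
      volume.real (closedBall c r) * |B| + C.toReal := by
    rw [integral_add (i0 continuousOn_const) (i0 c1), setIntegral_const, smul_eq_mul,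
      integral_eq_lintegral_of_nonneg_ae (f := g B v) (ae_restrict_of_forall_mem measurableSet_closedBall
        fun z hz => add_nonneg (sub_nonneg.2 (hv z (hsub hz)).2.2) (hv z (hsub hz)).2.1)
        (i0 c1).aestronglyMeasurable]
    exact add_le_add le_rfl (ENNReal.toReal_mono hC.ne (h v hv hv'))
  have i1 := i0 (f := fun z => |B| + g B v z) (continuousOn_const.add c1)
  refine ⟨le_trans (setIntegral_mono_on (i0 (ContinuousOn.abs fun z hz =>
    (hv z (hsub hz)).1.continuousAt.continuousWithinAt)) i1 measurableSet_closedBall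
      fun z hz => ?_) h1, le_trans (setIntegral_mono_on (i0 (cont_ddb fun z hz =>
        (hv z (hsub hz)).1)) i1 measurableSet_closedBall fun z hz => ?_) h1⟩
  · obtain ⟨-, h2, h3⟩ := hv z (hsub hz)
    rw [g, abs_le]
    constructor <;> linarith [le_abs_self B, neg_abs_le B]
  · obtain ⟨-, h2, h3⟩ := hv z (hsub hz)
    rw [g]
    linarith [abs_nonneg B]

theorem pot (h1 : POT1) (h2 : POT2) : POT := by
  intro v U c τ₀ ρ B h₀ hv
  refine ⟨{τ | ∀ ε > 0, closedBall τ ε ⊆ ball c ρ →
    ¬ ∀ᶠ k in U, ∫ w in closedBall τ ε, ddb (v k) w ≤ 1}, fun r hr => ?_, fun τ hτ => ?_⟩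
  · by_contra h
    obtain ⟨r', h3, h4⟩ := exists_between hr
    obtain ⟨C, hC⟩ := h1 c τ₀ ρ r' B h₀ h4
    obtain ⟨N, hN⟩ := exists_nat_gt C
    obtain ⟨T, hT, rfl⟩ := Set.Infinite.exists_subset_card_eq h N
    have h5 : ∀ᶠ ε in 𝓝 (0 : ℝ), ε + r < r' ∧ ∀ x ∈ T, ∀ y ∈ T, x ≠ y → ε + ε < dist x y := by
      refine (ContinuousAt.eventually_lt (by fun_prop) continuousAt_const (by simpa)).and ?_
      simp only [eventually_all_finset]
      exact fun x _ y _ => eventually_imp_distrib_left.2 fun h =>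
        ContinuousAt.eventually_lt (by fun_prop) continuousAt_const (by simpa)
    obtain ⟨ε, ⟨h6, h7⟩, h8⟩ := ((h5.filter_mono nhdsWithin_le_nhds).and
      (self_mem_nhdsWithin (s := Ioi (0 : ℝ)))).exists
    have h9 : ∀ x ∈ T, closedBall x ε ⊆ closedBall c r' := fun x hx =>
      closedBall_subset_closedBall' (by linarith [mem_closedBall.1 (hT hx).2])
    have h10 := closedBall_subset_ball (x := c) h4
    obtain ⟨k, hk, hk'⟩ := (hv.and ((eventually_all_finset T).2 fun x hx =>
      Ultrafilter.eventually_not.2 ((hT hx).1 ε h8 ((h9 x hx).trans h10)))).exists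
    exact absurd ((sum_le (isCompact_closedBall _ _) (cont_ddb fun z hz => (hk.1 z (h10 hz)).1)
      (fun z hz => (hk.1 z (h10 hz)).2.1) h9 h7 fun x hx => (not_le.1 (hk' x hx)).le).trans
        (hC _ hk.1 hk.2).2) (not_le.2 hN)
  · have h3 := hτ.2
    simp only [mem_ofPred_eq, not_forall, not_not] at h3
    obtain ⟨ε, h4, h5, h6⟩ := h3
    obtain ⟨r, h7, h8⟩ := exists_lt_subset_ball isClosed_closedBall h5
    obtain ⟨C, hC⟩ := h1 c τ₀ ρ r B h₀ h7
    obtain ⟨C', hC'⟩ := h2 (ε / 3) C (by positivity)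
    rw [mul_div_cancel₀ _ (by norm_num)] at hC'
    have h9 := closedBall_subset_ball (x := c) h7
    refine ⟨ε / 3, C', by positivity, fun σ hσ => ?_, (hv.and h6).mono fun k ⟨hk, hk'⟩ =>
      hC' _ τ (fun w hw => (hk.1 w (h5 hw)).imp id And.left) (le_trans (setIntegral_mono_set
        ((ContinuousOn.abs fun z hz => (hk.1 z (h9 hz)).1.continuousAt.continuousWithinAt
          ).integrableOn_compact (isCompact_closedBall _ _)) (Eventually.of_forall fun _ =>
            abs_nonneg _) (h8.trans ball_subset_closedBall).eventuallyLE) (hC _ hk.1 hk.2).1) hk'⟩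
    have h10 : closedBall σ (ε / 3) ⊆ closedBall τ ε :=
      closedBall_subset_closedBall' (by linarith [mem_ball.1 hσ])
    refine ⟨h5 (h10 (mem_closedBall_self (by positivity))), fun h =>
      h (ε / 3) (by positivity) (h10.trans h5) ((hv.and h6).mono fun k ⟨hk, hk'⟩ => ?_)⟩
    exact (setIntegral_mono_set ((cont_ddb fun z hz => (hk.1 z (h5 hz)).1).integrableOn_compact
      (isCompact_closedBall _ _)) (ae_restrict_of_forall_mem measurableSet_closedBall
        fun z hz => (hk.1 z (h5 hz)).2.1) h10.eventuallyLE).trans hk'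

end Vale.Agent.P253W.T
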