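import Vale.Agent.P253W.T.Defs

/-!
# P253W, block T, row POT2: integrals along segments where the mass is small
-/

open scoped ENNReal Topology Real
open MeasureTheory Set Metric Filter
open Vale.Agent.P272.GJ

noncomputable section

namespace Vale.Agent.P253W.T

namespace Pot2

variable {φ f : ℂ → ℝ} {r : ℝ}

theorem ddb_tr (v : ℂ → ℝ) (ζ w : ℂ) : ddb (fun w => v (ζ + w)) w = ddb v (ζ + w) := by
  simp only [ddb, fderiv_comp_add_left]
  rw [fderiv_comp_add_left (f := fun w => fderiv ℝ v w 1),
    fderiv_comp_add_left (f := fun w => fderiv ℝ v w Complex.I)]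

theorem intOn (hf : ContinuousOn f (closedBall 0 r)) : IntegrableOn f (ball 0 r) :=
  (hf.integrableOn_compact (isCompact_closedBall _ _)).mono_set ball_subset_closedBall

/-- from circle means to the area mean -/
theorem mean {A : ℝ} (hr : 0 < r) (hf : ContinuousOn f (closedBall 0 r))
    (h : ∀ ρ ∈ Ioo 0 r, A ≤ Real.circleAverage f 0 ρ) : A * (π * r ^ 2) ≤ ∫ z in ball 0 r, f z := by
  have c : ContinuousOn (fun z => f z - A) (closedBall 0 r) := hf.sub continuousOn_const
  have : 0 ≤ ∫ z in ball (0 : ℂ) r, (f z - A) := by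
    rw [setIntegral_ball_polar, Measure.volume_eq_prod, setIntegral_prod _
      (((continuousOn_fst.fun_smul (contOn_pt_prod c)).integrableOn_compact
        (isCompact_Icc.prod isCompact_Icc)).mono_set
          (prod_mono Ioo_subset_Icc_self Ioo_subset_Icc_self))]
    refine setIntegral_nonneg measurableSet_Ioo fun ρ hρ => ?_
    have e := sub_nonneg.2 (h ρ hρ)
    rw [← Real.circleAverage_const A 0 ρ, ← Real.circleAverage_fun_sub
      ((hf.mono (sphere_subset_closedBall.trans (closedBall_subset_closedBall hρ.2.le))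
        ).circleIntegrable hρ.1.le) (circleIntegrable_const _ _ _), circleAverage_eq_pi,
      intervalIntegral.integral_of_le (by linarith [Real.pi_pos]),
      integral_Ioc_eq_integral_Ioo] at e
    simp only [smul_eq_mul, integral_const_mul]
    exact mul_nonneg hρ.1.le (nonneg_of_mul_nonneg_right e (by positivity))
  rw [integral_sub (intOn hf) (intOn continuousOn_const), setIntegral_const, measureReal_def,
    Complex.volume_ball] at this
  simp [hr.le] at this
  linarith

theorem low (hr : 0 < r) (h : ∀ w ∈ closedBall (0 : ℂ) r, ContDiffAt ℝ 2 φ w ∧ 0 ≤ ddb φ w) :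
    -φ 0 ≤ (∫ w in ball 0 r, Gr r w * ddb φ w) + (∫ w in ball 0 r, |φ w|) / (π * r ^ 2) := by
  rw [← sub_le_iff_le_add', le_div_iff₀ (by positivity)]
  refine mean hr (contOn0 fun w hw => (h w hw).1).abs fun ρ hρ => ?_
  have s := closedBall_subset_closedBall (x := (0 : ℂ)) hρ.2.le
  have c := contOn_ddb fun w hw => (h w hw).1
  have e := green_jensen hρ.1 fun w hw => (h w (s hw)).1
  have e1 : ∫ w in ball 0 ρ, Gr ρ w * ddb φ w ≤ ∫ w in ball 0 r, Gr r w * ddb φ w :=
    (setIntegral_mono_on (integrableOn_Gr_mul hρ.1 (c.mono s))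
      ((integrableOn_Gr_mul hr c).mono_set (ball_subset_ball hρ.2.le)) measurableSet_ball
      fun w hw => mul_le_mul_of_nonneg_right (Gr_mono hρ.1 hρ.2.le w)
        (h w (s (ball_subset_closedBall hw))).2).trans (setIntegral_mono_set
      (integrableOn_Gr_mul hr c) (ae_restrict_of_forall_mem measurableSet_ball fun w hw =>
        mul_nonneg (Gr_nonneg hw) (h w (ball_subset_closedBall hw)).2)
      (ball_subset_ball hρ.2.le).eventuallyLE)
  have e2 := (neg_le_abs _).trans (Real.abs_circleAverage_le_circleAverage_abs (f := φ) (c := 0)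
    (R := ρ))
  exact le_trans (by linarith) e2

/-- the kernel -/
def K (r : ℝ) (w : ℂ) : ℝ≥0∞ := ENNReal.ofReal (1 + √(r / ‖w‖))

theorem exp_Gr {w : ℂ} (hw : w ∈ ball (0 : ℂ) r) : Real.exp (Gr r w / 2) ≤ 1 + √(r / ‖w‖) := by
  rcases eq_or_ne w 0 with rfl | h
  · simp [Gr]
  have h1 : 1 ≤ r / ‖w‖ := (one_le_div (norm_pos_iff.2 h)).2 (mem_ball_zero_iff.1 hw).le
  have h2 := Real.log_nonneg h1
  refine le_trans ?_ (le_add_of_nonneg_left zero_le_one)
  rw [← Real.exp_log (Real.sqrt_pos.2 (one_pos.trans_le h1)), Real.log_sqrt (by positivity), Gr]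
  gcongr
  exact mul_le_of_le_one_left h2 ((div_le_one Real.pi_pos).2 Real.two_le_pi)

/-- the inequality of Jensen -/
theorem jensen (hr : 0 < r) (hf : ContinuousOn f (closedBall 0 r))
    (h0 : ∀ w ∈ ball (0 : ℂ) r, 0 ≤ f w) (h1 : ∫ w in ball 0 r, f w ≤ 1) :
    ENNReal.ofReal (Real.exp ((∫ w in ball 0 r, Gr r w * f w) / 2)) ≤
      1 + ∫⁻ w in ball 0 r, K r w * ENNReal.ofReal (f w) := by
  set a := (∫ w in ball 0 r, Gr r w * f w) / 2 with ha
  have m0 : 0 ≤ ∫ w in ball 0 r, f w := setIntegral_nonneg measurableSet_ball h0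
  have i1 := (intOn hf).const_mul (Real.exp a * (1 - a))
  have i2 := (integrableOn_Gr_mul hr hf).const_mul (Real.exp a / 2)
  have t : ∀ x, Real.exp a * (1 - a) + Real.exp a * x ≤ Real.exp x := fun x => by
    have := mul_le_mul_of_nonneg_left (Real.add_one_le_exp (x - a)) (Real.exp_pos a).le
    rw [← Real.exp_add, add_sub_cancel] at this
    linarith
  have e : Real.exp a ≤ 1 + ∫ w in ball 0 r,
      (Real.exp a * (1 - a) * f w + Real.exp a / 2 * (Gr r w * f w)) := by
    rw [integral_add i1 i2, integral_const_mul, integral_const_mul,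
      show ∫ w in ball 0 r, Gr r w * f w = 2 * a by rw [ha]; ring]
    have := mul_le_mul_of_nonneg_left (t 0) (sub_nonneg.2 h1)
    rw [Real.exp_zero] at this
    linarith
  refine (ENNReal.ofReal_le_ofReal e).trans (ENNReal.ofReal_add_le.trans (add_le_add (by simp) ?_))
  refine ((ENNReal.ofReal_le_ofReal ((integral_eq_lintegral_pos_part_sub_lintegral_neg_part
    (i1.add i2)).trans_le (sub_le_self _ ENNReal.toReal_nonneg))).trans
    ENNReal.ofReal_toReal_le).trans (setLIntegral_mono' measurableSet_ball fun w hw => ?_)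
  rw [K, ← ENNReal.ofReal_mul (by positivity)]
  refine ENNReal.ofReal_le_ofReal ?_
  have := mul_le_mul_of_nonneg_right ((t _).trans (exp_Gr hw)) (h0 w hw)
  simp only [Pi.add_apply]
  linarith

/-- the singular part on the line -/
def j : ℝ → ℝ≥0∞ := (ball 0 1).indicator fun s => ENNReal.ofReal √|s|⁻¹

theorem j_fin : ∫⁻ s, j s ≠ ⊤ := by
  have := integrableOn_ball_of_norm_le_rpow (μ := (volume : Measure ℝ)) (f := fun s => √|s|⁻¹)
    (C := 1) (α := 1 / 2) (r := 1) (by simp) (by norm_num) (Eventually.of_forall fun s => by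
      rw [Real.norm_of_nonneg (Real.sqrt_nonneg _), Real.sqrt_eq_rpow,
        Real.inv_rpow (abs_nonneg _), Real.rpow_neg (norm_nonneg _), one_mul, Real.norm_eq_abs])
    (Measurable.aestronglyMeasurable (by fun_prop))
  rw [j, lintegral_indicator measurableSet_ball]
  exact this.lintegral_lt_top.ne

theorem seg {u d : ℂ} (hd : d ≠ 0) (h : ‖d‖ ≤ r) : ∫⁻ t in Ioc (0 : ℝ) 1, K r (u - t * d) ≤
    ENNReal.ofReal √(r / ‖d‖) * (2 + ∫⁻ s, j s) := by
  have d0 := norm_pos_iff.2 hd
  have m1 : 1 ≤ √(r / ‖d‖) := Real.one_le_sqrt.2 ((one_le_div d0).2 h)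
  calc _ ≤ ∫⁻ t in Ioc (0 : ℝ) 1, ENNReal.ofReal √(r / ‖d‖) * (2 + j (t - (u / d).re)) := by
        refine lintegral_mono_ae (ae_restrict_of_ae ?_)
        filter_upwards [compl_mem_ae_iff.2 (measure_singleton (u / d).re)] with t ht
        have t0 : 0 < |t - (u / d).re| := abs_pos.2 (sub_ne_zero.2 ht)
        have e : √(r / ‖u - t * d‖) ≤ √(r / ‖d‖) * √|t - (u / d).re|⁻¹ := by
          rw [← Real.sqrt_mul (div_nonneg (d0.le.trans h) d0.le), ← div_eq_mul_inv, div_div]
          refine Real.sqrt_le_sqrt (div_le_div_of_nonneg_left (d0.le.trans h) (mul_pos d0 t0) ?_)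
          rw [show u - t * d = -(d * (t - u / d)) by field_simp; ring, norm_neg, norm_mul]
          gcongr
          simpa using Complex.abs_re_le_norm (t - u / d)
        by_cases q : t - (u / d).re ∈ ball (0 : ℝ) 1
        · rw [j, indicator_of_mem q, K, ← ENNReal.ofReal_ofNat, ← ENNReal.ofReal_add (by positivity)
            (by positivity), ← ENNReal.ofReal_mul (by positivity)]
          exact ENNReal.ofReal_le_ofReal (by linarith)
        · have : √|t - (u / d).re|⁻¹ ≤ 1 := 
            Real.sqrt_le_one.2 (inv_le_one_of_one_le₀ (by simpa using q))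
          rw [j, indicator_of_notMem q, add_zero, K, ← ENNReal.ofReal_ofNat,
            ← ENNReal.ofReal_mul (by positivity)]
          exact ENNReal.ofReal_le_ofReal (by nlinarith)
    _ ≤ _ := by
        rw [lintegral_const_mul' _ _ ENNReal.ofReal_ne_top, lintegral_add_left measurable_const]
        exact mul_le_mul_right (add_le_add (by simp)
          ((setLIntegral_le_lintegral _ _).trans_eq (lintegral_sub_right_eq_self j _))) _

end Pot2

open Pot2

theorem pot2 : POT2 := by
  intro ε C ε0
  refine ⟨Real.exp (C / (π * (2 * ε) ^ 2) / 2) * (3 + (∫⁻ s, j s).toReal) * √(2 * ε),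
    fun v τ hv h1 h2 a ha b hb => ?_⟩
  rcases eq_or_ne (b - a) 0 with hd | hd
  · simp [hd]
  have d0 := norm_pos_iff.2 hd
  have r0 : 0 < 2 * ε := by positivity
  have dr : ‖b - a‖ ≤ 2 * ε := by
    rw [← dist_eq_norm]
    linarith [dist_triangle_right b a τ, mem_ball.1 ha, mem_ball.1 hb]
  have mB := (isClosed_closedBall (x := τ) (ε := 3 * ε)).measurableSet
  have kB := isCompact_closedBall τ (3 * ε)
  have c0 : ContinuousOn v (closedBall τ (3 * ε)) := fun w hw =>
    (hv w hw).1.continuousAt.continuousWithinAt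
  have c2 : ContinuousOn (ddb v) (closedBall τ (3 * ε)) := by
    have := (contOn_ddb (φ := fun w => v (τ + w)) (r := 3 * ε) fun w hw =>
      (hv _ (by simpa using hw)).1.comp w (by fun_prop)).comp (f := fun w => w - τ)
        (s := closedBall τ (3 * ε)) (by fun_prop) fun w hw => by simpa [dist_eq_norm] using hw
    simpa [Function.comp_def, ddb_tr] using this
  set ν := (closedBall τ (3 * ε)).indicator fun w => ENNReal.ofReal (ddb v w) with hν
  have mν : AEMeasurable ν := (aemeasurable_indicator_iff mB).2 (c2.aemeasurable mB).ennreal_ofReal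
  have ν1 : ∫⁻ w, ν w ≤ 1 := by
    rw [hν, lintegral_indicator mB, ← ofReal_integral_eq_lintegral_ofReal
      (c2.integrableOn_compact kB) (ae_restrict_of_forall_mem mB fun w hw => (hv w hw).2)]
    exact ENNReal.ofReal_le_one.2 h2
  have pw : ∀ ζ ∈ ball τ ε, ENNReal.ofReal (Real.exp (-v ζ / 2)) ≤ ENNReal.ofReal (Real.exp
      (C / (π * (2 * ε) ^ 2) / 2)) * (1 + ∫⁻ w, K (2 * ε) (w - ζ) * ν w) := fun ζ hζ => by
    have s : ∀ w ∈ closedBall (0 : ℂ) (2 * ε), ζ + w ∈ closedBall τ (3 * ε) := fun w hw => by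
      rw [mem_closedBall]
      linarith [dist_triangle (ζ + w) ζ τ, mem_ball.1 hζ, mem_closedBall_zero_iff.1 hw,
        show dist (ζ + w) ζ = ‖w‖ by simp]
    have tr : ∀ g : ℂ → ℝ, ContinuousOn g (closedBall τ (3 * ε)) →
        (∀ w ∈ closedBall τ (3 * ε), 0 ≤ g w) →
        ∫ w in ball 0 (2 * ε), g (ζ + w) ≤ ∫ w in closedBall τ (3 * ε), g w := fun g hg g0 => by
      rw [← (measurePreserving_add_left volume ζ).setIntegral_preimage_emb
        (measurableEmbedding_addLeft ζ) g]
      refine setIntegral_mono_set (((measurePreserving_add_left volume ζ).integrableOn_comp_preimage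
        (measurableEmbedding_addLeft ζ)).2 (hg.integrableOn_compact kB))
        (ae_restrict_of_forall_mem (measurable_const_add ζ mB) fun w hw => g0 _ hw)
        (LE.le.eventuallyLE fun w hw => s w (ball_subset_closedBall hw))
    have e1 := low (φ := fun w => v (ζ + w)) r0 fun w hw =>
      ⟨(hv _ (s w hw)).1.comp w (by fun_prop), (ddb_tr v ζ w).symm ▸ (hv _ (s w hw)).2⟩
    have e2 := jensen (f := fun w => ddb v (ζ + w)) r0 (c2.comp (by fun_prop) s)
      (fun w hw => (hv _ (s w (ball_subset_closedBall hw))).2)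
      ((tr _ c2 fun w hw => (hv w hw).2).trans h2)
    have e3 := div_le_div_of_nonneg_right (((tr (fun w => |v w|) c0.abs fun w _ =>
      abs_nonneg _)).trans h1) (show 0 ≤ π * (2 * ε) ^ 2 by positivity)
    simp only [ddb_tr, add_zero] at e1
    refine le_trans ?_ (mul_le_mul_right (e2.trans (add_le_add_right ?_ _)) _)
    · rw [← ENNReal.ofReal_mul (Real.exp_pos _).le, ← Real.exp_add]
      exact ENNReal.ofReal_le_ofReal (Real.exp_le_exp.2 (by linarith))
    · rw [← lintegral_add_left_eq_self (fun w => K (2 * ε) (w - ζ) * ν w) ζ]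
      refine (setLIntegral_congr_fun measurableSet_ball fun w hw => ?_).trans_le
        (setLIntegral_le_lintegral _ _)
      simp only [add_sub_cancel_left, hν, indicator_of_mem (s w (ball_subset_closedBall hw))]
  have m1 : 1 ≤ √(2 * ε / ‖b - a‖) := Real.one_le_sqrt.2 ((one_le_div d0).2 dr)
  have fb : ∫⁻ t in Ioc (0 : ℝ) 1, ∫⁻ w, K (2 * ε) (w - (a + t * (b - a))) * ν w ≤
      ENNReal.ofReal √(2 * ε / ‖b - a‖) * (2 + ∫⁻ s, j s) := by
    have mK : Measurable fun p : ℝ × ℂ => K (2 * ε) (p.2 - (a + p.1 * (b - a))) := by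
      unfold K; fun_prop
    rw [lintegral_lintegral_swap (mK.aemeasurable.mul mν.comp_snd :)]
    refine le_trans (lintegral_mono_ae ?_) (((lintegral_const_mul'' _ mν).trans_le
      (mul_le_mul_right ν1 _)).trans_eq (mul_one _))
    filter_upwards [ae_lt_top' mν (ν1.trans_lt ENNReal.one_lt_top).ne] with w hw
    rw [lintegral_mul_const' _ _ hw.ne]
    simp only [← sub_sub]
    exact mul_le_mul_left (seg hd dr) _
  rw [intervalIntegral.integral_mul_const, intervalIntegral.integral_of_le zero_le_one,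
    show ∀ x : ℝ, x * √(2 * ε) * √‖b - a‖ = x * √(2 * ε / ‖b - a‖) * ‖b - a‖ from fun x => by
      rw [Real.sqrt_div r0.le, mul_assoc, mul_assoc, div_mul_comm, div_mul_eq_mul_div, mul_comm ‖_‖,
        mul_div_assoc, Real.div_sqrt]]
  gcongr
  refine ((Real.le_norm_self _).trans (norm_integral_le_lintegral_norm _)).trans
    (ENNReal.toReal_le_of_le_ofReal (by positivity) ((setLIntegral_mono' measurableSet_Ioc
      fun t ht => (congrArg _ (Real.norm_of_nonneg (Real.exp_pos _).le)).trans_le
        (pw _ ?_)).trans ?_))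
  · simpa [AffineMap.lineMap_apply, add_comm] using
      (convex_ball τ ε).lineMap_mem ha hb (Ioc_subset_Icc_self ht)
  · rw [lintegral_const_mul' _ _ ENNReal.ofReal_ne_top, lintegral_add_left measurable_const,
      mul_assoc, ENNReal.ofReal_mul (Real.exp_pos _).le, mul_comm (3 + _),
      ENNReal.ofReal_mul (Real.sqrt_nonneg _), ENNReal.ofReal_add (by positivity) (by positivity),
      ENNReal.ofReal_toReal j_fin]
    gcongr
    refine (add_le_add (show _ ≤ ENNReal.ofReal √(2 * ε / ‖b - a‖) by simpa using m1) fb).trans_eq ?_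
    rw [← mul_one_add, ← add_assoc]
    norm_num

end Vale.Agent.P253W.T
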