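import Vale.Agent.P253W.T.Basic
import Vale.Agent.P253Z.T2.Main

/-!
# P253W, block T, row PRO: properness of ratios of square integrable sections
-/

open scoped Manifold ContDiff Bundle ENNReal Topology ComplexConjugate ComplexOrder
open Bundle IsManifold MeasureTheory Set Metric Filter Vale.Agent.P253.Mfd Vale.Agent.P253Z
open Vale.Agent.P272.K (Cm dz dzb cHess jacM Chart)
open Vale.Agent.P253Z.T2 (Pz Phi)
open Vale.Agent.P253Z.VS (ev)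

set_option linter.unusedSectionVars false

noncomputable section

namespace Vale.Agent.P253W.T

variable {n : ℕ} {M : Type} [MetricSpace M] [ChartedSpace (Cm n) M]
  [IsManifold 𝓘(ℂ, Cm n) 1 M] [IsManifold 𝓘(ℝ, Cm n) ∞ M]
  [RiemannianBundle (fun x : M => TangentSpace 𝓘(ℝ, Cm n) x)]
  [IsContMDiffRiemannianBundle 𝓘(ℝ, Cm n) ∞ (Cm n) (fun x : M => TangentSpace 𝓘(ℝ, Cm n) x)]
  [IsRiemannianManifold 𝓘(ℝ, Cm n) M] [CompleteSpace M] [ConnectedSpace M] [NoncompactSpace M]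
  [MeasurableSpace M] [BorelSpace M] {μ : Measure M}

theorem Pro.cpt (a : B1a n M) {p : M} {F : Fr n μ p} (D : T2.Aff F) {K : Set (Cm n)}
    (hK : IsCompact K) (hQ : ∀ ζ ∈ K, MvPolynomial.eval ζ D.Q ≠ 0) :
    IsCompact {x | D.σ x ≠ 0 ∧ Phi D.s₀ D.s x ∈ K} := by
  have E := T2.et a
  obtain ⟨B, hB⟩ := T2.CutA.root_bd D.monic hK
  refine isCompact_iff_ultrafilter_le_nhds.2 fun U hU => ?_
  have h0 : ∀ᶠ x in U, D.σ x ≠ 0 ∧ Phi D.s₀ D.s x ∈ K := le_principal_iff.1 hU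
  obtain ⟨q, hq, h1⟩ := (hK.prod (isCompact_closedBall (0 : ℂ) B)).ultrafilter_le_nhds
    (U.map fun x => (Phi D.s₀ D.s x, D.u x / D.v x)) (le_principal_iff.2 (h0.mono fun x hx =>
      ⟨hx.2, mem_closedBall_zero_iff.2 (hB _ hx.2 _ (D.root x hx.1))⟩))
  have h2 : Tendsto (fun x => (Phi D.s₀ D.s x, D.u x / D.v x)) U (𝓝 q) := h1
  have h3 : ev D.P q.1 q.2 = 0 := tendsto_nhds_unique
    (((VS.continuous_ev D.P).tendsto q).comp h2)
    (tendsto_const_nhds.congr' (h0.mono fun x hx => (D.root x hx.1).symm))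
  obtain ⟨y, y0, y1, y2⟩ := D.onto q.1 q.2 (hQ _ hq.1) h3
  obtain ⟨V, ρ, j, -, hy, hρ, j0, j1, j2⟩ := E.inv D.m D.s₀ D.s D.h₀.1 (fun i => (D.hs i).1) y
    ⟨D.ne₀ y y0, D.etale y y0⟩
  have t1 : Tendsto (Phi D.s₀ D.s) U (𝓝 (Phi D.s₀ D.s y)) :=
    y1 ▸ (continuous_fst.tendsto q).comp h2
  have t2 : Tendsto (fun x => D.u x / D.v x) U (𝓝 (D.u y / D.v y)) :=
    y2 ▸ (continuous_snd.tendsto q).comp h2
  have t3 : Tendsto (fun x => j (Phi D.s₀ D.s x)) U (𝓝 y) := by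
    have := (j0.continuousAt (ball_mem_nhds _ hρ)).tendsto.comp t1
    rwa [(j2 y hy).2.2] at this
  have t4 := (E.cont _ _ _ D.hu.1 D.hv.1 y (D.nev y y0)).1.tendsto.comp t3
  obtain ⟨R, r1, r2, r3⟩ := VS.exists_quot D.P
  have t5 := ((r1.tendsto _).comp (t1.prodMk_nhds (t2.prodMk_nhds t4))).eventually_ne
    (b₂ := 0) (by rw [r2]; exact D.simple y y0)
  refine ⟨y, ⟨y0, y1 ▸ hq.1⟩, (t3.congr' ?_ : Tendsto id U (𝓝 y))⟩
  filter_upwards [h0, t1.eventually (ball_mem_nhds _ hρ), t5,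
    t3.eventually (E.cont _ _ _ D.hσ.1 D.hσ.1 y y0).2] with x x0 x1 x2 x3
  have e1 := (j1 _ x1).2
  refine D.inj _ x x3 x0.1 e1 (sub_eq_zero.1 ((mul_eq_zero_iff_left x2).1 ?_)).symm
  have e2 := D.root _ x3
  rw [e1] at e2
  exact (r3 _ _ _).symm.trans (sub_eq_zero.2 ((D.root x x0.1).trans e2.symm))

/-- **Row PRO.** -/
theorem pro (c : Ctx n μ) : PRO n μ := by
  have A := all c
  have E := T2.et A.a
  obtain ⟨F⟩ := A.fr (Classical.arbitrary M)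
  obtain ⟨D⟩ := T2.aff c _ F
  obtain ⟨x₀, hx₀⟩ := Function.ne_iff.1 D.σ_ne
  refine ⟨D.m, D.s₀, D.s, D.Q, D.m_pos, D.h₀, D.hs, ⟨x₀, D.ne₀ _ hx₀, D.neQ _ hx₀⟩,
    fun K hK hQ => ?_⟩
  convert Pro.cpt A.a D hK hQ using 3 with x
  refine and_congr_left fun hx => ⟨fun h => ?_, D.ne₀ x⟩
  obtain ⟨K₁, k1, k2, k3⟩ := exists_compact_subset
    (isOpen_ne_fun (MvPolynomial.continuous_eval D.Q) continuous_const) (hQ _ hx)
  have h1 : ContinuousAt (Phi D.s₀ D.s) x :=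
    continuousAt_pi.2 fun i => (E.cont _ _ _ (D.hs i).1 D.h₀.1 x h).1
  exact ((Pro.cpt A.a D k1 k3).isClosed.mem_of_frequently_of_tendsto
    ((freq_ne A.a D.hσ.1 D.σ_ne x).and_eventually (h1.eventually (mem_interior_iff_mem_nhds.1 k2)))
    tendsto_id).1

end Vale.Agent.P253W.T
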