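import Vale.Agent.P253W.T.Basic
import Vale.Agent.P253Z.B1a
import Vale.Agent.P253Z.B1b
import Vale.Agent.P253Z.B3
import Vale.Agent.P253Z.BG

/-!
# P253W, block T: the weak Harnack inequality and the mean value inequality together
-/

open scoped Manifold ContDiff Bundle ENNReal Topology ComplexConjugate ComplexOrder
open Bundle IsManifold MeasureTheory Set Metric Filter Vale.Agent.P253.Mfd Vale.Agent.P253Z
open Vale.Agent.P272.K (Cm cHess Chart)

noncomputable section

namespace Vale.Agent.P253W.T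

namespace Ql0r

theorem int_le {X : Type} [TopologicalSpace X] [MeasurableSpace X] [OpensMeasurableSpace X]
    {μ : Measure X} {f : X → ℝ} (hf : Continuous f) {a : ℝ} (ha : 0 ≤ a)
    (h : ∫⁻ x, ENNReal.ofReal (f x) ∂μ ≤ ENNReal.ofReal a) : ∫ x, max (f x) 0 ∂μ ≤ a := by
  rw [integral_eq_lintegral_of_nonneg_ae (f := fun x => max (f x) 0)
    (.of_forall fun x => le_max_right _ _)
    (hf.max continuous_const).aestronglyMeasurable]
  exact ENNReal.toReal_le_of_le_ofReal ha (by simpa [ENNReal.ofReal_max] using h)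

theorem cHess_sub {n : ℕ} (b : ℝ) (f : Cm n → ℝ) (z : Cm n) :
    cHess (fun y => b - f y) z = -cHess f z := by
  ext j k
  simp only [cHess, Matrix.of_apply, Matrix.neg_apply, Complex.ofReal_sub]
  rw [← P272.K.INT.dz_neg]
  congr 1
  funext y
  simp only [P272.K.dzb, fderiv_const_sub, neg_apply]
  ring

end Ql0r

open Ql0r

variable {n : ℕ} {M : Type} [MetricSpace M] [ChartedSpace (Cm n) M]
  [IsManifold 𝓘(ℂ, Cm n) 1 M] [IsManifold 𝓘(ℝ, Cm n) ∞ M]
  [RiemannianBundle (fun x : M => TangentSpace 𝓘(ℝ, Cm n) x)]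
  [IsContMDiffRiemannianBundle 𝓘(ℝ, Cm n) ∞ (Cm n) (fun x : M => TangentSpace 𝓘(ℝ, Cm n) x)]
  [IsRiemannianManifold 𝓘(ℝ, Cm n) M] [CompleteSpace M] [ConnectedSpace M] [NoncompactSpace M]
  [MeasurableSpace M] [BorelSpace M] {μ : Measure M}

theorem ql0 (c : Ctx n μ) (h1 : HK.WHM n μ) (h2 : HK.MVM n μ) (o : M) : QL0 n μ o := by
  have A : B1a n M := b1a
  have v3 := b3 c.vol A (b1b c.kahler A)
  have : ProperSpace M := properSpace_riemannian (Cm n) M
  have : IsFiniteMeasureOnCompacts μ := ⟨v3.fin⟩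
  obtain ⟨C₁, c1, h1⟩ := h1
  obtain ⟨C₂, c2, h2⟩ := h2
  obtain ⟨C₃, c3, h3⟩ := bg c A (b1b c.kahler A)
  have V1 : 0 < μ.real (ball o 1) :=
    ENNReal.toReal_pos (v3.pos _ isOpen_ball (nonempty_ball.2 one_pos)).ne' measure_ball_lt_top.ne
  have hi {f : M → ℝ} (hf : Continuous f) (x r) : IntegrableOn f (ball x r) μ :=
    (hf.continuousOn.integrableOn_compact (isCompact_closedBall x r)).mono_set
      ball_subset_closedBall
  obtain ⟨K, K1, hK⟩ : ∃ K, 1 ≤ K ∧ C₃ * 3 ^ (2 * n) = K :=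
    ⟨_, one_le_mul_of_one_le_of_one_le c3 (one_le_pow₀ (by norm_num)), rfl⟩
  obtain ⟨L, L1, hL⟩ : ∃ L, 1 ≤ L ∧ (1 + C₁ * (2 * C₁ + 1) + (μ.real (ball o 1))⁻¹) * K = L :=
    ⟨_, one_le_mul_of_one_le_of_one_le (by nlinarith [inv_pos.2 V1]) K1, rfl⟩
  refine ⟨C₂ * L, one_le_mul_of_one_le_of_one_le c2 L1,
    fun u v G R a N y hu hv hG G0 R2 a0 N0 hy uL vU vL GI uU x hx => ?_⟩
  have hs : ball x R ⊆ ball o (2 * R) := ball_subset_ball' (by linarith [mem_ball.1 hx])
  refine le_of_forall_pos_le_add fun ε ε0 => ?_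
  obtain ⟨η, η0, hη⟩ : ∃ η, 0 < η ∧ C₂ * (C₁ * K * η) = ε :=
    ⟨ε / (C₂ * (C₁ * K)), by positivity, by field_simp⟩
  have g0 (w) (hw : w ∈ closedBall o (C₁ * (2 * R))) : v w ≤ a * (2 * C₁) := (vU w).trans
    (mul_le_mul_of_nonneg_left (tw_le (by linarith) (by linarith) (by linarith [mem_closedBall.1 hw]))
      a0)
  have h4 := h1 (fun w => a * (2 * C₁) + η - v w) o (2 * R)
    (fun e he z hz => contDiffAt_const.sub (hv.1 e he z hz)) (by linarith)
    (fun w hw => ⟨by linarith [g0 w hw], by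
      simpa [HK.Up, P253W.hs, cHess_sub] using hv.2 _ (A.chart w) _ (mem_chart_target _ w)⟩)
    y (closedBall_subset_ball (by linarith) hy)
  have cv := A.sm_cont v hv.1
  have iu : IntegrableOn (fun w => max (u w) 0) (ball o (2 * R)) μ :=
    hi ((A.sm_cont u hu).max continuous_const) _ _
  have h5 := setIntegral_mono_on iu
    (hi (f := fun w => a + (a * (2 * C₁) + η - v w) + max (G w) 0) (by fun_prop) o (2 * R))
    measurableSet_ball fun w hw => by
      have := g0 w (ball_subset_closedBall (ball_subset_ball (by nlinarith) hw))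
      have h5 : max (-v w) 0 ≤ a * (2 * C₁) + η - v w :=
        max_le (by nlinarith) (by linarith)
      exact max_le (by linarith [uU w hw, le_max_left (G w) 0])
        (by linarith [le_max_right (G w) 0])
  rw [integral_add (hi (by fun_prop) _ _) (hi (by fun_prop) _ _),
    integral_add (hi continuous_const _ _) (hi (by fun_prop) _ _), setIntegral_const,
    smul_eq_mul] at h5
  have h6 := int_le hG a0 ((setLIntegral_le_lintegral (ball o (2 * R)) _).trans GI)
  have h7 : μ.real (ball o (2 * R)) ≤ K * μ.real (ball x R) := by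
    have := h3 x R (3 * R) (by linarith) (by linarith)
    rw [mul_div_cancel_right₀ _ (by linarith), hK] at this
    exact (measureReal_mono (ball_subset_ball' (by linarith [mem_ball'.1 hx]))
      measure_ball_lt_top.ne).trans this
  have h8 : 1 ≤ (μ.real (ball o 1))⁻¹ * μ.real (ball o (2 * R)) := by
    rw [le_inv_mul_iff₀ V1, mul_one]
    exact measureReal_mono (ball_subset_ball (by linarith)) measure_ball_lt_top.ne
  have h9 := h2 u x R N (L * a + C₁ * K * η) hu (by linarith) N0 (by positivity)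
    (fun w hw => uL w (closedBall_subset_closedBall' (by linarith [mem_ball.1 hx]) hw)) (by
      refine ((setIntegral_mono_set iu (.of_forall fun w => le_max_right _ _)
        hs.eventuallyLE).trans h5).trans ?_
      have h9 : C₁ * (a * (2 * C₁) + η - v y) * μ.real (ball o (2 * R)) ≤
          C₁ * (a * (2 * C₁) + η + a) * μ.real (ball o (2 * R)) := by gcongr; linarith
      calc _ ≤ ((1 + C₁ * (2 * C₁ + 1) + (μ.real (ball o 1))⁻¹) * a + C₁ * η) *
            μ.real (ball o (2 * R)) := by nlinarith [mul_le_mul_of_nonneg_left h8 a0]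
        _ ≤ _ := (mul_le_mul_of_nonneg_left h7 (by positivity)).trans_eq (by rw [← hL]; ring))
  nlinarith [mul_le_mul_of_nonneg_left L1 (show 0 ≤ C₂ * (N * R ^ 2) by positivity)]

theorem mvu (c : Ctx n μ) (h2 : HK.MVM n μ) (o : M) : MVU n μ o := by
  have A : B1a n M := b1a
  have v3 := b3 c.vol A (b1b c.kahler A)
  have : ProperSpace M := properSpace_riemannian (Cm n) M
  have : IsFiniteMeasureOnCompacts μ := ⟨v3.fin⟩
  obtain ⟨C₂, c2, h2⟩ := h2
  obtain ⟨C₃, c3, h3⟩ := bg c A (b1b c.kahler A)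
  have V1 : 0 < μ.real (ball o 1) :=
    ENNReal.toReal_pos (v3.pos _ isOpen_ball (nonempty_ball.2 one_pos)).ne' measure_ball_lt_top.ne
  refine ⟨C₂ * (1 + C₃ / μ.real (ball o 1)), one_le_mul_of_one_le_of_one_le c2
    (le_add_of_nonneg_right (by positivity)), fun u x a hu a0 h => ?_⟩
  have h4 := (measureReal_mono (ball_subset_ball' (y := x) (ε₁ := 1) (by rw [dist_comm]))
    measure_ball_lt_top.ne).trans (h3 x 1 (1 + dist x o) one_pos (by simp))
  rw [div_one] at h4
  refine (h2 u x 1 0 (C₃ / μ.real (ball o 1) * a * (1 + dist x o) ^ (2 * n)) hu.1 one_pos le_rfl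
    (by positivity) (fun y _ => hu.lo A y) ((int_le (A.sm_cont u hu.1) a0 h).trans ?_)).trans ?_
  · calc a = a / μ.real (ball o 1) * μ.real (ball o 1) := by field_simp
      _ ≤ _ := (mul_le_mul_of_nonneg_left h4 (by positivity)).trans_eq (by ring)
  · nlinarith [show 0 ≤ C₂ * a * (1 + dist x o) ^ (2 * n) by positivity]

end Vale.Agent.P253W.T
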