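import Vale.Agent.P253W.T.Basic

/-!
# P253W, block T: quotients and roots of equations with tame coefficients
-/

open scoped Manifold ContDiff Bundle ENNReal Topology ComplexConjugate ComplexOrder
open Bundle IsManifold MeasureTheory Set Metric Filter Vale.Agent.P253.Mfd Vale.Agent.P253Z
open Vale.Agent.P272.K (Cm dz dzb cHess jacM Chart)

set_option linter.all false

noncomputable section

namespace Vale.Agent.P253W.T

namespace Quo

theorem root {b : ℕ → ℂ} {f : ℂ} {D : ℕ} {B : ℝ} (hb : ∀ j ≤ D, ‖b j‖ ≤ B)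
    (h : ∑ j ∈ Finset.range (D + 1), b j * f ^ j = 0) : ‖b D‖ * ‖f‖ ≤ (D + 1) * B := by
  have B0 : 0 ≤ B := (norm_nonneg _).trans (hb 0 D.zero_le)
  have D0 : (0 : ℝ) ≤ D := D.cast_nonneg
  rcases le_or_gt ‖f‖ 1 with hf | hf
  · nlinarith [hb D le_rfl, norm_nonneg (b D), mul_le_of_le_one_right (norm_nonneg (b D)) hf]
  rw [Finset.sum_range_succ, add_eq_zero_iff_neg_eq] at h
  have h1 : ‖b D‖ * ‖f‖ ^ D * ‖f‖ ≤ D * B * ‖f‖ ^ D := by
    rw [← norm_pow, ← norm_mul, ← h, norm_neg, norm_pow]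
    refine (mul_le_mul_of_nonneg_right (norm_sum_le _ _) (norm_nonneg _)).trans ?_
    rw [Finset.sum_mul]
    refine (Finset.sum_le_card_nsmul _ _ (B * ‖f‖ ^ D) fun j hj => ?_).trans_eq (by simp [mul_assoc])
    have hj := Finset.mem_range.1 hj
    rw [norm_mul, norm_pow, mul_assoc, ← pow_succ]
    exact mul_le_mul (hb j hj.le) (pow_le_pow_right₀ hf.le hj) (by positivity) B0
  have h2 : 0 < ‖f‖ ^ D := by positivity
  have h3 : ‖b D‖ * ‖f‖ ≤ D * B := le_of_mul_le_mul_right (by linarith) h2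
  linarith

theorem one_add {s t : ℝ} (hs : 0 ≤ s) (ht : 1 ≤ t) : 1 + Real.exp s ≤ Real.exp (s + t) := by
  rw [Real.exp_add]
  nlinarith [Real.add_one_le_exp t, Real.one_le_exp hs]

theorem sq_exp {x s : ℝ} (hx : 0 ≤ x) (h : x ≤ Real.exp s) : x ^ 2 ≤ Real.exp (2 * s) := by
  rw [two_mul, Real.exp_add, sq]
  exact mul_le_mul h h hx (Real.exp_pos _).le

theorem low {c k t : ℝ} (hc : 0 < c) (hk : |Real.log c| ≤ k) (ht : 1 ≤ t) :
    Real.exp (-(k * t)) ≤ c := by
  rw [← Real.le_log_iff_exp_le hc]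
  nlinarith [neg_abs_le (Real.log c), abs_nonneg (Real.log c)]

end Quo

open Quo

variable {n : ℕ} {M : Type} [MetricSpace M] [ChartedSpace (Cm n) M]
  [RiemannianBundle (fun x : M => TangentSpace 𝓘(ℝ, Cm n) x)] {o : M} {G : Gauge n o}

/-- **QUOT** -/
theorem quot [MeasurableSpace M] {μ : Measure M} (h : QL0 n μ o) (a : B1a n M) : G.QUOT := by
  obtain ⟨C, hC, h⟩ := h
  intro u k hu H
  refine Gauge.tame_iff.2 ⟨C * (|k| * 2), by positivity, fun x => ?_⟩
  obtain ⟨v, y, h1, h2, h3, h4, h5⟩ := H (max (dist x o + 1) 2) (le_max_right _ _)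
  set R := max (dist x o + 1) 2 with hR
  have hA := G.A_pos R
  have hk : k * G.A R ≤ |k| * G.A R := mul_le_mul_of_nonneg_right (le_abs_self k) hA.le
  have h6 := h u v (fun _ => 0) R (|k| * G.A R) 0 y hu.1 h1 continuous_const (fun _ => le_rfl)
    (le_max_right _ _) (by positivity) le_rfl h2 (fun x _ => hu.lo a x)
    (fun x => (h3 x).trans (by
      rw [mul_assoc]; exact mul_le_mul_of_nonneg_right (le_abs_self k) (G.sc_pos R x).le))
    (by linarith) (by simp) (fun x hx => by linarith [h5 x hx]) x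
    (mem_ball.2 (lt_max_of_lt_left (lt_add_one _)))
  have h7 : G.A R ≤ 2 * G.a x := by rw [hR, G.A_max]; exact G.A_succ _
  rw [zero_mul, add_zero] at h6
  refine h6.trans ?_
  rw [mul_assoc, mul_assoc]
  gcongr

/-- **QUOB** -/
theorem quob' [ProperSpace M] (a : B1a n M) (l : LSP n M) (h : G.QUOT) : G.QUOB := by
  intro u k hu H
  refine h u (2 * |k| + 1) hu fun R hR => ?_
  obtain ⟨b, y, h1, h2, h3, h4, h5⟩ := H R hR
  obtain ⟨B, hB⟩ := (isCompact_closedBall o (2 * R)).exists_bound_of_continuousOn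
    (a.sm_cont u hu.1).continuousOn
  have B0 : 0 ≤ B := (norm_nonneg _).trans (hB o (mem_closedBall_self (by linarith)))
  have hA := G.one_le R
  have k0 := abs_nonneg k
  have hk : ∀ t, 0 ≤ t → k * t ≤ |k| * t := fun t ht => mul_le_mul_of_nonneg_right (le_abs_self k) ht
  have hδ := Real.exp_pos (-B)
  have hδ1 : Real.exp (-B) ≤ 1 := Real.exp_le_one_iff.2 (by linarith)
  refine ⟨_, y, l.log0 b _ h1 hδ, h2, fun x => ?_, ?_, fun x hx => ?_⟩
  · have s1 := G.one_le_sc R x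
    rw [Real.log_le_iff_le_exp (by positivity)]
    have e1 := sq_exp (norm_nonneg _) ((h3 x).trans (Real.exp_le_exp.2 (hk _ (by linarith))))
    have e2 := one_add (s := 2 * (|k| * G.sc R x)) (by positivity) s1
    rw [show (2 * |k| + 1) * G.sc R x = 2 * (|k| * G.sc R x) + G.sc R x by ring]
    linarith
  · rw [Real.le_log_iff_exp_le (by positivity)]
    have e1 := pow_le_pow_left₀ (Real.exp_pos _).le h4 2
    rw [← Real.exp_nat_mul] at e1
    have e2 : Real.exp (-((2 * |k| + 1) * G.A R)) ≤ Real.exp ((2 : ℕ) * -(k * G.A R)) :=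
      Real.exp_le_exp.2 (by push_cast; nlinarith [hk (G.A R) (by linarith)])
    linarith
  · have e1 : Real.exp (u x) * Real.exp (-B) ≤ 1 := by
      rw [← Real.exp_add, Real.exp_le_one_iff]
      linarith [(abs_le.1 (hB x (ball_subset_closedBall hx))).2]
    have e2 := (h5 x hx).trans (Real.exp_le_exp.2 (hk _ (by linarith)))
    have e3 := one_add (s := |k| * G.A R) (by positivity) hA
    have e4 : u x + Real.log (Real.exp (-B) + ‖b x‖ ^ 2) ≤ |k| * G.A R + G.A R := by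
      rw [← Real.exp_le_exp, Real.exp_add, Real.exp_log (by positivity), mul_add]
      linarith
    nlinarith [le_max_left (-Real.log (Real.exp (-B) + ‖b x‖ ^ 2)) 0]

/-- **ALGR** -/
theorem algr (l : LSP n M) (h : G.QUOB) : G.ALGR := by
  intro f D k hf H
  refine Gauge.mem_of_tame hf (h _ (4 * |k| + 2 * (D + 1)) (l.log0 f 1 hf one_pos) fun R hR => ?_)
  obtain ⟨b, y, h1, h2, h3, h4, h5⟩ := H R hR
  have hA := G.one_le R
  have k0 := abs_nonneg k
  have D0 : (0 : ℝ) ≤ D := D.cast_nonneg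
  have hk : ∀ t, 0 ≤ t → k * t ≤ (4 * |k| + 2 * (D + 1)) * t := fun t ht =>
    mul_le_mul_of_nonneg_right (by linarith [le_abs_self k]) ht
  refine ⟨b D, y, h1, h2, fun x => (h3 D le_rfl x).trans (Real.exp_le_exp.2 (hk _ (G.sc_pos R x).le)),
    (Real.exp_le_exp.2 (neg_le_neg (hk _ (by linarith)))).trans h4, fun x hx => ?_⟩
  have s2 := G.sc_le_two (x := x) (by linarith : 0 < R) (mem_ball.1 hx).le
  have hb : ∀ j ≤ D, ‖b j x‖ ≤ Real.exp (2 * |k| * G.A R) := fun j hj => (h3 j hj x).trans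
    (Real.exp_le_exp.2 (by nlinarith [mul_le_mul_of_nonneg_right (le_abs_self k) (G.sc_pos R x).le]))
  have e1 := root hb (h5 x)
  have e2 := hb D le_rfl
  have e3 : (D + 1 + 1 : ℝ) ≤ Real.exp ((D + 1) * G.A R) :=
    (Real.add_one_le_exp _).trans (Real.exp_le_exp.2 (by nlinarith))
  have e4 := Real.exp_pos (2 * |k| * G.A R)
  have e5 : ‖b D x‖ * ‖f x‖ + ‖b D x‖ ≤ Real.exp ((D + 1) * G.A R + 2 * |k| * G.A R) := by
    rw [Real.exp_add]
    nlinarith
  have e6 := sq_exp (by positivity) e5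
  rw [Real.exp_log (by positivity), show (4 * |k| + 2 * (D + 1)) * G.A R =
    2 * ((D + 1) * G.A R + 2 * |k| * G.A R) by ring]
  nlinarith [mul_nonneg (mul_nonneg (norm_nonneg (b D x)) (norm_nonneg (f x))) (norm_nonneg (b D x))]

/-- **ALGT** -/
theorem algt (a : B1a n M) (h : G.ALGR) : G.ALGT := by
  intro f D b hf hb h0 H
  obtain ⟨y, hy, hy'⟩ := exists_ne a (hb D le_rfl).sec h0 o
  choose! k hk hk' using fun j hj => (hb j hj).sc
  have h1 : ∀ j ≤ D, k j ≤ ∑ j ∈ Finset.range (D + 1), k j := fun j hj =>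
    Finset.single_le_sum (fun i hi => hk i (Nat.lt_succ_iff.1 (Finset.mem_range.1 hi)))
      (Finset.mem_range.2 (Nat.lt_succ_of_le hj))
  have h2 := (hk D le_rfl).trans (h1 D le_rfl)
  refine h f D (∑ j ∈ Finset.range (D + 1), k j + |Real.log ‖b D y‖|) hf fun R hR =>
    ⟨b, y, (hb D le_rfl).sec, closedBall_subset_closedBall one_le_two hy, fun j hj x =>
      (hk' j hj R (by linarith) x).trans (Real.exp_le_exp.2 (mul_le_mul_of_nonneg_right
        (by linarith [h1 j hj, abs_nonneg (Real.log ‖b D y‖)]) (G.sc_pos R x).le)),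
      low (norm_pos_iff.2 hy') (by linarith) (G.one_le R), H⟩

/-- **K6** -/
theorem k6 (a : B1a n M) (b : B1b n M) (d : DJ n M) (l : LSP n M) (h1 : G.GRT) (h2 : G.QUOB)
    (h3 : G.ALGT) : G.K6 := by
  intro z Ω h hz hΩ h0 hh hne hm
  have fs := sec_div a (d.sec z fun i => (hz.1 i).sec) hΩ h0
  have fm : G.Mem fun x => jac z x / Ω x := by
    refine h3 _ 1 (fun j => if j = 0 then fun x => -1 * (h x * (jac z x / Ω x)) else h) fs
      (fun j _ => ?_) (by simpa using hne) fun x => by simp [Finset.sum_range_succ]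
    split_ifs
    exacts [(Gauge.mem_const _).mul hm, hh]
  have f0 : (fun x => jac z x / Ω x) ≠ 0 := fun e => hz.2 (funext fun x =>
    (div_eq_zero_iff.1 (congrFun e x)).resolve_right (h0 x))
  obtain ⟨y, hy, hy'⟩ := exists_ne a fs f0 o
  obtain ⟨k₁, k1, hk1⟩ := fm.sc
  obtain ⟨k₂, k2, hk2⟩ := (h1.2 z hz.1).sc
  have l0 := abs_nonneg (Real.log ‖jac z y / Ω y‖)
  refine ⟨hΩ, h0, (h2 _ (4 * k₁ + 2 * k₂ + 1 + |Real.log ‖jac z y / Ω y‖|) (l.log1 Ω 1 hΩ one_pos)
    fun R hR => ?_).of_le fun x => Real.log_le_log (nrm_pos a b 1 (h0 x)) (by linarith)⟩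
  have R0 : 0 < R := by linarith
  have hA := G.one_le R
  refine ⟨_, y, fs, closedBall_subset_closedBall one_le_two hy, fun x => (hk1 R R0 x).trans
    (Real.exp_le_exp.2 (mul_le_mul_of_nonneg_right (by linarith) (G.sc_pos R x).le)),
    low (norm_pos_iff.2 hy') (by linarith) hA, fun x hx => ?_⟩
  have s2 := G.sc_le_two (x := x) R0 (mem_ball.1 hx).le
  have n0 := nrm_nonneg a b 1 Ω x
  have n1 := nrm_nonneg a b 1 (jac z) x
  have e1 := sq_exp (norm_nonneg _) (hk1 R R0 x)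
  have e2 := (Real.log_le_iff_le_exp (by positivity)).1 (hk2 R R0 x)
  have e3 : Real.exp (2 * (k₁ * G.sc R x)) ≤ Real.exp ((4 * k₁ + 2 * k₂) * G.A R) :=
    Real.exp_le_exp.2 (by nlinarith)
  have e4 : Real.exp (k₂ * G.sc R x) ≤ Real.exp ((4 * k₁ + 2 * k₂) * G.A R) :=
    Real.exp_le_exp.2 (by nlinarith)
  have e5 : 2 ≤ Real.exp ((1 + |Real.log ‖jac z y / Ω y‖|) * G.A R) :=
    le_trans (by nlinarith) (Real.add_one_le_exp _)
  rw [Real.exp_log (by positivity), add_mul, one_mul, mul_comm (nrm n 1 Ω x), nrm_div (h0 x),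
    add_assoc (4 * k₁ + 2 * k₂), add_mul, Real.exp_add]
  nlinarith [Real.exp_pos ((4 * k₁ + 2 * k₂) * G.A R)]

/-- **QUOB** -/
theorem quob [IsManifold 𝓘(ℂ, Cm n) 1 M] [IsManifold 𝓘(ℝ, Cm n) ∞ M]
    [IsContMDiffRiemannianBundle 𝓘(ℝ, Cm n) ∞ (Cm n) (fun x : M => TangentSpace 𝓘(ℝ, Cm n) x)]
    [IsRiemannianManifold 𝓘(ℝ, Cm n) M] [CompleteSpace M] (a : B1a n M) (l : LSP n M)
    (h : G.QUOT) : G.QUOB :=
  have := properSpace_riemannian (Cm n) M
  quob' a l h

end Vale.Agent.P253W.T
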