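import Vale.Agent.P253W.T.Basic
import Vale.Agent.P253Z.T2.Conn
import Vale.Agent.P253Z.VS.Loc

/-!
# P253W, block T: consequences of the algebraic relations
-/

open scoped Manifold ContDiff Bundle ENNReal Topology
open Bundle IsManifold Set Metric Filter Vale.Agent.P253.Mfd Vale.Agent.P253Z
open Vale.Agent.P272.K (Cm Chart)
open Vale.Agent.P253Z.T2 (Pz Phi)
open Vale.Agent.P253Z.VS (ev)

noncomputable section

namespace Vale.Agent.P253W.T

variable {n : ℕ} {M : Type} [MetricSpace M] [ChartedSpace (Cm n) M]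

namespace Rbd

theorem root {c : ℕ → ℂ} {D : ℕ} {t : ℂ} (h : ∑ j ∈ Finset.range (D + 1), c j * t ^ j = 0) :
    ‖c D‖ * ‖t‖ ≤ ∑ j ∈ Finset.range (D + 1), ‖c j‖ := by
  rw [Finset.sum_range_succ] at h ⊢
  have h0 : 0 ≤ ∑ j ∈ Finset.range D, ‖c j‖ := Finset.sum_nonneg fun _ _ => norm_nonneg _
  rcases le_or_gt ‖t‖ 1 with k | k
  · nlinarith [norm_nonneg (c D)]
  have h1 : ‖c D‖ * ‖t‖ * ‖t‖ ^ D ≤ (∑ j ∈ Finset.range D, ‖c j‖) * ‖t‖ ^ D := by
    rw [mul_right_comm, ← norm_pow, ← norm_mul, eq_neg_of_add_eq_zero_right h, norm_neg, norm_pow,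
      Finset.sum_mul]
    refine (mul_le_mul_of_nonneg_right (norm_sum_le _ _) (norm_nonneg t)).trans ?_
    rw [Finset.sum_mul]
    refine Finset.sum_le_sum fun j hj => ?_
    rw [norm_mul, norm_pow, mul_assoc, ← pow_succ]
    exact mul_le_mul_of_nonneg_left (pow_le_pow_right₀ k.le (Finset.mem_range.1 hj)) (norm_nonneg _)
  linarith [le_of_mul_le_mul_right h1 (by positivity), norm_nonneg (c D)]

theorem ev_eq (R : Polynomial (Pz n)) (ζ : Cm n) (t : ℂ) : ev R ζ t =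
    ∑ j ∈ Finset.range (R.natDegree + 1), MvPolynomial.eval ζ (R.coeff j) * t ^ j := by
  rw [ev, Polynomial.eval_map, Polynomial.eval₂_eq_sum_range]

theorem bound (R : Polynomial (Pz n)) : ∃ (N : ℕ) (C : ℝ), ∀ ζ t, ev R ζ t = 0 →
    ‖MvPolynomial.eval ζ R.leadingCoeff‖ * ‖t‖ ≤ C * (1 + ‖ζ‖) ^ N :=
  let ⟨C, N, _, h⟩ := T2.Cn.pg_sum (Finset.range (R.natDegree + 1)) R.coeff
  ⟨N, C, fun ζ t e => (root (c := fun j => MvPolynomial.eval ζ (R.coeff j))
    (ev_eq R ζ t ▸ e)).trans (h ζ)⟩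

omit [MetricSpace M] [ChartedSpace (Cm n) M] in
theorem phi_one (z : Fin n → M → ℂ) (x : M) : Phi (fun _ => 1) z x = mp z x :=
  funext fun _ => div_one _

end Rbd

/-- a polynomial in functions which are coordinates somewhere is not zero -/
theorem pv_ne [RiemannianBundle (fun x : M => TangentSpace 𝓘(ℝ, Cm n) x)] (d : DJ n M)
    {z : Fin n → M → ℂ} (hz : ∀ i, IsSec n 0 (z i)) (h : jac z ≠ 0) {Q : Pz n} (hQ : Q ≠ 0) :
    pv z Q ≠ 0 := by
  obtain ⟨x, hx⟩ := Function.ne_iff.1 h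
  obtain ⟨e, -, h1, h2⟩ := d.chart z hz x hx
  obtain ⟨ζ, k1, k2⟩ := ((VS.freq_ne hQ (e x)).and_eventually
    (e.open_target.mem_nhds (e.map_source h1))).exists
  refine Function.ne_iff.2 ⟨e.symm ζ, ?_⟩
  rwa [pv, ← (h2 _ (e.map_target k2)).1, e.right_inv k2]

variable [RiemannianBundle (fun x : M => TangentSpace 𝓘(ℝ, Cm n) x)] {o : M} {G : Gauge n o}

open Rbd Gauge

/-- **TRD** -/
theorem trd (h : G.REL) : G.TRD := fun a ha => by
  obtain ⟨R, R0, hR⟩ := h (fun _ => 1) (a 0) (fun _ => 1) (Fin.tail a) (mem_const 1)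
    (fun i => ha _) (ha 0) (mem_const 1)
  refine ⟨(MvPolynomial.finSuccEquiv ℂ n).symm R, by simpa using R0, fun x => ?_⟩
  have := hR x one_ne_zero one_ne_zero
  rw [phi_one, div_one] at this
  rw [← Fin.cons_self_tail (mp a x), MvPolynomial.eval_eq_eval_mv_eval',
    AlgEquiv.apply_symm_apply]
  exact this

/-- **RBD** -/
theorem rbd (a : B1a n M) (h : G.REL) : G.RBD := fun z f hz hf => by
  refine ⟨?_, fun f0 => ?_⟩
  · obtain ⟨R, R0, hR⟩ := h (fun _ => 1) f (fun _ => 1) z (mem_const 1) hz hf (mem_const 1)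
    obtain ⟨N, C, hC⟩ := bound R
    exact ⟨_, N, C, Polynomial.leadingCoeff_ne_zero.2 R0, fun x => hC _ _ (by
      simpa only [phi_one, div_one] using hR x one_ne_zero one_ne_zero)⟩
  obtain ⟨R, R0, hR⟩ := h (fun _ => 1) (fun _ => 1) f z (mem_const 1) hz (mem_const 1) hf
  obtain ⟨N, C, hC⟩ := bound R
  refine ⟨_, N, C, Polynomial.leadingCoeff_ne_zero.2 R0, fun x => ?_⟩
  have c1 := sec_cont a (mem_eval hz R.leadingCoeff).sec
  have c2 := mp_cont a fun i => (hz i).sec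
  have c3 := sec_cont a hf.sec
  refine (isClosed_le (f := fun x => ‖pv z R.leadingCoeff x‖)
    (g := fun x => C * (1 + ‖mp z x‖) ^ N * ‖f x‖) c1.norm (by fun_prop)).closure_subset
    (mem_closure_iff_frequently.2 ((freq_ne a hf.sec f0 x).mono fun y hy => ?_))
  have := hC _ _ (phi_one z y ▸ hR y one_ne_zero hy)
  rwa [norm_div, norm_one, mul_one_div, div_le_iff₀ (norm_pos_iff.2 hy)] at this

/-- **LTA** -/
theorem lta (d : DJ n M) (hz : ∃ z, G.Co z) (h1 : G.RELL) (h2 : G.ALGT) : G.LTA :=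
  fun U hU g hg => by
    obtain ⟨z, z1, z2⟩ := hz
    obtain ⟨R, R0, hR⟩ := h1 U hU (fun _ => 1) g (fun _ => 1) z ((mem_const 1).lim U)
      (fun i => (z1 i).lim U) hg ((mem_const 1).lim U)
    exact h2 g R.natDegree (fun j => pv z (R.coeff j)) (hg.elim fun _ h => h.1)
      (fun j _ => mem_eval z1 _)
      (pv_ne d (fun i => (z1 i).sec) z2 (Polynomial.leadingCoeff_ne_zero.2 R0)) fun x => by
        simpa only [phi_one, div_one, ev_eq, pv] using hR x one_ne_zero one_ne_zero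

end Vale.Agent.P253W.T
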