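import Vale.Agent.P253W.T.Basic
import Vale.Agent.P253W.FG.Sig
import Vale.Agent.P253W.V.Alg
import Vale.Agent.P253Z.RB
import Vale.Agent.P253Z.T2.Conn
import Vale.Agent.P253.R2.H451.Gen4

/-!
# P253W, block T: smoothing and logarithmic growth
-/

open scoped Manifold ContDiff Bundle ENNReal Topology ComplexConjugate ComplexOrder Matrix
open Bundle IsManifold MeasureTheory Set Metric Filter Vale.Agent.P253.Mfd Vale.Agent.P253Z
open Vale.Agent.P272.K (Cm Chart cHess)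
open Vale.Agent.P253.R2.H451 Vale.Agent.P253.R2.H618
open Vale.Agent.P253W.FG.Sig (psd_smul gg_psd cHess_comp')

noncomputable section

namespace Vale.Agent.P253W.T

variable {n : ℕ} {M : Type} [MetricSpace M] [ChartedSpace (Cm n) M]
  [RiemannianBundle (fun x : M => TangentSpace 𝓘(ℝ, Cm n) x)] {o : M} {G : Gauge n o} {Ω : M → ℂ}

theorem logg (h1 : G.SMO) (h2 : G.LOGA Ω) : G.LOG Ω := by
  intro z Q hz hQ k₀
  obtain ⟨k', hk'⟩ := h1 k₀
  obtain ⟨L, N₁, g, hg, h3⟩ := h2 z hz k'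
  obtain ⟨N₂, C₂, h4⟩ := hQ.low
  choose k N C h5 using fun i => hQ.bd (g i) (hg i)
  obtain ⟨D, d, hD, h6⟩ := T2.Cn.pg_eval Q
  set K := ∑ i, k i with hK
  refine ⟨2 * K + 2, N₁ + 2 * N₂ + 2 * (d * K + ∑ i, N i), fun φ p1 p2 => ?_⟩
  obtain ⟨φ', q1, q2, q3⟩ := hk' φ p1 p2
  obtain ⟨C₁, h7⟩ := h3 φ' q1 q2
  refine ⟨|C₁| * C₂ ^ 2 * ∑ i, (|C i| * (D + 1) ^ K) ^ 2, fun x => ?_⟩
  have e3 := h7 x
  have e4 := h4 x
  have e5 := fun i => h5 i x
  have e6 : ‖pv z Q x‖ ≤ D * (1 + ‖mp z x‖) ^ d := h6 _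
  have hw : 1 ≤ 1 + ‖mp z x‖ := le_add_of_nonneg_right (norm_nonneg _)
  generalize 1 + ‖mp z x‖ = w at *
  have w0 : 0 ≤ w := zero_le_one.trans hw
  have e7 : ∀ i, ‖pv z Q x‖ ^ K * ‖g i x‖ ≤ |C i| * (D + 1) ^ K * w ^ (d * K + ∑ i, N i) := by
    intro i
    have a1 : k i ≤ K := Finset.single_le_sum (fun _ _ => Nat.zero_le _) (Finset.mem_univ i)
    have a2 : N i ≤ ∑ i, N i :=
      Finset.single_le_sum (fun _ _ => Nat.zero_le _) (Finset.mem_univ i)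
    have a3 := one_le_pow₀ (n := d) hw
    have a4 : ‖pv z Q x‖ ^ (K - k i) ≤ ((D + 1) * w ^ d) ^ K :=
      (pow_le_pow_left₀ (norm_nonneg _) (by nlinarith) _).trans
        (pow_le_pow_right₀ (by nlinarith) (Nat.sub_le _ _))
    calc ‖pv z Q x‖ ^ K * ‖g i x‖ = ‖pv z Q x‖ ^ (K - k i) * (‖pv z Q x‖ ^ k i * ‖g i x‖) := by
          rw [← mul_assoc, ← pow_add, Nat.sub_add_cancel a1]
      _ ≤ ((D + 1) * w ^ d) ^ K * (|C i| * w ^ ∑ i, N i) := by
          refine mul_le_mul a4 ((e5 i).trans ?_) (by positivity) (by positivity)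
          gcongr
          exact le_abs_self _
      _ = _ := by rw [mul_pow, ← pow_mul, pow_add]; ring
  have e8 : (‖pv z Q x‖ ^ K) ^ 2 * ∑ i, ‖g i x‖ ^ 2 ≤
      (∑ i, (|C i| * (D + 1) ^ K) ^ 2) * (w ^ (d * K + ∑ i, N i)) ^ 2 := by
    rw [Finset.mul_sum, Finset.sum_mul]
    refine Finset.sum_le_sum fun i _ => ?_
    rw [← mul_pow, ← mul_pow]
    exact pow_le_pow_left₀ (by positivity) (e7 i) 2
  calc Real.exp (φ x) * ‖pv z Q x‖ ^ (2 * K + 2)
      = Real.exp (φ x) * ‖pv z Q x‖ ^ 2 * (‖pv z Q x‖ ^ K) ^ 2 := by ring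
    _ ≤ Real.exp (φ' x) * (C₂ * w ^ N₂ * ‖jac z x / Ω x‖) ^ 2 * (‖pv z Q x‖ ^ K) ^ 2 := by
        gcongr
        exact q3 x
    _ = (C₂ * w ^ N₂) ^ 2 * (‖pv z Q x‖ ^ K) ^ 2 * (Real.exp (φ' x) * ‖jac z x / Ω x‖ ^ 2) := by
        ring
    _ ≤ (C₂ * w ^ N₂) ^ 2 * (‖pv z Q x‖ ^ K) ^ 2 * (|C₁| * w ^ N₁ * ∑ i, ‖g i x‖ ^ 2) := by
        refine mul_le_mul_of_nonneg_left (e3.trans ?_) (by positivity)
        gcongr
        exact le_abs_self _
    _ = (C₂ * w ^ N₂) ^ 2 * (|C₁| * w ^ N₁) * ((‖pv z Q x‖ ^ K) ^ 2 * ∑ i, ‖g i x‖ ^ 2) := by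
        ring
    _ ≤ (C₂ * w ^ N₂) ^ 2 * (|C₁| * w ^ N₁) *
        ((∑ i, (|C i| * (D + 1) ^ K) ^ 2) * (w ^ (d * K + ∑ i, N i)) ^ 2) := by gcongr
    _ = _ := by ring

variable [IsManifold 𝓘(ℂ, Cm n) 1 M] [IsManifold 𝓘(ℝ, Cm n) ∞ M]
  [IsContMDiffRiemannianBundle 𝓘(ℝ, Cm n) ∞ (Cm n) (fun x : M => TangentSpace 𝓘(ℝ, Cm n) x)]
  [IsRiemannianManifold 𝓘(ℝ, Cm n) M] [CompleteSpace M] [ConnectedSpace M] [NoncompactSpace M]
  [MeasurableSpace M] [BorelSpace M] {μ : Measure M}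

/-- `log (1 + |Ω|²)` is strictly plurisubharmonic -/
theorem Smo.strict (c : Ctx n μ) (l : LSP n M) (h1 : IsSec n 1 Ω) (h2 : ∀ x, Ω x ≠ 0) :
    ∃ κ : M → ℝ, Continuous κ ∧ (∀ x, 0 < κ x) ∧
      WeakLevi (Cm n) (fun x => Real.log (1 + Real.exp (lg n Ω x))) κ univ := by
  have a : B1a n M := b1a
  have b := b1b c.kahler a
  have r := b2 c.kahler c.pos c.npos a b
  have : Nonempty (Fin n) := ⟨⟨0, c.npos⟩⟩
  obtain ⟨⟨u1, -⟩, u2⟩ := l.triv Ω h1 h2
  set T : M → ℝ := fun x => trg (ric (pc n x) (pc n x x)) (hm (pc n x) (pc n x x)) with hT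
  have T1 : ∀ e : Chart n M, Hc e → ∀ z ∈ e.target, T (e.symm z) = trg (ric e z) (hm e z) := by
    intro e he z hz
    have hx := e.map_target hz
    have h3 := b.ric_ch e _ he (a.chart _) _ hx (mem_chart_source _ _)
    have h4 := b.wch e _ he (a.chart _) _ hx (mem_chart_source _ _)
    rw [e.right_inv hz] at h3 h4
    rw [h3, h4, V.Alg.trg_pb (a.jac_ne e _ he (a.chart _) _ hx (mem_chart_source _ _))]
  have T2 : Continuous T := a.sm_cont _ fun e he z hz =>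
    ((V.Alg.sm_trg (s := e.target) (fun i j y hy => (P272.K.C2.contDiffAt_cHess
      ((b.vd_sm e he y hy).log (b.vd_pos e he y hy).ne').neg (by simp) i j).contDiffWithinAt)
      (fun y hy => (r e he y hy).det_pos.ne') fun i j y hy =>
        (b.wsm e he y hy i j).contDiffWithinAt).congr (T1 e he)).contDiffAt
      (e.open_target.mem_nhds hz)
  have T3 : ∀ e : Chart n M, Hc e → ∀ z ∈ e.target, 0 < ((ric e z)⁻¹ * hm e z).trace :=
    fun e he z hz => P272.K.C2.trace_mul_pos (r e he z hz).inv (b.wpos e he z hz)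
  have T4 : ∀ x, 0 < T x := fun x =>
    (Complex.pos_iff.1 (T3 _ (a.chart x) _ (mem_chart_target _ x))).1
  have uc := a.sm_cont _ u1
  have p1 : ∀ s, 0 < 1 + Real.exp s := fun s => by positivity
  refine ⟨fun x => Real.exp (lg n Ω x) / (1 + Real.exp (lg n Ω x)) / T x,
    ((uc.rexp.div (continuous_const.add uc.rexp) fun x => (p1 _).ne').div T2 fun x => (T4 x).ne'),
    fun x => div_pos (div_pos (Real.exp_pos _) (p1 _)) (T4 x), ?_⟩
  refine (fun h : LeviGe (Cm n) _ _ => weakLevi_of_fourGe h.continuous fun x _ => h.fourGe x)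
    fun e he => ?_
  have s1 : ∀ z ∈ e.target, ContDiffAt ℝ 2 (fun y => lg n Ω (e.symm y)) z := fun z hz =>
    (u1 e he z hz).of_le (WithTop.coe_le_coe.2 (le_top : (2 : ℕ∞) ≤ ⊤))
  have s2 : ∀ z ∈ e.target,
      ContDiffAt ℝ 2 (fun y => Real.log (1 + Real.exp (lg n Ω (e.symm y)))) z := fun z hz =>
    (contDiffAt_const.add (s1 z hz).exp).log (p1 _).ne'
  refine ⟨fun z hz => (s2 z hz).contDiffWithinAt, fun z hz v => ?_⟩
  set s := lg n Ω (e.symm z) with hs'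
  have d1 : ∀ t, HasDerivAt (fun t => Real.log (1 + Real.exp t))
      (Real.exp t / (1 + Real.exp t)) t := fun t =>
    ((Real.hasDerivAt_exp t).const_add 1).log (p1 t).ne'
  have d2 : HasDerivAt (fun t => Real.exp t / (1 + Real.exp t))
      (Real.exp s / (1 + Real.exp s) ^ 2) s := by
    refine ((Real.hasDerivAt_exp s).div ((Real.hasDerivAt_exp s).const_add 1)
      (p1 s).ne').congr_deriv ?_
    ring
  have e1 := cHess_comp' d1 d2 (s1 z hz)
  have e2 : cHess (fun y => lg n Ω (e.symm y)) z = ric e z := u2 e he z hz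
  have e3 := P272.K.C2.trace_smul_sub_posSemidef (r e he z hz) (b.wpos e he z hz).posSemidef
  have e4 : ((ric e z)⁻¹ * hm e z).trace = (T (e.symm z) : ℂ) := by
    rw [T1 e he z hz]
    exact Complex.ext rfl (Complex.pos_iff.1 (T3 e he z hz)).2.symm
  have t0 := T4 (e.symm z)
  have e5 : (cHess (fun y => Real.log (1 + Real.exp (lg n Ω (e.symm y)))) z -
      ((Real.exp s / (1 + Real.exp s) / T (e.symm z) : ℝ) : ℂ) • hm e z).PosSemidef := by
    rw [e4] at e3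
    rw [e1, e2]
    convert (psd_smul e3 (c := Real.exp s / (1 + Real.exp s) / T (e.symm z)) (by positivity)).add
      (psd_smul (gg_psd (fun y => lg n Ω (e.symm y)) z) (c := Real.exp s / (1 + Real.exp s) ^ 2)
        (by positivity)) using 1
    rw [smul_sub, smul_smul, ← Complex.ofReal_mul, div_mul_cancel₀ _ t0.ne']
    abel
  have e6 := (b.psd _ e5.1).1 e5 v
  have e7 := b.levi _ z v (s2 z hz)
  simp only [Matrix.sub_apply, Matrix.smul_apply, smul_eq_mul, sub_mul, mul_assoc,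
    Finset.sum_sub_distrib, ← Finset.mul_sum, Complex.sub_re, Complex.re_ofReal_mul] at e6
  rw [b.quad e he z hz]
  change _ ≤ levi2 (fun y => Real.log (1 + Real.exp (lg n Ω (e.symm y)))) z v
  linarith

theorem smo (c : Ctx n μ) (l : LSP n M) (hO : G.Triv Ω) : G.SMO := by
  have a : B1a n M := b1a
  have b := b1b c.kahler a
  obtain ⟨κ, k1, k2, k3⟩ := Smo.strict c l hO.sec hO.ne
  obtain ⟨k₀, h0, h1⟩ := Gauge.tame_iff.1 hO.tame
  refine fun k => ⟨k₀ + k, fun φ p1 ⟨C, hC⟩ => ?_⟩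
  obtain ⟨u, u1, u2, u3⟩ := rb c.kahler a b _ κ k1 k2 (k3.add_psh p1)
  obtain ⟨v1, v2⟩ := l.lin u u 1 0 1 u1 u1
  refine ⟨_, ⟨v1, fun e he z hz => ?_⟩, ⟨C + 3, fun x => ?_⟩, fun x => ?_⟩
  · rw [v2 e he z hz]
    simpa [hs] using (u3 e he z hz).add
      (psd_smul (b.wpos e he z hz).posSemidef (half_pos (k2 (e.symm z))).le)
  · have e1 := Real.exp_le_exp.2 (h1 x)
    have e2 := Real.one_le_exp (mul_nonneg h0 (G.a_pos x).le)
    have e3 : Real.log (1 + Real.exp (lg n Ω x)) ≤ k₀ * G.a x + 1 := by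
      rw [Real.log_le_iff_le_exp (by positivity), Real.exp_add]
      nlinarith [Real.add_one_le_exp (1 : ℝ)]
    linarith [(abs_le.1 (u2 x)).2, hC x]
  · have e3 : 0 ≤ Real.log (1 + Real.exp (lg n Ω x)) :=
      Real.log_nonneg (le_add_of_nonneg_right (Real.exp_pos _).le)
    linarith [(abs_le.1 (u2 x)).1]

end Vale.Agent.P253W.T
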