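import Vale.Agent.P253W.T.Basic
import Vale.Agent.P253Z.B1a
import Vale.Agent.P253Z.B1b
import Vale.Agent.P253Z.TC
import Vale.Agent.P253.R2.H451.KP

/-!
# P253W, block T: punctured discs of finite area
-/

open scoped Manifold ContDiff Bundle ENNReal Topology ComplexConjugate ComplexOrder Matrix
  InnerProductSpace
open Bundle IsManifold MeasureTheory Set Metric Filter Vale.Agent.P253.Mfd Vale.Agent.P253Z
open Vale.Agent.P272.K (Cm Chart)
open Vale.Agent.P253.R2.H451 Vale.Agent.P253.R2.H66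

noncomputable section

namespace Vale.Agent.P253W.T

namespace Sop

/-- a radius of finite length -/
theorem core {E V : Type} [NormedAddCommGroup E] [NormedSpace ℂ E] [FiniteDimensional ℂ E]
    [NormedAddCommGroup V] [InnerProductSpace ℂ V] [FiniteDimensional ℂ V] (A : V ≃L[ℂ] E)
    {R C : ℝ} (hR : 0 < R) (hC : 0 ≤ C) {F : ℂ → E} (hF : DifferentiableOn ℂ F (ball 0 R))
    {k : ℂ → E → E → ℝ} {q : ℂ → ℝ}
    (hk : ∀ τ ∈ ball (0 : ℂ) R \ {0}, ∃ (S : Set E) (g : E → E → E → ℝ), IsOpen S ∧ KMetric S g ∧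
      F τ ∈ S ∧ ∀ᶠ s in 𝓝 τ, k s = g (F s))
    (hl : ∀ τ ∈ ball (0 : ℂ) R \ {0}, ∀ v, ‖v‖ ^ 2 ≤ C * k τ v v)
    (hq : ∀ τ ∈ ball (0 : ℂ) R \ {0}, q τ = k τ (deriv F τ) (deriv F τ))
    (hi : ∫⁻ τ in ball (0 : ℂ) R \ {0}, ENNReal.ofReal (q τ) < ⊤) :
    ∃ θ ρ : ℝ, 0 < ρ ∧ ρ < R ∧ ∫⁻ t in Ioo 0 ρ,
      ENNReal.ofReal (√(q (t * (Real.cos θ + Real.sin θ * Complex.I)))) ≠ ⊤ := by
  set P : Set ℂ := ball 0 R \ {0} with hP
  have hPo : IsOpen P := isOpen_ball.sdiff isClosed_singleton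
  have hPm : MeasurableSet P := hPo.measurableSet
  set op : ℂ → V →L[ℂ] V := fun τ => gop A (fun _ => k τ) 0 with hop
  have loc : ∀ τ ∈ P, ∃ (S : Set E) (g : E → E → E → ℝ), IsOpen S ∧ KMetric S g ∧ F τ ∈ S ∧
      k τ = g (F τ) ∧ op τ = gop A g (F τ) ∧ op =ᶠ[𝓝 τ] fun s => gop A g (F s) := by
    intro τ hτ
    obtain ⟨S, g, h1, h2, h3, h4⟩ := hk τ hτ
    have h5 : op =ᶠ[𝓝 τ] fun s => gop A g (F s) := h4.mono fun s hs => by
      simp only [hop, gop, herm, hs]
    exact ⟨S, g, h1, h2, h3, h4.self_of_nhds, h5.self_of_nhds, h5⟩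
  have hFa : ∀ τ ∈ P, AnalyticAt ℂ F τ := fun τ hτ => hF.analyticAt (isOpen_ball.mem_nhds hτ.1)
  have hF2 : ∀ τ ∈ P, ContDiffAt ℝ 2 F τ := fun τ hτ =>
    ((hFa τ hτ).contDiffAt (n := 2)).restrict_scalars ℝ
  have hv : DifferentiableOn ℂ (fun z => A.symm (deriv F z)) (ball 0 R) :=
    A.symm.differentiable.comp_differentiableOn (hF.deriv isOpen_ball)
  have hgc : ContinuousOn op P := fun τ hτ => by
    obtain ⟨S, g, h1, h2, h3, -, -, h4⟩ := loc τ hτ
    exact ((((gop_contDiffAt A h2 h1 h3).comp τ (hF2 τ hτ)).continuousAt).congr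
      h4.symm).continuousWithinAt
  set q' : ℂ → ℝ := fun z => (⟪A.symm (deriv F z), op z (A.symm (deriv F z))⟫_ℂ).re with hq'
  have hqq : ∀ z ∈ P, q' z = q z := fun τ hτ => by
    obtain ⟨S, g, h1, h2, h3, h4, h5, -⟩ := loc τ hτ
    simp only [hq']
    rw [hq τ hτ, h5, re_inner_gop A h2 h3, h4]
    simp
  have hq0 : ∀ z ∈ P, 0 ≤ q' z := fun τ hτ => by
    obtain ⟨S, g, h1, h2, h3, h4, -, -⟩ := loc τ hτ
    rw [hqq τ hτ, hq τ hτ, h4]
    exact h2.nonneg h3 _
  have hqc : ContinuousOn q' P := by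
    have hv' : ContinuousOn (fun z => A.symm (deriv F z)) P := hv.continuousOn.mono sdiff_subset
    exact Complex.continuous_re.comp_continuousOn (hv'.inner (hgc.clm_apply hv'))
  have hint : IntegrableOn q' P := by
    refine ⟨hqc.aestronglyMeasurable hPm, ?_⟩
    rw [hasFiniteIntegral_iff_ofReal
      (by filter_upwards [ae_restrict_mem hPm] with z hz using hq0 z hz)]
    refine lt_of_le_of_lt (le_of_eq ?_) hi
    exact setLIntegral_congr_fun hPm fun z hz => by rw [hqq z hz]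
  obtain ⟨ε, hε, ρ, hρ, hρR, hI⟩ := strongOpenness V R (fun z => Ring.inverse (op z)) op hR
    (fun τ hτ => by
      obtain ⟨S, g, h1, h2, h3, -, -, h4⟩ := loc τ hτ
      refine ((((inv_gop_contDiffOn A h2 h1).contDiffAt (h1.mem_nhds h3)).comp τ
        (hF2 τ hτ)).congr_of_eventuallyEq (h4.mono fun s hs => ?_)).contDiffWithinAt
      simp only [hs, Function.comp])
    (fun τ hτ => by
      obtain ⟨S, g, h1, h, h3, -, h4, -⟩ := loc τ hτ
      rw [h4, ContinuousLinearMap.nonneg_iff_isPositive, ContinuousLinearMap.isPositive_def]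
      refine ⟨(ContinuousLinearMap.isSelfAdjoint_iff_isSymmetric).1
        (inv_gop_selfAdjoint A h h3), fun b => ?_⟩
      rw [ContinuousLinearMap.reApplyInnerSelf_apply,
        inner_selfAdjoint (inv_gop_selfAdjoint A h h3)]
      exact inv_gop_nonneg A h h3 b)
    hgc
    (fun τ hτ v => by
      obtain ⟨S, g, h1, h, h3, -, h4, -⟩ := loc τ hτ
      rw [h4]
      exact inv_gop_apply' A h h3 v)
    (fun τ hτ v => by
      obtain ⟨S, g, h1, h, h3, -, h4, -⟩ := loc τ hτ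
      rw [h4]
      exact inv_gop_apply A h h3 v)
    (fun τ hτ b c => by
      obtain ⟨S, g, h1, h, h3, -, -, h4⟩ := loc τ hτ
      have h5 : (fun z => Ring.inverse (op z)) =ᶠ[𝓝 τ] fun y => Ring.inverse (gop A g (F y)) :=
        h4.mono fun s hs => by simp only [hs]
      have h6 : dzb (fun z => Ring.inverse (op z)) =ᶠ[𝓝 τ]
          dzb fun y => Ring.inverse (gop A g (F y)) :=
        h5.eventuallyEq_nhds.mono fun s hs => dzb_congr hs
      have h7 := curvGE_disc A h h1 (hFa τ hτ) h3 b c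
      rw [dz_congr h6, dzb_congr h5]
      simpa only [h4.self_of_nhds] using h7)
    ⟨‖(A.symm : E →L[ℂ] V)‖ ^ 2 * C, fun τ hτ => by
      obtain ⟨S, g, h1, h, h3, h5, h4, -⟩ := loc τ hτ
      refine ContinuousLinearMap.opNorm_le_bound _ (by positivity) fun b => ?_
      rw [h4]
      set w := Ring.inverse (gop A g (F τ)) b with hw
      have e1 := re_inner_gop A h h3 w w
      rw [hw, inv_gop_apply A h h3, ← hw, ← h5] at e1
      have e2 := hl τ hτ (A w)
      have e3 : ‖w‖ ≤ ‖(A.symm : E →L[ℂ] V)‖ * ‖A w‖ := by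
        simpa using (A.symm : E →L[ℂ] V).le_opNorm (A w)
      have e4 : (⟪w, b⟫_ℂ).re ≤ ‖w‖ * ‖b‖ :=
        (Complex.re_le_norm _).trans (norm_inner_le_norm _ _)
      have e5 : ‖w‖ * ‖w‖ ≤ ‖w‖ * (‖(A.symm : E →L[ℂ] V)‖ ^ 2 * C * ‖b‖) :=
        calc ‖w‖ * ‖w‖ ≤ (‖(A.symm : E →L[ℂ] V)‖ * ‖A w‖) ^ 2 := by
              rw [← pow_two]; gcongr
          _ = ‖(A.symm : E →L[ℂ] V)‖ ^ 2 * ‖A w‖ ^ 2 := by ring
          _ ≤ ‖(A.symm : E →L[ℂ] V)‖ ^ 2 * (C * (‖w‖ * ‖b‖)) := by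
              gcongr
              exact e2.trans (mul_le_mul_of_nonneg_left (e1 ▸ e4) hC)
          _ = _ := by ring
      rcases (norm_nonneg w).eq_or_lt with h0 | h0
      · rw [← h0]; positivity
      · exact le_of_mul_le_mul_left e5 h0⟩
    (fun z => A.symm (deriv F z)) hv hint
  have hsub : ball (0 : ℂ) ρ \ {0} ⊆ P := sdiff_subset_sdiff_left (ball_subset_ball hρR.le)
  obtain ⟨θ, hθ⟩ := radius_of_integrable hε hρ (hqc.mono hsub) (fun z hz => hq0 z (hsub hz)) hI
  refine ⟨θ, ρ, hρ, hρR, ne_top_of_le_ne_top hθ (le_of_eq ?_)⟩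
  refine setLIntegral_congr_fun measurableSet_Ioo fun t ht => ?_
  have hn : ‖(t : ℂ) * (Real.cos θ + Real.sin θ * Complex.I)‖ = t := by
    have := Complex.norm_polarCoord_symm (t, θ)
    rwa [Complex.polarCoord_symm_apply, abs_of_pos ht.1] at this
  rw [hqq _ ⟨by rw [mem_ball_zero_iff, hn]; exact ht.2.trans hρR, fun h0 => by
    rw [mem_singleton_iff.1 h0, norm_zero] at hn
    exact ht.1.ne hn⟩]

variable {n : ℕ}

/-- the Cauchy-Schwarz inequality for a coordinate -/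
theorem cs {H : Mx n} (hH : H.PosDef) {B : ℝ} (hB : 0 < B) (i : Fin n)
    (h : hq H (Pi.single i 1) ≤ B) (v : Cm n) :
    ‖v i‖ ^ 2 ≤ B * (∑ j, ∑ k, H j k * (v j * conj (v k))).re := by
  have hu : IsUnit H.det := (Matrix.isUnit_iff_isUnit_det _).1 hH.isUnit
  set y : Cm n := H⁻¹ *ᵥ Pi.single i 1 with hy
  have e1 : H *ᵥ y = Pi.single i 1 := by
    rw [hy, Matrix.mulVec_mulVec, Matrix.mul_nonsing_inv _ hu, Matrix.one_mulVec]
  have e2 : star y ᵥ* H = Pi.single i 1 := by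
    have := congrArg star e1
    rw [Matrix.star_mulVec, hH.1.eq] at this
    rw [this]
    funext j
    by_cases hj : j = i <;> simp [hj]
  have e3 : hq H (Pi.single i 1) = (y i).re := by
    have : star (Pi.single i 1 : Cm n) = Pi.single i 1 := by
      funext j
      by_cases hj : j = i <;> simp [hj]
    rw [hq, this, single_dotProduct, one_mul]
  set t : ℂ := conj (v i) / B with ht
  have h0 := (Complex.nonneg_iff.1 (hH.posSemidef.dotProduct_mulVec_nonneg (star v - t • y))).1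
  have e4 : star (star v - t • y) ⬝ᵥ H *ᵥ (star v - t • y) =
      (∑ j, ∑ k, H j k * (v j * conj (v k))) - t * v i - conj t * conj (v i) +
        conj t * t * conj (y i) := by
    have a1 : v ⬝ᵥ H *ᵥ star v = ∑ j, ∑ k, H j k * (v j * conj (v k)) := by
      simp only [dotProduct, Matrix.mulVec, Finset.mul_sum, Pi.star_apply, RCLike.star_def]
      exact Finset.sum_congr rfl fun j _ => Finset.sum_congr rfl fun k _ => by ring
    have a2 : star y ⬝ᵥ H *ᵥ star v = conj (v i) := by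
      rw [Matrix.dotProduct_mulVec, e2, single_dotProduct, one_mul]
      rfl
    rw [star_sub, star_star, star_smul, Matrix.mulVec_sub, Matrix.mulVec_smul, e1, sub_dotProduct,
      dotProduct_sub, dotProduct_sub, smul_dotProduct, smul_dotProduct, dotProduct_smul,
      dotProduct_smul, a1, a2, dotProduct_single, dotProduct_single]
    simp only [smul_eq_mul, mul_one, Pi.star_apply, RCLike.star_def]
    ring
  have e5 : t * v i = ((‖v i‖ ^ 2 / B : ℝ) : ℂ) := by
    rw [ht, div_mul_eq_mul_div, Complex.conj_mul']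
    push_cast
    rfl
  have e6 : conj t * t = ((‖v i‖ ^ 2 / B ^ 2 : ℝ) : ℂ) := by
    rw [Complex.conj_mul', ht, norm_div, Complex.norm_conj, Complex.norm_real,
      Real.norm_of_nonneg hB.le]
    push_cast
    ring
  rw [e4, ← map_mul, e5, e6, Complex.conj_ofReal] at h0
  simp only [Complex.add_re, Complex.sub_re, Complex.ofReal_re, Complex.re_ofReal_mul,
    Complex.conj_re] at h0
  rw [e3] at h
  have h1 : ‖v i‖ ^ 2 / B ^ 2 * (y i).re ≤ ‖v i‖ ^ 2 / B :=
    (mul_le_mul_of_nonneg_left h (by positivity)).trans_eq (by field_simp)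
  rw [← div_le_iff₀' hB]
  linarith

end Sop

variable {n : ℕ} {M : Type} [MetricSpace M] [ChartedSpace (Cm n) M]
  [IsManifold 𝓘(ℂ, Cm n) 1 M] [IsManifold 𝓘(ℝ, Cm n) ∞ M]
  [RiemannianBundle (fun x : M => TangentSpace 𝓘(ℝ, Cm n) x)]
  [IsContMDiffRiemannianBundle 𝓘(ℝ, Cm n) ∞ (Cm n) (fun x : M => TangentSpace 𝓘(ℝ, Cm n) x)]
  [IsRiemannianManifold 𝓘(ℝ, Cm n) M] [CompleteSpace M] [ConnectedSpace M] [NoncompactSpace M]
  [MeasurableSpace M] [BorelSpace M] {μ : Measure M}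

theorem sop (c : Ctx n μ) (d : DJ n M) (s : DSC n M) : SOP n M := by
  intro z g F c₀ ρ B hρ hz hg hF h hi
  have a : B1a n M := b1a
  have b := b1b c.kahler a
  have : ProperSpace M := properSpace_riemannian (Cm n) M
  have : Nonempty (Chart n M) := ⟨chartAt _ (g 0)⟩
  choose! e he hx hy using d.chart z hz
  set Q : Set ℂ := ball c₀ ρ \ {c₀} with hQ
  have hQo : IsOpen Q := isOpen_ball.sdiff isClosed_singleton
  have pre : (fun τ => c₀ + τ) ⁻¹' Q = ball 0 ρ \ {0} := by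
    ext τ
    simp [hQ]
  have mem : ∀ τ ∈ ball (0 : ℂ) ρ \ {0}, c₀ + τ ∈ Q := fun τ hτ => by rwa [← pre] at hτ
  have eF : ∀ τ ∈ Q, ∀ τ' ∈ Q, g τ' ∈ (e (g τ)).source → e (g τ) (g τ') = F τ' :=
    fun τ hτ τ' hτ' h1 => (hy _ (h τ hτ).2.1 _ h1).1.trans (h τ' hτ').1
  have near : ∀ τ ∈ Q, ∀ᶠ τ' in 𝓝 τ, τ' ∈ Q ∧ g τ' ∈ (e (g τ)).source := fun τ hτ =>
    (show ∀ᶠ τ' in 𝓝 τ, τ' ∈ Q from hQo.mem_nhds hτ).and
      ((hg.continuousOn.continuousAt (hQo.mem_nhds hτ)).eventually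
        ((e (g τ)).open_source.mem_nhds (hx _ (h τ hτ).2.1)))
  have tgt : ∀ τ ∈ Q, F τ ∈ (e (g τ)).target := fun τ hτ =>
    eF τ hτ τ hτ (hx _ (h τ hτ).2.1) ▸ (e (g τ)).map_source (hx _ (h τ hτ).2.1)
  have same : ∀ τ ∈ Q, ∀ τ' ∈ Q, g τ' ∈ (e (g τ)).source → ∀ v w,
      chartG (e (g τ')) (F τ') v w = chartG (e (g τ)) (F τ') v w := by
    intro τ hτ τ' hτ' h1 v w
    have j := (h τ hτ).2.1
    have j' := (h τ' hτ').2.1
    have h2 := chartG_change (he _ j') (he _ j) (hx _ j') h1 v w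
    have h3 : (e (g τ)) ∘ (e (g τ')).symm =ᶠ[𝓝 (e (g τ') (g τ'))] id := by
      have h4 := (e (g τ')).continuousAt_symm ((e (g τ')).map_source (hx _ j'))
      rw [ContinuousAt, (e (g τ')).left_inv (hx _ j')] at h4
      filter_upwards [h4.eventually ((e (g τ)).open_source.mem_nhds h1),
        (e (g τ')).open_target.mem_nhds ((e (g τ')).map_source (hx _ j'))] with y h5 h6
      rw [Function.comp, (hy _ j _ h5).1, ← (hy _ j' _ ((e (g τ')).map_target h6)).1,
        (e (g τ')).right_inv h6, id]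
    rw [h3.fderiv_eq, fderiv_id, eF τ hτ τ' hτ' h1, eF τ' hτ' τ' hτ' (hx _ j')] at h2
    exact h2.symm
  obtain ⟨θ, r, hr, hrρ, hfin⟩ := Sop.core (EuclideanSpace.equiv (Fin n) ℂ) (C := max B 1) hρ
    (by positivity) (F := fun τ => F (c₀ + τ))
    (hF.comp (by fun_prop) fun τ hτ => by simpa using hτ)
    (k := fun τ v w => chartG (e (g (c₀ + τ))) (F (c₀ + τ)) v w) (q := fun τ => dens n g (c₀ + τ))
    (fun τ hτ => by
      have j := (h _ (mem τ hτ)).2.1
      refine ⟨_, _, (e (g (c₀ + τ))).open_target, kmetric_of_local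
        (localKahler_chartG c.kahler (he _ j)) fun w hw X u =>
          Rc_nonneg_chartG c.kahler (he _ j) hw (TC.nonneg (c.pos _)) X u, tgt _ (mem τ hτ), ?_⟩
      filter_upwards [(continuous_const_add c₀).continuousAt.eventually (near _ (mem τ hτ))]
        with τ' h1
      funext v w
      exact same _ (mem τ hτ) _ h1.1 h1.2 v w)
    (fun τ hτ v => by
      have m := mem τ hτ
      have j := (h _ m).2.1
      have t := tgt _ m
      have h0 : 0 ≤ chartG (e (g (c₀ + τ))) (F (c₀ + τ)) v v := by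
        rw [chartG_apply, chartMetric]
        exact real_inner_self_nonneg
      rw [← Real.le_sqrt (norm_nonneg _) (by positivity), pi_norm_le_iff_of_nonneg (by positivity)]
      intro i
      rw [Real.le_sqrt (norm_nonneg _) (by positivity), chartG_apply, b.quad _ (he _ j) _ t]
      refine Sop.cs (b.wpos _ (he _ j) _ t) (by positivity) i ?_ v
      rw [← d.one z _ (he _ j) (fun y h1 => (hy _ j y h1).1) _ t i, ← d.gr _ (hz i) _ (he _ j) _ t,
        ← eF _ m _ m (hx _ j), (e _).left_inv (hx _ j)]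
      exact ((h _ m).2.2 i).trans (le_max_left _ _))
    (fun τ hτ => by
      have m := mem τ hτ
      have j := (h _ m).2.1
      have h1 : (fun s => e (g (c₀ + τ)) (g s)) =ᶠ[𝓝 (c₀ + τ)] F :=
        (near _ m).mono fun τ' h1 => eF _ m _ h1.1 h1.2
      rw [(s.chart g _ ((hg _ m).mdifferentiableAt (hQo.mem_nhds m)) _ (he _ j) (hx _ j)).2,
        h1.deriv_eq, eF _ m _ m (hx _ j), deriv_comp_const_add]
      rfl)
    (by
      rw [← pre, (measurePreserving_add_left volume c₀).setLIntegral_comp_preimage_emb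
        (measurableEmbedding_addLeft c₀) (fun τ => ENNReal.ofReal (dens n g τ)) Q]
      exact hi)
  set u : ℂ := Real.cos θ + Real.sin θ * Complex.I with hu
  have hnu : ‖u‖ = 1 := by
    simp [hu]
  have hray : ∀ t : ℝ, 0 < t → t < ρ → c₀ + t * u ∈ Q := fun t h0 h1 => mem _ (by
    have : ‖(t : ℂ) * u‖ = t := by
      rw [norm_mul, hnu, mul_one, Complex.norm_real, Real.norm_of_nonneg h0.le]
    exact ⟨by rwa [mem_ball_zero_iff, this], fun h2 => by
      rw [mem_singleton_iff.1 h2, norm_zero] at this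
      exact h0.ne this⟩)
  set ψ : ℝ → ℝ := fun t => √(dens n g (c₀ + t * u)) with hψ
  have hb : ∀ t ∈ Ioo 0 r, g (c₀ + t * u) ∈
      closedBall (g (c₀ + r * u)) (∫⁻ t in Ioo 0 r, ENNReal.ofReal (ψ t)).toReal := by
    intro t ht
    have h1 := s.len g Q (c₀ + t * u) (c₀ + r * u) hQo hg (by
      rw [segment_eq_image']
      rintro _ ⟨x, hx, rfl⟩
      have := hray (t + x * (r - t)) (by nlinarith [hx.1, ht.1, ht.2])
        (by nlinarith [hx.2, ht.2])
      convert this using 1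
      simp only [Complex.real_smul]
      push_cast
      ring)
    have h2 : ∀ x : ℝ, √(dens n g (c₀ + t * u + x * (c₀ + r * u - (c₀ + t * u)))) *
        ‖c₀ + r * u - (c₀ + t * u)‖ = (r - t) * ψ ((r - t) * x + t) := fun x => by
      rw [show c₀ + r * u - (c₀ + t * u) = ((r - t : ℝ) : ℂ) * u by push_cast; ring, norm_mul, hnu,
        Complex.norm_real, Real.norm_of_nonneg (sub_pos.2 ht.2).le, mul_one, mul_comm]
      simp only [hψ]
      congr 3
      push_cast
      ring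
    simp only [h2] at h1
    rw [intervalIntegral.integral_const_mul, intervalIntegral.mul_integral_comp_mul_add,
      mul_zero, zero_add, mul_one, sub_add_cancel, intervalIntegral.integral_of_le ht.2.le,
      integral_Ioc_eq_integral_Ioo] at h1
    rw [mem_closedBall]
    refine h1.trans ((ENNReal.ofReal_le_iff_le_toReal hfin).1 ?_)
    refine (Real.ofReal_le_enorm _).trans ((enorm_integral_le_lintegral_enorm _).trans ?_)
    simp only [hψ, Real.enorm_eq_ofReal (Real.sqrt_nonneg _)]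
    exact lintegral_mono_set (Ioo_subset_Ioo_left ht.1.le)
  obtain ⟨x, -, hx⟩ := (isCompact_closedBall _ _).exists_mapClusterPt
    (f := 𝓝[>] (0 : ℝ)) (u := fun t : ℝ => g (c₀ + t * u))
    (le_principal_iff.2 (mem_map.2 (mem_of_superset (Ioo_mem_nhdsGT hr) hb)))
  refine ⟨x, MapClusterPt.of_comp (φ := fun t : ℝ => c₀ + t * u) ?_ hx⟩
  refine tendsto_nhdsWithin_iff.2 ⟨?_, ?_⟩
  · have : Continuous fun t : ℝ => c₀ + t * u := by fun_prop
    simpa using (this.tendsto 0).mono_left nhdsWithin_le_nhds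
  · filter_upwards [Ioo_mem_nhdsGT hρ] with t ht using (hray t ht.1 ht.2).2

end Vale.Agent.P253W.T
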