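import Vale.Agent.P253W.T.Basic
import Vale.Agent.P253Z.Main
import Vale.Agent.P253Z.T2.Asm
import Vale.Agent.P253Z.T2.Et
import Vale.Agent.P253Y.Big.Alg
import Vale.Agent.P253Y.Big.Fr3
import Vale.Agent.P253Y.Big.Lim
import Vale.Agent.P253Y.Big.Orf

/-!
# P253W, block T, row Z0: tame coordinates
-/

open scoped Manifold ContDiff Bundle ENNReal Topology ComplexConjugate ComplexOrder
open Bundle IsManifold MeasureTheory Set Metric Filter Vale.Agent.P253.Mfd Vale.Agent.P253Z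
open Vale.Agent.P272.K (Cm dz dzb cHess jacM Chart)
open Vale.Agent.P253Z.T2 (Pz Phi Et)
open Vale.Agent.P253Z.VS (ev)

noncomputable section

namespace Vale.Agent.P253W.T

variable {n : ℕ} {M : Type} [MetricSpace M] [ChartedSpace (Cm n) M]
  [RiemannianBundle (fun x : M => TangentSpace 𝓘(ℝ, Cm n) x)] {o : M} {G : Gauge n o}

namespace Z0

variable (G) in
/-- sections which are tame in the frames `Ω R` -/
def Tm (Ω : ℝ → M → ℂ) (m : ℕ) : Submodule ℂ (M → ℂ) where
  carrier := {s | IsSec n (-m) s ∧ ∃ k : ℝ, ∀ R, 2 ≤ R → ∀ x,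
    ‖s x * Ω R x ^ m‖ ≤ Real.exp (k * G.sc R x)}
  zero_mem' := ⟨fun e _ z _ => by
    have : co (-m) (0 : M → ℂ) e = fun _ => 0 := by funext z; simp [co]
    rw [this]; exact analyticAt_const, 0, fun R _ x => by simp⟩
  add_mem' := by
    rintro a b ⟨ha, C, hC⟩ ⟨hb, D, hD⟩
    refine ⟨fun e he z hz => ?_, max C D + 1, fun R hR x => ?_⟩
    · have : co (-m) (a + b) e = co (-m) a e + co (-m) b e := by funext z; simp [co, mul_add]
      rw [this]; exact (ha e he z hz).add (hb e he z hz)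
    · have p := G.sc_pos R x
      have h1 : Real.exp (C * G.sc R x) ≤ Real.exp (max C D * G.sc R x) := by
        gcongr; exact le_max_left _ _
      have h2 : Real.exp (D * G.sc R x) ≤ Real.exp (max C D * G.sc R x) := by
        gcongr; exact le_max_right _ _
      rw [Pi.add_apply, add_mul, add_mul, one_mul, Real.exp_add]
      refine (norm_add_le _ _).trans ?_
      nlinarith [hC R hR x, hD R hR x, Real.add_one_le_exp (G.sc R x), G.one_le_sc R x,
        Real.exp_pos (max C D * G.sc R x)]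
  smul_mem' := by
    rintro c a ⟨ha, C, hC⟩
    refine ⟨fun e he z hz => ?_, ‖c‖ + C, fun R hR x => ?_⟩
    · have : co (-m) (c • a) e = fun z => c * co (-m) a e z := by
        funext z; simp [co]; ring
      rw [this]; exact analyticAt_const.mul (ha e he z hz)
    · rw [Pi.smul_apply, smul_eq_mul, mul_assoc, norm_mul, add_mul, Real.exp_add]
      refine mul_le_mul ?_ (hC R hR x) (norm_nonneg _) (Real.exp_pos _).le
      nlinarith [Real.add_one_le_exp (‖c‖ * G.sc R x), G.one_le_sc R x, norm_nonneg c]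

variable [IsManifold 𝓘(ℂ, Cm n) 1 M]

theorem gr (a : B1a n M) (Ω : ℝ → M → ℂ) : VS.Gr (Tm G Ω) where
  one := ⟨sec_const 1, 0, fun R _ x => by simp⟩
  mul m l s := fun ⟨h1, C, hC⟩ t ⟨h2, D, hD⟩ => ⟨VS.sec_mul a h1 h2, C + D, fun R hR x => by
    rw [show (s * t) x * Ω R x ^ (m + l) = s x * Ω R x ^ m * (t x * Ω R x ^ l) by
      rw [Pi.mul_apply]; ring, norm_mul, add_mul, Real.exp_add]
    exact mul_le_mul (hC R hR x) (hD R hR x) (norm_nonneg _) (Real.exp_pos _).le⟩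

/-- roots of equations whose coefficients are tame sections -/
theorem root (a : B1a n M) (h2 : G.ALGR) {e : Chart n M} {δ : ℝ} {Ω : ℝ → M → ℂ} (he : Hc e)
    (ho : o ∈ e.source) (e0 : e o = 0) (hδ : 0 < δ) (sub : closedBall 0 δ ⊆ e.target)
    (near : ∀ z ∈ closedBall (0 : Cm n) δ, dist (e.symm z) o ≤ 1)
    (low : ∀ R, 2 ≤ R → IsSec n 1 (Ω R) ∧ ∀ z ∈ closedBall (0 : Cm n) δ, 1 / 2 ≤ ‖co 1 (Ω R) e z‖)
    {f : M → ℂ} (hf : IsSec n 0 f) {D N : ℕ} {w : ℕ → M → ℂ} (hw : ∀ j ≤ D, w j ∈ Tm G Ω N)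
    (w0 : w D ≠ 0) (h : ∀ x, ∑ j ∈ Finset.range (D + 1), w j x * f x ^ j = 0) : G.Mem f := by
  have hc := e.continuousAt ho
  rw [ContinuousAt, e0] at hc
  obtain ⟨y, y1, y2, y3⟩ := ((freq_ne a (hw D le_rfl).1 w0 o).and_eventually
    ((e.open_source.eventually_mem ho).and (hc.eventually (closedBall_mem_nhds 0 hδ)))).exists
  have c0 : 0 < ‖co (-N) (w D) e (e y)‖ * (1 / 2) ^ N := mul_pos (norm_pos_iff.2
    ((VS.co_ne a he (sub y3)).2 (by rwa [e.left_inv y2]))) (by positivity)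
  choose! k hk using fun j hj => (hw j hj).2
  obtain ⟨K, hK⟩ := ((finite_le_nat D).image k).bddAbove
  set c := ‖co (-N) (w D) e (e y)‖ * (1 / 2) ^ N
  refine h2 f D (max K |Real.log c|) hf fun R hR => ⟨fun j x => w j x * Ω R x ^ N, y,
    sec_pow a (hw D le_rfl).1 (low R hR).1, ?_, fun j hj x => (hk j hj R hR x).trans ?_, ?_,
      fun x => ?_⟩
  · have := near _ y3
    rw [e.left_inv y2] at this
    exact this.trans one_le_two
  · have := G.sc_pos R x
    gcongr
    exact le_max_of_le_left (hK ⟨j, hj, rfl⟩)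
  · have q : w D y * Ω R y ^ N = co (-N) (w D) e (e y) * co 1 (Ω R) e (e y) ^ N := by
      have := VS.jd_ne a he (sub y3)
      simp only [co, zpow_neg, zpow_natCast, zpow_one, mul_pow, e.left_inv y2] at this ⊢
      field_simp
    refine ((Real.le_log_iff_exp_le c0).1 ?_).trans ?_
    · nlinarith [le_max_right K |Real.log c|, neg_abs_le (Real.log c), G.one_le R,
        abs_nonneg (Real.log c)]
    · simp only [q, norm_mul, norm_pow]
      exact mul_le_mul_of_nonneg_left (pow_le_pow_left₀ (by positivity) ((low R hR).2 _ y3) N)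
        (norm_nonneg _)
  · rw [← mul_eq_zero_of_left (h x) (Ω R x ^ N), Finset.sum_mul]
    exact Finset.sum_congr rfl fun j _ => by ring

end Z0

variable [IsManifold 𝓘(ℂ, Cm n) 1 M] [IsManifold 𝓘(ℝ, Cm n) ∞ M]
  [IsContMDiffRiemannianBundle 𝓘(ℝ, Cm n) ∞ (Cm n) (fun x : M => TangentSpace 𝓘(ℝ, Cm n) x)]
  [IsRiemannianManifold 𝓘(ℝ, Cm n) M] [CompleteSpace M] [ConnectedSpace M] [NoncompactSpace M]
  [MeasurableSpace M] [BorelSpace M] {μ : Measure M}

open Z0 P253Y in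
/-- **Z0** -/
theorem z0 (c : Ctx n μ) (d : DJ n M) (h1 : G.FRN μ) (h2 : G.ALGR) : ∃ z, G.Co z := by
  have h := all c
  have a := h.a
  have et := T2.et a
  obtain ⟨e, δ, Ω, he, ho, e0, hδ, sub, near, low, l2⟩ := h1
  obtain ⟨e', he', hx, m, hm, s₀, s, h₀, hs, hne, hb⟩ := h.pk3 o
  have sx := fun i => (hs i).1
  have E := et.of_chart m s₀ s h₀.1 sx o e' he' hx hne hb
  obtain ⟨f₀, f, P, sf₀, sf, f0, rel, P0, hP⟩ := Big.alg a h.jet (Big.fr3 a h.b (ctx_wt c)
    (rb c.kahler a h.b) (ctx_hj c) (P253Z.gr a h.b h.v (ctx_mv c) (bg c a h.b))) (Big.lim' a)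
    (Big.orf a (tc c)) m s₀ s hm h₀ hs fun e => hne (congrFun e o)
  have g := Z0.gr (G := G) a Ω
  have t0 : s₀ ∈ Tm G Ω m := ⟨h₀.1, l2 m hm _ h₀⟩
  have key : ∀ (u : M → ℂ) (Q : Polynomial (Pz n)), IsSec n 0 u → Q ≠ 0 →
      (∀ x, s₀ x ≠ 0 → ev Q (Phi s₀ s x) (u x) = 0) → G.Mem u := fun u Q hu Q0 hQ => by
    choose D w hw hw' using fun j => T2.hom g t0 (fun i => ⟨sx i, l2 m hm _ (hs i)⟩) (Q.coeff j)
    obtain ⟨N, hN⟩ := ((finite_le_nat Q.natDegree).image D).bddAbove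
    have lt : ∀ j ≤ Q.natDegree, D j < N + 1 := fun j hj => Nat.lt_succ_of_le (hN ⟨j, hj, rfl⟩)
    have q : ∀ j ≤ Q.natDegree, ∀ x, (w j * s₀ ^ (N + 1 - D j)) x =
        s₀ x ^ (N + 1) * MvPolynomial.eval (Phi s₀ s x) (Q.coeff j) := fun j hj x => by
      rcases eq_or_ne (s₀ x) 0 with e | e
      · simp [e, Nat.sub_ne_zero_of_lt (lt j hj)]
      · rw [Pi.mul_apply, hw' j x e, Pi.pow_apply, mul_right_comm, ← pow_add,
          Nat.add_sub_cancel' (lt j hj).le]
    refine root a h2 he ho e0 hδ sub near low hu (D := Q.natDegree) (N := (N + 1) * m)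
      (w := fun j => w j * s₀ ^ (N + 1 - D j)) (fun j hj => ?_) (fun e => ?_) fun x => ?_
    · have := g.mul _ _ _ (hw j) _ (g.pow t0 (N + 1 - D j))
      rwa [← Nat.add_mul, Nat.add_sub_cancel' (lt j hj).le] at this
    · obtain ⟨V, ρ, j, -, -, hρ, -, j1, j2⟩ := et.inv m s₀ s h₀.1 sx o E
      obtain ⟨ζ, z1, z2⟩ := T2.exists_ne (Polynomial.leadingCoeff_ne_zero.2 Q0) _ hρ
      have := (q _ le_rfl (j ζ)).symm.trans (congrFun e (j ζ))
      rw [(j1 ζ z1).2] at this
      exact mul_ne_zero (pow_ne_zero _ (j2 _ (j1 ζ z1).1).1.1) z2 this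
    · rw [Finset.sum_congr rfl fun j hj => by
        rw [q j (Finset.mem_range_succ_iff.1 hj), mul_assoc], ← Finset.mul_sum]
      rcases eq_or_ne (s₀ x) 0 with e | e
      · simp [e]
      · rw [← Polynomial.eval₂_eq_sum_range, ← Polynomial.eval_map]
        exact mul_eq_zero_of_right _ (hQ x e)
  have r : ∀ i x, s₀ x ≠ 0 → f i x = Phi s₀ s x i * f₀ x := fun i x e => by
    rw [Phi, div_mul_eq_mul_div, ← rel, mul_div_cancel_right₀ _ e]
  have m0 := key f₀ P sf₀ P0 hP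
  have m1 := fun i => key (f i) _ (sf i) (Polynomial.scaleRoots_ne_zero P0 (.X i)) fun x e => by
    have := hP x e
    rw [ev, Polynomial.eval_map] at this ⊢
    simpa [r i x e] using Polynomial.scaleRoots_eval₂_eq_zero (s := .X i) _ this
  obtain ⟨x, x1, x2⟩ := (et.dense m s₀ s hm h₀.1 sx ⟨o, E⟩ 0 f₀ sf₀ f0 o).exists
  have mz := fun i => (m1 i).sub ((Gauge.mem_const (Phi s₀ s x i)).mul m0)
  refine ⟨_, mz, fun e => ?_⟩
  have k1 := mem_chart_source (Cm n) x
  have k2 := (pc n x).left_inv k1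
  have k3 := (sec0.1 sf₀ _ (a.chart x) _ (mem_chart_target _ x)).differentiableAt.hasFDerivAt.smul
    ((VS.Phi_an a h₀.1 sx (a.chart x) k1 x1.1).differentiableAt.hasFDerivAt.sub_const (Phi s₀ s x))
  refine (d.fd _ (fun i => (mz i).sec) _ (a.chart x) _ (mem_chart_target _ x)).2 ?_ (congrFun e _)
  rw [(k3.congr_of_eventuallyEq ?_).fderiv]
  · simp only [k2]
    rw [show (fun i => s i x / s₀ x) - Phi s₀ s x = 0 from sub_self _,
      ContinuousLinearMap.smulRight_zero, add_zero]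
    exact (MulAction.bijective (Units.mk0 _ x2)).comp (x1.2 _ (a.chart x) k1)
  · have := (pc n x).continuousAt_symm (mem_chart_target _ x)
    rw [ContinuousAt, k2] at this
    filter_upwards [this.eventually (VS.ne_nhds a h₀.1 x1.1)] with y hy
    funext i
    simp [mp, r i _ hy, Phi]
    ring

end Vale.Agent.P253W.T
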