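import Vale.Agent.P253W.T.Ta
import Vale.Agent.P253W.T.Affz
import Vale.Agent.P253W.T.Apx
import Vale.Agent.P253W.T.Brg
import Vale.Agent.P253W.T.Circ
import Vale.Agent.P253W.T.Dim
import Vale.Agent.P253W.T.Dj
import Vale.Agent.P253W.T.Dsc
import Vale.Agent.P253W.T.Dsp
import Vale.Agent.P253W.T.Flat
import Vale.Agent.P253W.T.Frg
import Vale.Agent.P253W.T.Gau
import Vale.Agent.P253W.T.Gb
import Vale.Agent.P253W.T.Jets
import Vale.Agent.P253W.T.Kh
import Vale.Agent.P253W.T.Kpc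
import Vale.Agent.P253W.T.Kpp
import Vale.Agent.P253W.T.Kpw
import Vale.Agent.P253W.T.Loga
import Vale.Agent.P253W.T.Lsp
import Vale.Agent.P253W.T.Near
import Vale.Agent.P253W.T.Nrm
import Vale.Agent.P253W.T.Plh
import Vale.Agent.P253W.T.Pot1
import Vale.Agent.P253W.T.Pot2
import Vale.Agent.P253W.T.Pro
import Vale.Agent.P253W.T.Ql0
import Vale.Agent.P253W.T.Quo
import Vale.Agent.P253W.T.Rbd
import Vale.Agent.P253W.T.Smo
import Vale.Agent.P253W.T.Sop
import Vale.Agent.P253W.T.Ut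
import Vale.Agent.P253W.T.Z0
import Vale.Agent.P253W.HK.Main

/-!
# P253W, block T: the assembly
-/

open scoped Manifold ContDiff Bundle ENNReal Topology ComplexOrder
open Bundle IsManifold MeasureTheory Set Metric Filter Vale.Agent.P253.Mfd Vale.Agent.P253Z
open Vale.Agent.P272.K (Cm Chart)

noncomputable section

namespace Vale.Agent.P253W.T

variable {n : ℕ} {M : Type} [MetricSpace M] [ChartedSpace (Cm n) M]
  [IsManifold 𝓘(ℂ, Cm n) 1 M] [IsManifold 𝓘(ℝ, Cm n) ∞ M]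
  [RiemannianBundle (fun x : M => TangentSpace 𝓘(ℝ, Cm n) x)]
  [IsContMDiffRiemannianBundle 𝓘(ℝ, Cm n) ∞ (Cm n) (fun x : M => TangentSpace 𝓘(ℝ, Cm n) x)]
  [IsRiemannianManifold 𝓘(ℝ, Cm n) M] [CompleteSpace M] [ConnectedSpace M] [NoncompactSpace M]
  [MeasurableSpace M] [BorelSpace M] {μ : Measure M}

theorem djC (c : Ctx n μ) : DJ n M := dj (all c).a (all c).b

theorem lspC (c : Ctx n μ) : LSP n M := lsp (all c).a (all c).b (all c).r (djC c)

theorem dspC (c : Ctx n μ) : DSP n M := dsp (all c).a (all c).b (djC c) (dsc c)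

theorem kpcC (c : Ctx n μ) : KPC n M :=
  kpc c (djC c) (lspC c) (dsc c) (dspC c) (pot pot1 pot2) (near (djC c))

theorem kppC (c : Ctx n μ) (h : HS n M) : KPP n M :=
  kpp c (djC c) (gb c (djC c)) (lspC c) (dsc c) (dspC c) h (near (djC c)) (kpcC c)
    (sop c (djC c) (dsc c))

/-- the tame algebra -/
theorem out [SimplyConnectedSpace M] (c : Ctx n μ) {o : M} (G : Gauge n o) {φ : ℝ → M → ℝ}
    (hφ : KRF n o φ) : ∃ Ω, Out G μ Ω := by
  have a := (all c).a
  have b := (all c).b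
  have d := djC c
  have l := lspC c
  have ql := ql0 c (HK.whM c) (HK.mvM c) o
  have mv := mvu c (HK.mvM c) o
  have h1 : G.QUOT := quot ql a
  have h2 : G.QUOB := quob a l h1
  have h3 : G.ALGR := algr l h2
  have h4 : G.ALGT := algt a h3
  have h5 : G.GRT := grt a b d (gb c d)
  have h6 := rell c (dim c G)
  have h7 := rel h6
  have h8 : G.BRG μ := brg a l ql
  have hz := z0 c d (frn c (frg c) G) h3
  obtain ⟨Ω, hO⟩ := triv_of G d hφ hz h5 (apx a b l G) (nrmm c l ql G) (flat c (plh n) o)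
    (kh c d l h8 mv) (lta d hz h6 h4) (k6 a b d l h5 h2 h4)
  have h9 := inh a b l hO (berg h8)
  have h10 := jacc a b d l hO h5 h1
  exact ⟨Ω, hO, hz, h5, trd h7, h4, jets c d hO h9, h10,
    affz a d hO (pro c) h9 (rbd a h7) h10 (circ a d),
    logg (smo c l hO) (loga c d l hO (berg h8) (fin c (dim c G)) mv), l2r c hO h9 h7,
    unia c hO h9 h7⟩

/-- **Block T.** -/
theorem blT [SimplyConnectedSpace M] (c : Ctx n μ) : BlT n μ := by
  rintro ⟨φ, hφ⟩
  have a := (all c).a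
  have b := (all c).b
  obtain ⟨G⟩ := gau c (Classical.arbitrary M)
  obtain ⟨Ω, h⟩ := out c G (hφ _)
  obtain ⟨h1, h2⟩ := flow_of h.triv (flw a b (lspC c)) hφ
  exact ⟨_, h1, h2, ta_of a (djC c) (lspC c) (gb c (djC c)) h1 G h
    (kpa a b _ h1 (kppC c (hs_of h.jets))) (kpw a b _ h1 (dsc c) (kpcC c))⟩

/-- `u_t` is tame -/
theorem utC : Of2 n μ fun _ _ T => T.UT := fun _ _ T p =>
  ut (lspC p.c) T p.is p.b1 p.low fun t ht e he z hz => (p.s3a.ric_pos t ht e he z hz).posSemidef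

end Vale.Agent.P253W.T
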