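import Vale.Agent.P253W.T.Basic
import Vale.Agent.P253W.Asm
import Vale.Agent.P253.R2.H451.Hull8
import Vale.Agent.P253Z.FR.A

/-!
# P253W, block T: the structure `TA`
-/

open scoped Manifold ContDiff Bundle ENNReal Topology ComplexConjugate ComplexOrder
open Bundle IsManifold MeasureTheory Set Metric Filter Vale.Agent.P253.Mfd Vale.Agent.P253Z
open Vale.Agent.P272.K (Cm dz dzb cHess jacM Chart)
open Vale.Agent.P253.R2.H451 (ContPsh SubS subS_const)
open Vale.Agent.P253Z.T2 (Pz Phi)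

noncomputable section

namespace Vale.Agent.P253W.T

variable {n : ℕ} {M : Type} [MetricSpace M] [ChartedSpace (Cm n) M]
  [RiemannianBundle (fun x : M => TangentSpace 𝓘(ℝ, Cm n) x)]

theorem gx_zero {F : Flow n M} (hF : F.Is) (x : M) : F.gx 0 x = hm (pc n x) (pc n x x) := by
  have h := FRa.cHess_smul 0 (fun _ : Cm n => (0 : ℝ)) (pc n x x)
  simp only [Flow.gx, Flow.g, hs, hF.zero]
  simp only [mul_zero, Complex.ofReal_zero, zero_smul] at h
  rw [h, sub_zero]

theorem u_zero {F : Flow n M} (hF : F.Is) : F.u 0 = lg n F.Ω := funext fun x => by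
  rw [Flow.u, gx_zero hF, lg, nrm, zpow_neg_one, div_eq_mul_inv, vd]

theorem H_zero {F : Flow n M} (hF : F.Is) (a : M → ℂ) (x : M) :
    F.H 0 x (da n a x) = gr n a x := by
  rw [Flow.H, gx_zero hF]
  rfl

theorem psh_gr (a : B1a n M) (d : DJ n M) (l : LSP n M) (g : GB n M) {f : M → ℂ}
    (hf : IsSec n 0 f) : ContPsh (Cm n) fun x => Real.log (max (gr n f x) 1) := by
  have hc : Continuous fun x => Real.log (max (gr n f x) 1) :=
    ((a.sm_cont _ (g.sm f hf)).max continuous_const).log fun x =>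
      (one_pos.trans_le (le_max_right _ _)).ne'
  refine ⟨hc, fun h c r hr h1 h2 => le_of_forall_pos_le_add fun δ hδ => ?_⟩
  have h3 : SubS (Cm n) (fun x => max (Real.log (δ + gr n f x)) 0) univ := by
    simpa using ((l.cont _ (g.psh 1 (fun _ => f) δ (fun _ => hf) hδ)).subS univ).sup
      (subS_const 0 univ)
  have h4 : ∀ x, Real.log (max (gr n f x) 1) ≤ max (Real.log (δ + gr n f x)) 0 := fun x => by
    rcases le_total (gr n f x) 1 with h5 | h5
    · rw [max_eq_right h5, Real.log_one]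
      exact le_max_right _ _
    · rw [max_eq_left h5]
      exact (Real.log_le_log (by linarith) (by linarith)).trans (le_max_left _ _)
  have h5 : ∀ x, max (Real.log (δ + gr n f x)) 0 ≤ Real.log (max (gr n f x) 1) + δ := fun x => by
    have e1 := le_max_left (gr n f x) 1
    have e2 := le_max_right (gr n f x) 1
    have e3 := d.gr_nonneg f x
    refine max_le ?_ (add_nonneg (Real.log_nonneg e2) hδ.le)
    rw [Real.log_le_iff_le_exp (by linarith), Real.exp_add, Real.exp_log (by linarith)]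
    nlinarith [Real.add_one_le_exp δ]
  have i1 : CircleIntegrable (fun z => Real.log (max (gr n f (h z)) 1)) c r :=
    ((hc.comp_continuousOn h1).mono sphere_subset_closedBall).circleIntegrable hr.le
  refine (h4 _).trans ((h3.contPsh.2 h c r hr h1 h2).trans ?_)
  refine (Real.circleAverage_mono (h3.circleIntegrable hr h1)
    (i1.add (circleIntegrable_const δ c r)) fun z _ => h5 _).trans_eq ?_
  rw [Real.circleAverage_add i1 (circleIntegrable_const δ c r), Real.circleAverage_const]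

variable [MeasurableSpace M] {μ : Measure M}

/-- everything that is proved about the tame algebra -/
structure Out {o : M} (G : Gauge n o) (μ : Measure M) (Ω : M → ℂ) : Prop where
  triv : G.Triv Ω
  co : ∃ z, G.Co z
  grt : G.GRT
  trd : G.TRD
  algt : G.ALGT
  jets : G.JETS
  jac : G.JAC Ω
  aff : G.AFFZ Ω
  log : G.LOG Ω
  l2r : G.L2R μ Ω
  unia : G.UNIA μ

theorem ta_of (a : B1a n M) (d : DJ n M) (l : LSP n M) (g : GB n M) {F : Flow n M} (hF : F.Is)
    (G : Gauge n F.o) (h : Out G μ F.Ω) (kpa : F.KPA) (kpw : KPE n M → F.KPW) :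
    Nonempty (F.TA μ) := by
  obtain ⟨C, hC, hlog⟩ := G.log_le
  have C0 : 0 < C := by linarith
  obtain ⟨z, hz⟩ := h.co
  obtain ⟨Q, hQ⟩ := h.aff z hz
  have tm : ∀ φ : M → ℝ, (∃ k : ℝ, ∀ x, φ x ≤ k * (C * G.A (F.r x))) ↔ G.Tame φ := fun φ =>
    ⟨fun ⟨k, hk⟩ => ⟨k * C, 0, fun x => by
      simpa [mul_assoc, Gauge.a, Flow.r] using hk x⟩, fun h' => by
      obtain ⟨k, -, hk⟩ := Gauge.tame_iff.1 h'
      exact ⟨k / C, fun x => (hk x).trans_eq (by unfold Gauge.a Flow.r; field_simp)⟩⟩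
  have A2 := G.A_pos 2
  refine ⟨
    { ga := fun s => C * G.A s
      ga_mono := G.mono.const_mul C0.le
      ga_one := fun s => one_le_mul_of_one_le_of_one_le hC (G.one_le s)
      ga_log := hlog
      ga_add := ⟨C * G.A 2, fun s t hs ht => ?_⟩
      ga_two := ⟨2, fun s _ => by nlinarith [G.A_two s]⟩
      ga_sub := ⟨1, fun s t hs ht => ?_⟩
      A := G.alg
      mem := fun f => ⟨fun hf => ?_, fun ⟨h1, k, hk⟩ =>
        ⟨k * C, h1, 0, fun x => by simpa [mul_assoc, Gauge.a, Flow.r] using hk x⟩⟩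
      eta := fun x => (h.jets.1 x).imp fun z hz => ⟨hz.1, div_ne_zero hz.2 (hF.ne x)⟩
      sep := h.jets.2
      jac := h.jac
      tdz := fun f hf => ?_
      u0 := by
        rw [u_zero hF]
        exact ⟨l.cont _ (l.triv _ hF.sec hF.ne).1, (tm _).2 h.triv.tame⟩
      trd := h.trd
      z := z
      Q := Q
      z_mem := hz.1
      Q_ne := hQ.ne
      z_et := fun x hx => div_ne_zero (hQ.et x hx) (hF.ne x)
      log := fun φ hφ => ?_
      l2r := by
        rw [u_zero hF]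
        obtain ⟨m, g₀, g, h1, h2, h3, h4⟩ := h.l2r
        exact ⟨m, g₀, g, h1, h2, h3, h4⟩
      kpa := kpa
      kpw := kpw
      fin := fun Φ hΦ => h.unia Φ fun i => ?_ }⟩
  · have h1 : G.A (s + t) ≤ G.A (max s 2 + t) := G.mono (by linarith [le_max_left s 2])
    have h2 : (0 : ℝ) < max s 2 := lt_max_of_lt_right two_pos
    have h3 := G.ratio (max s 2) (max s 2 + t) h2 (by linarith)
    have h4 := G.ratio 2 (max s 2) two_pos (le_max_right _ _)
    rw [add_div, div_self h2.ne', mul_add, mul_one] at h3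
    have h5 : G.A (max s 2) * (t / max s 2) ≤ G.A 2 * t := by
      refine (mul_le_mul_of_nonneg_right h4 (by positivity)).trans ?_
      have : G.A 2 * (max s 2 / 2) * (t / max s 2) = G.A 2 * t / 2 := by field_simp
      rw [this]
      nlinarith
    rw [G.A_max] at h3 h5
    nlinarith
  · have h1 := G.ratio s t (by linarith) ht
    rw [← mul_div_assoc, le_div_iff₀ (by linarith)] at h1
    nlinarith
  · obtain ⟨h1, k, -, hk⟩ := Gauge.mem_iff.1 hf
    exact ⟨h1, k / C, fun x => (hk x).trans_eq (by unfold Gauge.a Flow.r; congr 1; field_simp)⟩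
  · simp only [H_zero hF]
    refine ⟨psh_gr a d l g (Gauge.Mem.sec hf), (tm _).2 ((h.grt.1 f hf).of_le fun x => ?_)⟩
    have := d.gr_nonneg f x
    exact Real.log_le_log (one_pos.trans_le (le_max_right _ _)) (max_le (by linarith) (by linarith))
  · obtain ⟨k₀, hk⟩ := (tm φ).1 hφ.2
    obtain ⟨k, N, h1⟩ := h.log z Q hz.1 hQ k₀
    obtain ⟨D, hD⟩ := h1 φ hφ.1 hk
    refine ⟨Real.log D, N, k, N.cast_nonneg, k.cast_nonneg, fun x hx => ?_⟩
    have p1 : 0 < ‖pv z Q x‖ ^ k := pow_pos (norm_pos_iff.2 hx) k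
    have p2 : 0 < (1 + ‖mp z x‖) ^ N := by positivity
    have p3 := mul_pos (Real.exp_pos (φ x)) p1
    have h2 := Real.log_le_log p3 (hD x)
    rw [Real.log_mul (Real.exp_pos _).ne' p1.ne', Real.log_exp, Real.log_mul
      ((mul_pos_iff_of_pos_right p2).1 (p3.trans_le (hD x))).ne' p2.ne', Real.log_pow,
      Real.log_pow] at h2
    exact le_sub_iff_add_le.2 h2
  · classical
    obtain ⟨k, c, h1, h2, h3⟩ := hΦ i
    obtain ⟨D, hD, hmax⟩ := (Finset.univ.filter fun j => c j ≠ 0).exists_max_image id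
      (h2.imp fun j hj => by simpa using hj)
    let b : ℕ → M → ℂ := fun j => if hj : j < k then c ⟨j, hj⟩ else 0
    have hb : ∀ j : Fin k, b j = c j := fun j => dif_pos j.2
    refine h.algt _ D b ((a.sec_zero _).2 ?_) (fun j hj => ?_) (by simpa [hb] using hD) fun x => ?_
    · exact ((ContinuousLinearMap.proj (R := ℂ) (φ := fun _ : Fin n => ℂ)
        i).differentiable.mdifferentiable).comp (Φ.mdifferentiable one_ne_zero)
    · exact hb ⟨j, hj.trans_lt D.2⟩ ▸ h1 _
    · rw [← h3 x]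
      simp only [← hb]
      rw [Fin.sum_univ_eq_sum_range (fun j => b j x * Φ x i ^ j)]
      refine Finset.sum_subset (Finset.range_subset_range.2 D.2) fun j hj hj' => ?_
      have h4 : c ⟨j, Finset.mem_range.1 hj⟩ = 0 := by
        by_contra h5
        exact hj' (Finset.mem_range.2 (Nat.lt_succ_of_le (hmax ⟨j, _⟩ (by simpa using h5))))
      rw [show b j = 0 from (hb ⟨j, _⟩).trans h4, Pi.zero_apply, zero_mul]

omit [MeasurableSpace M] in
/-- the canonical bundle is trivial -/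
theorem triv_of {o : M} (G : Gauge n o) (d : DJ n M) {φ : ℝ → M → ℝ} (hφ : KRF n o φ)
    (hz : ∃ z, G.Co z) (h1 : G.GRT) (h2 : G.APX) (h3 : G.NRM) (h4 : FLAT n o) (h5 : G.KH)
    (h6 : G.LTA) (h7 : G.K6) : ∃ Ω, G.Triv Ω := by
  obtain ⟨z, hz⟩ := hz
  have s := d.sec z fun i => (hz.1 i).sec
  obtain ⟨σ, ε, k, a1, a2, a3⟩ := h2 φ _ hφ s (h1.2 z hz.1)
  obtain ⟨τ, k', b1, b2, b3⟩ := h3 _ σ ε k s hz.2 a1 a2 a3
  obtain ⟨Ω, c1, c2, c3⟩ := h4 τ ε _ b1 b3 Nat.hyperfilter_le_atTop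
  obtain ⟨h, d1, d2, d3⟩ := h5 z τ ε k' _ Ω hz b1 b2 Nat.hyperfilter_le_atTop c1 c2 c3
  exact ⟨Ω, h7 z Ω h hz c1 c2 d1 d2 (h6 _ Nat.hyperfilter_le_atTop _ d3)⟩

omit [MeasurableSpace M] in
/-- the flow -/
theorem flow_of {o : M} {G : Gauge n o} {Ω : M → ℂ} (hΩ : G.Triv Ω) (h : FLW n M)
    {φ : ℝ → M → ℝ} (hφ : ∀ q, KRF n q φ) :
    (⟨o, Ω, fun t x => t * lg n Ω x - φ t x⟩ : Flow n M).Is ∧
      (⟨o, Ω, fun t x => t * lg n Ω x - φ t x⟩ : Flow n M).YS :=
  have H := fun q => h q φ Ω (hφ q) hΩ.sec hΩ.ne ((hΩ.tame.lin q).imp fun _ h => h.2)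
  ⟨H o, fun q => (H q).ys⟩

end Vale.Agent.P253W.T
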