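import Vale.Agent.P253W.T.Basic
import Vale.Agent.P253W.Defs

/-!
# P253W, block T, row UT: `u_t` is tame
-/

open scoped Manifold ContDiff Bundle ENNReal Topology ComplexConjugate ComplexOrder
open Bundle IsManifold MeasureTheory Set Metric Filter Vale.Agent.P253.Mfd Vale.Agent.P253Z
open Vale.Agent.P272.K (Cm dz dzb cHess jacM Chart)

noncomputable section

namespace Vale.Agent.P253W.T

variable {n : ℕ} {M : Type} [MetricSpace M] [ChartedSpace (Cm n) M]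
  [RiemannianBundle (fun x : M => TangentSpace 𝓘(ℝ, Cm n) x)] [MeasurableSpace M] {μ : Measure M}

theorem Ut.bar {F : Flow n M} (T : F.TA μ) {q : ℝ} (hq : 0 ≤ q) : ∃ K : ℝ, 0 ≤ K ∧ ∀ R, 1 ≤ R →
    ∀ y, (R ^ 2 / T.ga R + q) * F.u 0 y ≤ 1 / 4 * (1 + F.r y) ^ 2 + K * R ^ 2 := by
  obtain ⟨C₀, h0⟩ := T.u0.2
  obtain ⟨C₁, h1⟩ := T.ga_sub
  have g1 := T.ga_one 1
  have c1 : 1 ≤ C₁ := by
    have := h1 1 1 le_rfl le_rfl
    nlinarith
  have a0 := abs_nonneg C₀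
  refine ⟨|C₀| + (|C₀| * (C₁ * (1 + q * T.ga 1))) ^ 2, by positivity, fun R hR y => ?_⟩
  have gR := T.ga_one R
  have r0 : 0 ≤ F.r y := dist_nonneg
  have h2 : F.u 0 y ≤ |C₀| * T.ga (F.r y) :=
    (h0 y).trans (mul_le_mul_of_nonneg_right (le_abs_self _) (by linarith [T.ga_one (F.r y)]))
  generalize F.r y = r at *
  have h3 : R ^ 2 / T.ga R * T.ga r ≤ R ^ 2 + C₁ * (R * (1 + r)) := by
    rw [div_mul_eq_mul_div, div_le_iff₀ (by linarith)]
    rcases le_total r R with h | h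
    · have := mul_le_mul_of_nonneg_left (T.ga_mono h) (sq_nonneg R)
      have : 0 ≤ C₁ * (R * (1 + r)) * T.ga R := by positivity
      nlinarith
    · have := mul_le_mul_of_nonneg_left (h1 R r hR h) (show 0 ≤ R by linarith)
      have : 0 ≤ (R ^ 2 + C₁ * R) * T.ga R := by positivity
      nlinarith
  have h4 : T.ga r ≤ C₁ * T.ga 1 * (R * (1 + r)) := by
    have e : 1 + r ≤ R * (1 + r) := le_mul_of_one_le_left (by linarith) hR
    have p : 0 ≤ C₁ * T.ga 1 := by positivity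
    refine le_trans ?_ (mul_le_mul_of_nonneg_left e p)
    rcases le_total r 1 with h | h
    · nlinarith [T.ga_mono h, mul_nonneg p r0]
    · nlinarith [h1 1 r le_rfl h]
  have h5 : (R ^ 2 / T.ga R + q) * T.ga r ≤ R ^ 2 + C₁ * (1 + q * T.ga 1) * (R * (1 + r)) := by
    nlinarith [mul_le_mul_of_nonneg_left h4 hq]
  have h6 := mul_le_mul_of_nonneg_left h2 (show 0 ≤ R ^ 2 / T.ga R + q by positivity)
  have h7 := mul_le_mul_of_nonneg_left h5 a0
  nlinarith [sq_nonneg ((1 + r) / 2 - |C₀| * (C₁ * (1 + q * T.ga 1)) * R)]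

/-- **Row UT.** -/
theorem ut (l : LSP n M) {F : Flow n M} (T : F.TA μ) (hI : F.Is) (h1 : F.Bas1) (h2 : F.LOW)
    (h3 : ∀ t, 0 ≤ t → ∀ e : Chart n M, Hc e → ∀ z ∈ e.target, (hs (F.u t) e z).PosSemidef) :
    T.UT := by
  intro t ht
  refine ⟨l.cont _ ⟨h1.sm_at _ h1.u_sm t ht, h3 t ht⟩, ?_⟩
  obtain ⟨K, hK, hb⟩ := Ut.bar T (q := t + 1) (by linarith)
  obtain ⟨b, -, b1, hl⟩ := h2
  obtain ⟨C, hC⟩ := hl t
  have g1 := T.ga_one 1
  have a0 := abs_nonneg C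
  refine ⟨(n * t + 6 + K + 4 * |C|) * T.ga 1, fun x => ?_⟩
  have r0 : 0 ≤ F.r x := dist_nonneg
  obtain ⟨R, hR⟩ : ∃ R, R = max (F.r x) 1 := ⟨_, rfl⟩
  have R1 : 1 ≤ R := hR ▸ le_max_right _ _
  have R2 : F.r x ≤ R := hR ▸ le_max_left _ _
  have gR := T.ga_one R
  have gx := T.ga_one (F.r x)
  have g2 : T.ga R ≤ T.ga 1 * T.ga (F.r x) := by
    rcases le_total (F.r x) 1 with h | h
    · rw [hR, max_eq_right h]
      nlinarith
    · rw [hR, max_eq_left h]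
      nlinarith
  have h4 := hI.ys _ _ _ (by positivity) (by norm_num) le_rfl (hb R R1) t ht x
  have h5 : (1 + F.r x) ^ (2 * b) ≤ (1 + F.r x) ^ 2 := by
    rw [← Real.rpow_two]
    exact Real.rpow_le_rpow_of_exponent_le (by linarith) (by linarith)
  have h6 : (1 + F.r x) ^ 2 ≤ 4 * R ^ 2 := by nlinarith
  have h7 : C * (1 + F.r x) ^ (2 * b) ≤ |C| * (4 * R ^ 2) :=
    (mul_le_mul_of_nonneg_right (le_abs_self C) (by positivity)).trans
      (mul_le_mul_of_nonneg_left (h5.trans h6) a0)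
  have h8 := hC t ⟨ht, le_rfl⟩ x
  rcases le_total (F.u t x) 0 with h | h
  · exact h.trans (by positivity)
  have h9 : R ^ 2 / T.ga R * F.u t x ≤ (n * t + 6 + K + 4 * |C|) * R ^ 2 := by
    have : 0 ≤ n * t * (R ^ 2 - 1) := mul_nonneg (by positivity) (by nlinarith)
    nlinarith
  rw [div_mul_eq_mul_div, div_le_iff₀ (by linarith), mul_right_comm, mul_comm _ (R ^ 2)] at h9
  refine (le_of_mul_le_mul_left h9 (by positivity)).trans ?_
  rw [mul_assoc]
  exact mul_le_mul_of_nonneg_left g2 (by positivity)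

end Vale.Agent.P253W.T
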